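import Vale.Agent.P092.H124.RankSt
import Vale.Agent.P092.H242.Rank
import Vale.Agent.P092.H515.Tgt
import Vale.Agent.P092.H19.ShB
import Vale.Agent.P092.H377.Com

/-!
P092 (helper124): the rank theorem for arbitrary `Λ` over the target groups `Tgt` of helper515
(linear groups over local fields, form groups, products).
-/

set_option linter.all false

open scoped InnerProductSpace
open Filter Topology ContinuousLinearMap

namespace Vale.Agent.P092.H124

open Matrix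
open Vale.Agent.P092.H160 Vale.Agent.P092.H553 Vale.Agent.P092.H200 Vale.Agent.P092.H432
open Vale.Agent.P092.H538 Vale.Agent.P092.H761 Vale.Agent.P092.H515
open Vale.Agent.P092.H377 Vale.Agent.P092.H655 Vale.Agent.P092.H103.St
open Vale.Agent.P092.H124.St

section

variable {G : Type} [Group G] [TopologicalSpace G] {r : ℕ} {Γ₀ Γ Λ : Type} [Group Γ₀] [Group Γ]
  [Group Λ]

theorem countable_of_tgt (h : Tgt G r) (φ : Γ₀ →* G)
    (hφ : ∀ K : Set G, IsCompact K → {x | φ x ∈ K}.Finite) : Countable Γ₀ := by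
  obtain ⟨J, hJ, gp, w, cl, hs⟩ := h
  have fin : ∀ R : ℝ, {g | w (φ g) ≤ R}.Finite := fun R => by
    obtain ⟨K, hK, h1⟩ := hs.proper R
    exact (hφ K hK).subset fun g hg => h1 _ hg
  rw [← Set.countable_univ_iff]
  have : (Set.univ : Set Γ₀) ⊆ ⋃ k : ℕ, {g | w (φ g) ≤ k} := by
    intro g _
    obtain ⟨k, hk⟩ := exists_nat_ge (w (φ g))
    exact Set.mem_iUnion.2 ⟨k, hk⟩
  exact (Set.countable_iUnion fun k : ℕ => (fin k).countable).mono this

/-- **The rank theorem**, row model, over `Tgt`. -/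
theorem not_arep_tgt (h : Tgt G r) (φ : Γ₀ →* G)
    (hφ : ∀ K : Set G, IsCompact K → {x | φ x ∈ K}.Finite) (hΛ : Multi r Λ) {ι : Type} [Fintype ι]
    {t : ℝ} {R : Λ → (Ell2 (Γ₀ × ι) →L[ℂ] Ell2 (Γ₀ × ι))} (hR : ARep t R) : False := by
  classical
  have hc := countable_of_tgt h φ hφ
  obtain ⟨J, _, gp, cl, hg, hgeo⟩ := h.discrete φ hφ
  exact rankAbs Γ₀ Λ J t (massR R) (H242.rowMass Γ₀ Λ ι t R hR) r gp cl hg
    (fun θ _ _ => hgeo _ θ) hΛ

/-- The same for groups containing `Γ₀` with finite index. -/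
theorem no_arep_tgt (h : Tgt G r) (φ : Γ₀ →* G)
    (hφ : ∀ K : Set G, IsCompact K → {x | φ x ∈ K}.Finite) (i : Γ₀ →* Γ)
    (hi : Function.Injective i) (hfi : i.range.FiniteIndex) (hΛ : CommNA r Λ)
    (ι : Type) [Fintype ι] (t : ℝ) (R : Λ → (Ell2 (Γ × ι) →L[ℂ] Ell2 (Γ × ι))) : ¬ ARep t R := by
  intro hR
  obtain ⟨κ, _, t₁, R₁, h2⟩ := arep_finiteIndex i hR hi
  exact not_arep_tgt h φ hφ (Λ := Λ) hΛ h2

theorem no_emb_tgt (h : Tgt G r) (φ : Γ₀ →* G)
    (hφ : ∀ K : Set G, IsCompact K → {x | φ x ∈ K}.Finite) (i : Γ₀ →* Γ)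
    (hi : Function.Injective i) (hfi : i.range.FiniteIndex) (hΛ : CommNA r Λ) (k : ℕ)
    (U : Λ → MOp k Γ) : ¬ TraceRep Λ Γ k U := by
  intro e
  obtain ⟨t, R, hR⟩ := H19.arep_of_traceRep e
  exact no_arep_tgt h φ hφ i hi hfi hΛ _ _ _ hR

theorem no_iso_tgt (h : Tgt G r) (φ : Γ₀ →* G)
    (hφ : ∀ K : Set G, IsCompact K → {x | φ x ∈ K}.Finite) (i : Γ₀ →* Γ)
    (hi : Function.Injective i) (hfi : i.range.FiniteIndex) (hΛ : CommNA r Λ)
    (hI : (∀ g : Γ, g ≠ 1 → Set.Infinite {y : Γ | ∃ h, y = h * g * h⁻¹}) ∨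
      (∀ g : Λ, g ≠ 1 → Set.Infinite {y : Λ | ∃ h, y = h * g * h⁻¹}))
    (k : ℕ) (p : MOp k Γ) (hp : IsProj p) : IsEmpty (CornerIso Λ Γ k p) := by
  refine ⟨fun c => ?_⟩
  obtain ⟨t, R, hR⟩ := H19.aframe_of_iso hp c hI
  exact no_arep_tgt h φ hφ i hi hfi hΛ _ _ _ hR.toARep

/-- Discrete subgroups. -/
theorem disc_tgt [IsTopologicalGroup G] [T2Space G] (Γ₀ : Subgroup G) (hd : DiscreteTopology Γ₀)
    (K : Set G) (hK : IsCompact K) : {x : Γ₀ | Γ₀.subtype x ∈ K}.Finite := by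
  have hcl : IsClosed (Γ₀ : Set G) := Subgroup.isClosed_of_discrete
  have h4 := hcl.isClosedEmbedding_subtypeVal.isCompact_preimage hK
  exact h4.finite_of_discrete

end

end Vale.Agent.P092.H124
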