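import Vale.Agent.P092.H790.CTA

/-!
P092, TEAM N (helper124), [N-KL], part 1: an operator `P` dominated by near-wall cut-offs kills `B` if
the near-wall count of `B` is polynomial; any group, any size function.
-/

set_option linter.all false

open scoped InnerProductSpace ENNReal
open Filter Topology ContinuousLinearMap MeasureTheory TopologicalSpace

namespace Vale.Agent.P092.H124.KL

open Vale.Agent.P092.SD (Ms UC)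
open Vale.Agent.P092.RC (Cm TRN Pic)
open Vale.Agent.P092.H790.CT (PicL)
open Vale.Agent.P092.H790.CTA (ORBG SIZEG mul_zero_of_dom of_poly)

section count

variable {E Γ K V : Type} [Group E] [Group Γ] [NormedAddCommGroup K] [InnerProductSpace ℂ K]
  [CompleteSpace K] {π : E →* (K →L[ℂ] K)} {lam : Γ →* (K →L[ℂ] K)} {W : Set (K →L[ℂ] K)} {Ω : K}
  {m : Set Γ → (K →L[ℂ] K)}
  [TopologicalSpace E] [IsTopologicalGroup E] [NormedAddCommGroup V] [ProperSpace V]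
  [MeasurableSpace V] [BorelSpace V] {μ : Measure V} [IsFiniteMeasureOnCompacts μ]
  [μ.IsOpenPosMeasure] {b : E} {n : V → E} {ρ : ℝ} {sz : Γ → ℝ}

theorem zero_of_count (hP : PicL π lam W Ω) (hM : Ms lam W Ω m) (hUC : UC π W Ω m)
    (hρ : 0 < ρ) (hρ1 : ρ < 1) (hnc : Tendsto n (𝓝 0) (𝓝 1)) (hORB : ORBG μ b n ρ π lam W Ω)
    (hsz : ∀ γ, ∃ d : ℝ, 1 ≤ d ∧ ∀ y, sz (γ * y) ≤ d * sz y) (hsz0 : ∀ γ, 0 < sz γ)
    (hS : SIZEG b π Ω m sz) {g : E} {B P : K →L[ℂ] K} (hB : Cm W B)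
    (hb : Commute B (π (g * b * g⁻¹))) (hn : ∀ s, Commute B (π (g * n s * g⁻¹)))
    {c : ℝ} {NA : ℝ → ℝ → Set Γ}
    (dom : ∀ ζ : K, ∀ ε > 0, ∃ R : ℝ, ∀ T > 0, ∀ᶠ N : ℕ in atTop,
      ‖P ζ‖ ≤ c * ‖m (NA R T) (π (g * b ^ N * g⁻¹)⁻¹ ζ)‖ + ε)
    (cnt : ∀ R : ℝ, ∃ T > 0, ∃ (C : ℝ) (d : ℕ), ∀ J : ℝ, 0 ≤ J → ∀ S : Finset Γ,
      (∀ γ ∈ S, γ ∈ NA R T ∧ Real.log (sz γ) ≤ J) →
        ∑ γ ∈ S, ‖adjoint B (lam γ Ω)‖ ^ 2 ≤ C * (1 + J) ^ d) : P * B = 0 := by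
  refine mul_zero_of_dom (μ := μ) (c := c) hP hM hUC hρ.le hnc hORB hsz hS hB hb hn ?_
  intro ζ ε hε
  obtain ⟨R, hR⟩ := dom ζ ε hε
  obtain ⟨T, hT, C, d, h⟩ := cnt R
  obtain ⟨η, hη, hp⟩ := of_poly (lam := lam) (Ω := Ω) (sz := sz) hρ hρ1 hsz0 d
  exact ⟨NA R T, ⟨η, hη, hp B (NA R T) C h⟩, hR T hT⟩

end count

section adj

variable {E Γ K X Y : Type} [Group E] [Group Γ] [NormedAddCommGroup K] [InnerProductSpace ℂ K]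
  [CompleteSpace K] {π : E →* (K →L[ℂ] K)} {lam : Γ →* (K →L[ℂ] K)} {W : Set (K →L[ℂ] K)} {Ω : K}
  [TopologicalSpace X] [CompactSpace X] [TopologicalSpace Y] [CompactSpace Y]

theorem star_calc (b : C(X, ℂ) →⋆ₐ[ℂ] (K →L[ℂ] K)) (f : C(X, ℂ)) : adjoint (b f) = b (star f) := by
  rw [← star_eq_adjoint, ← map_star]

/-- covariance, applied form -/
theorem cov_apply {b : C(X, ℂ) →⋆ₐ[ℂ] (K →L[ℂ] K)} {t : Γ → C(X, ℂ) → C(X, ℂ)}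
    (cov : ∀ γ f, lam γ * b f * lam γ⁻¹ = b (t γ f)) (γ : Γ) (f : C(X, ℂ)) (ξ : K) :
    b f (lam γ ξ) = lam γ (b (t γ⁻¹ f) ξ) := by
  have h1 := cov γ⁻¹ f
  rw [inv_inv] at h1
  have h2 : lam γ * lam γ⁻¹ = 1 := by rw [← map_mul, mul_inv_cancel, map_one]
  calc b f (lam γ ξ) = ((lam γ * lam γ⁻¹) * b f * lam γ) ξ := by rw [h2, one_mul]; rfl
    _ = lam γ ((lam γ⁻¹ * b f * lam γ) ξ) := rfl
    _ = lam γ (b (t γ⁻¹ f) ξ) := by rw [h1]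

/-- the count of `l g * b a` -/
theorem norm_adj (hP : PicL π lam W Ω) {b : C(X, ℂ) →⋆ₐ[ℂ] (K →L[ℂ] K)}
    {l : C(Y, ℂ) →⋆ₐ[ℂ] (K →L[ℂ] K)} {t : Γ → C(X, ℂ) → C(X, ℂ)} {t' : Γ → C(Y, ℂ) → C(Y, ℂ)}
    (covb : ∀ γ f, lam γ * b f * lam γ⁻¹ = b (t γ f))
    (covl : ∀ γ f, lam γ * l f * lam γ⁻¹ = l (t' γ f)) (a : C(X, ℂ)) (g : C(Y, ℂ)) (γ : Γ) :
    ‖adjoint (l g * b a) (lam γ Ω)‖ = ‖b (t γ⁻¹ (star a)) (l (t' γ⁻¹ (star g)) Ω)‖ := by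
  have h1 : adjoint (l g * b a) = b (star a) * l (star g) := by
    rw [← star_eq_adjoint, star_mul, star_eq_adjoint, star_eq_adjoint, star_calc, star_calc]
  rw [h1]
  change ‖b (star a) (l (star g) (lam γ Ω))‖ = _
  rw [cov_apply covl, cov_apply covb, H790.CT.lam_norm hP]

end adj

end Vale.Agent.P092.H124.KL
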