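import Vale.Agent.P092.H100.Gr2
import Vale.Agent.P092.H289.Adp

/-!
P092, TEAM N (helper124), [N-KL], part 2: geometry of the source. For a hyperplane `C` and a line `l`
not in `C` there is `g ∈ SL_(N+1)(F)` with `g • {x 0 = 0} = C`, `g • ⟨e_0, e_1⟩ = l`. The dual wall
element (scalar on `{x 0 = 0}` and on `e_0`) and the dual root group `x ↦ x - s x_0 e_1` fix
`{x 0 = 0}`, all its subspaces and `⟨e_0, e_1⟩`.
-/

set_option linter.all false

open Module Set
open scoped Matrix Pointwise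

namespace Vale.Agent.P092.H124.KL

open Vale.Agent.P092.H100.Gr

section src

variable {F : Type*} [Field F] {N : ℕ}

/-- the hyperplane `x 0 = 0` -/
def H0 (F : Type*) [Field F] (N : ℕ) : Submodule F (Fin (N + 1) → F) :=
  LinearMap.ker (LinearMap.proj (R := F) (φ := fun _ : Fin (N + 1) => F) 0)

theorem mem_H0 {x : Fin (N + 1) → F} : x ∈ H0 F N ↔ x 0 = 0 := LinearMap.mem_ker

theorem finrank_H0 : finrank F (H0 F N) = N := by
  have h1 := LinearMap.finrank_range_add_finrank_ker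
    (LinearMap.proj (R := F) (φ := fun _ : Fin (N + 1) => F) 0)
  have h2 : LinearMap.range (LinearMap.proj (R := F) (φ := fun _ : Fin (N + 1) => F) 0) = ⊤ := by
    rw [LinearMap.range_eq_top]
    intro c
    exact ⟨fun _ => c, rfl⟩
  rw [h2, finrank_top, finrank_self, finrank_fintype_fun_eq_card, Fintype.card_fin] at h1
  have h3 : finrank F (H0 F N) = finrank F (LinearMap.ker
    (LinearMap.proj (R := F) (φ := fun _ : Fin (N + 1) => F) 0)) := rfl
  omega

/-- the line `⟨e_0, e_1⟩` of the projective space -/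
def L0 (F : Type*) [Field F] (N : ℕ) : Submodule F (Fin (N + 1) → F) :=
  Submodule.span F {Pi.single 0 1, Pi.single 1 1}

theorem finrank_L0 (hN : 1 ≤ N) : finrank F (L0 F N) = 2 := by
  have h01 : (0 : Fin (N + 1)) ≠ 1 := by
    obtain ⟨m, rfl⟩ : ∃ m, N = m + 1 := ⟨N - 1, by omega⟩
    exact Fin.zero_ne_one
  have h1 : LinearIndependent F ![(Pi.single 0 1 : Fin (N + 1) → F), Pi.single 1 1] := by
    rw [LinearIndependent.pair_iff]
    intro s t h
    have h2 := congrFun h 0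
    have h3 := congrFun h 1
    simp [h01, h01.symm] at h2 h3
    exact ⟨h2, h3⟩
  have h2 := finrank_span_eq_card h1
  rw [Fintype.card_fin] at h2
  have h3 : Set.range ![(Pi.single 0 1 : Fin (N + 1) → F), Pi.single 1 1] =
      {Pi.single 0 1, Pi.single 1 1} := by
    rw [Matrix.range_cons, Matrix.range_cons, Matrix.range_empty, union_empty]
    rfl
  rw [h3] at h2
  exact h2

theorem L0_not_le : ¬ L0 F N ≤ H0 F N := by
  intro h
  have h1 : (Pi.single 0 1 : Fin (N + 1) → F) ∈ H0 F N :=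
    h (Submodule.subset_span (by simp))
  rw [mem_H0, Pi.single_eq_same] at h1
  exact one_ne_zero h1

/-- dimension of the intersection -/
theorem finrank_inf {C l : Submodule F (Fin (N + 1) → F)} (hC : finrank F C = N)
    (hl : finrank F l = 2) (h : ¬ l ≤ C) : finrank F ↥(C ⊓ l) = 1 := by
  have h1 := Submodule.finrank_sup_add_finrank_inf_eq C l
  have h2 : C < C ⊔ l := by
    refine lt_of_le_of_ne le_sup_left fun e => h ?_
    rw [e]
    exact le_sup_right
  have h3 := Submodule.finrank_lt_finrank_of_lt h2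
  have h4 : finrank F ↥(C ⊔ l) ≤ N + 1 := by
    have := Submodule.finrank_le (C ⊔ l)
    rwa [finrank_fintype_fun_eq_card, Fintype.card_fin] at this
  omega

/-- the hyperplane `x 0 = 0`, as a point of the Grassmannian -/
def H0g (F : Type*) [Field F] (N : ℕ) : Gr F (Fin (N + 1)) N := ⟨H0 F N, finrank_H0⟩

/-- the line `⟨e_0, e_1⟩`, as a point of the Grassmannian -/
def L0g (F : Type*) [Field F] {N : ℕ} (hN : 1 ≤ N) : Gr F (Fin (N + 1)) 2 :=
  ⟨L0 F N, finrank_L0 hN⟩

/-- **standard position** -/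
theorem exists_std (hN : 1 ≤ N) (C : Gr F (Fin (N + 1)) N) (l : Gr F (Fin (N + 1)) 2)
    (h : ¬ l.1 ≤ C.1) : ∃ g : Matrix.SpecialLinearGroup (Fin (N + 1)) F,
      g • H0g F N = C ∧
      g • L0g F hN = l := by
  obtain ⟨g, h1, h2⟩ := H289.exists_sl_pair (X := H0 F N) (Y := L0 F N) (X' := C.1) (Y' := l.1)
    (finrank_H0.trans C.2.symm) ((finrank_L0 hN).trans l.2.symm)
    ((finrank_inf finrank_H0 (finrank_L0 hN) L0_not_le).trans (finrank_inf C.2 l.2 h).symm)
  exact ⟨g, Subtype.ext h1, Subtype.ext h2⟩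

/-- `β` is a scalar on `{x 0 = 0}` and preserves `⟨e_0, e_1⟩` -/
structure Fx (β : Matrix.SpecialLinearGroup (Fin (N + 1)) F) : Prop where
  sc : ∃ c : F, ∀ x : Fin (N + 1) → F, x 0 = 0 → β • x = c • x
  e0 : β • (Pi.single 0 1 : Fin (N + 1) → F) ∈ L0 F N

theorem smul_eq_of_le {j : ℕ} (β : Matrix.SpecialLinearGroup (Fin (N + 1)) F)
    (Z : Gr F (Fin (N + 1)) j) (h : ∀ x ∈ Z.1, β • x ∈ Z.1) : β • Z = Z := by
  refine Subtype.ext (Submodule.eq_of_le_of_finrank_eq ?_ ?_)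
  · rintro _ ⟨x, hx, rfl⟩
    exact h x hx
  · rw [(β • Z).2, Z.2]

theorem Fx.fix_le {β : Matrix.SpecialLinearGroup (Fin (N + 1)) F} (h : Fx β) {j : ℕ}
    (Z : Gr F (Fin (N + 1)) j) (hZ : Z.1 ≤ H0 F N) : β • Z = Z := by
  obtain ⟨c, hc⟩ := h.sc
  refine smul_eq_of_le β Z fun x hx => ?_
  rw [hc x (mem_H0.1 (hZ hx))]
  exact Z.1.smul_mem c hx

theorem Fx.fix_L0 {β : Matrix.SpecialLinearGroup (Fin (N + 1)) F} (h : Fx β) (hN : 1 ≤ N) :
    β • L0g F hN = L0g F hN := by
  have h01 : (0 : Fin (N + 1)) ≠ 1 := by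
    obtain ⟨m, rfl⟩ : ∃ m, N = m + 1 := ⟨N - 1, by omega⟩
    exact Fin.zero_ne_one
  obtain ⟨c, hc⟩ := h.sc
  refine smul_eq_of_le β _ fun x hx => ?_
  change x ∈ L0 F N at hx
  change β • x ∈ L0 F N
  rw [L0, Submodule.mem_span_pair] at hx
  obtain ⟨a, b, rfl⟩ := hx
  rw [smul_add, smul_comm β a, smul_comm β b]
  refine (L0 F N).add_mem ((L0 F N).smul_mem a h.e0) ((L0 F N).smul_mem b ?_)
  rw [hc _ (by simp [h01])]
  exact (L0 F N).smul_mem c (Submodule.subset_span (by simp))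

/-- the conjugates fix `l` and every subspace of `C` -/
theorem Fx.conj {β : Matrix.SpecialLinearGroup (Fin (N + 1)) F} (h : Fx β) (hN : 1 ≤ N)
    {g : Matrix.SpecialLinearGroup (Fin (N + 1)) F} {C : Gr F (Fin (N + 1)) N}
    {l : Gr F (Fin (N + 1)) 2} (hC : g • H0g F N = C)
    (hl : g • L0g F hN = l) :
    (g * β * g⁻¹) • l = l ∧
      ∀ {j : ℕ} (Z : Gr F (Fin (N + 1)) j), Z.1 ≤ C.1 → (g * β * g⁻¹) • Z = Z := by
  constructor
  · rw [← hl, mul_smul, inv_smul_smul, mul_smul, h.fix_L0 hN]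
  · intro j Z hZ
    have h1 : (g⁻¹ • Z).1 ≤ H0 F N := by
      have h2 : (g • (g⁻¹ • Z)).1 ≤ (g • H0g F N).1 := by
        rw [smul_inv_smul, hC]
        exact hZ
      exact smul_le.1 h2
    rw [mul_smul, mul_smul, h.fix_le _ h1, smul_inv_smul]

end src

end Vale.Agent.P092.H124.KL
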