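import Vale.Agent.P092.SN.Defs
import Vale.Agent.P092.H124.KL1
import Vale.Agent.P092.H124.KL2

/-!
P092, TEAM N (helper124), [N-KL], part 3: the dual wall element and the dual root group in the letters
of `SN/Defs`, the hyperplanes under `ct`, homomorphisms modulo scalars.
-/

set_option linter.all false

open scoped InnerProductSpace ENNReal LinearAlgebra.Projectivization Matrix
open Filter Topology ContinuousLinearMap MeasureTheory TopologicalSpace

namespace Vale.Agent.P092.H124.KL

open Vale.Agent.P092.SN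
open Vale.Agent.P092.RC (Cm TRN Moore GG YY y0 ct)
open Vale.Agent.P092.H100.Gr (Gr)
open Vale.Agent.P092.H644.Gr3 (p1 hyp)

section mats

variable {k : Type} [NontriviallyNormedField k] {N : ℕ}

theorem smul_def (g : GG k N) (x : Fin (N + 1) → k) : g • x = g.1 *ᵥ x := rfl

theorem ct_ct (g : GG k N) : ct (ct g) = g := by
  apply Subtype.ext
  have e : (ct g)⁻¹ = ct g⁻¹ := (map_inv ct g).symm
  change (((ct g)⁻¹).1)ᵀ = g.1
  rw [e]
  change (((g⁻¹)⁻¹).1ᵀ)ᵀ = g.1
  rw [inv_inv, Matrix.transpose_transpose]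

theorem ct_continuous : Continuous (ct : GG k N →* GG k N) := by
  have h1 : Continuous fun g : GG k N => (g⁻¹).1 := by
    have e : (fun g : GG k N => (g⁻¹).1) = fun g : GG k N => g.1.adjugate := by
      funext g
      exact Matrix.SpecialLinearGroup.coe_inv g
    rw [e]
    exact continuous_subtype_val.matrix_adjugate
  exact Continuous.subtype_mk h1.matrix_transpose _

/-- `(ct g x) · (g v) = x · v` -/
theorem ct_dot (g : GG k N) (x v : Fin (N + 1) → k) : (ct g • x) ⬝ᵥ (g • v) = x ⬝ᵥ v := by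
  have e : (ct g).1 = ((g⁻¹).1)ᵀ := rfl
  rw [smul_def, smul_def, e, Matrix.mulVec_transpose, ← Matrix.dotProduct_mulVec,
    Matrix.mulVec_mulVec]
  have h1 : (g⁻¹).1 * g.1 = 1 := by
    rw [← Matrix.SpecialLinearGroup.coe_mul, inv_mul_cancel, Matrix.SpecialLinearGroup.coe_one]
  rw [h1, Matrix.one_mulVec]

/-- hyperplanes under the group -/
theorem hyp_ct (g : GG k N) (x : YY k N) : hyp (ct g • x) = g • hyp x := by
  induction x using Projectivization.ind with | h w hw => ?_
  have hw' : ct g • w ≠ 0 := (smul_ne_zero_iff_ne (ct g)).2 hw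
  have e : ct g • Projectivization.mk k w hw = Projectivization.mk k (ct g • w) hw' := rfl
  rw [e]
  refine Subtype.ext ?_
  ext v
  rw [H644.Gr3.mem_hyp, H100.Gr.mem_smul, H644.Gr3.mem_hyp]
  have h1 := ct_dot g w (g⁻¹ • v)
  rw [smul_inv_smul] at h1
  rw [h1]

theorem hyp_y0 : hyp (y0 : YY k N) = H0g k N := by
  refine Subtype.ext ?_
  ext v
  rw [y0, H644.Gr3.mem_hyp]
  change _ ↔ v ∈ H0 k N
  rw [mem_H0, single_one_dotProduct]

/-- the dual wall element is a scalar on `x 0 = 0` and on `e_0` -/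
theorem ct_bw (w : kˣ) (x : Fin (N + 1) → k) (i : Fin (N + 1)) :
    (ct (bw w : GG k N) • x) i = (if i = 0 then (w : k) ^ N else ((w⁻¹ : kˣ) : k)) * x i := by
  have hinv : ((bw w : GG k N)⁻¹).1 =
      Matrix.diagonal fun i => if i = 0 then (w : k) ^ N else ((w⁻¹ : kˣ) : k) := by
    have h0 : (w : k) ≠ 0 := w.ne_zero
    have h1 : (bw w : GG k N).1 *
        (Matrix.diagonal fun i => if i = 0 then (w : k) ^ N else ((w⁻¹ : kˣ) : k)) = 1 := by
      rw [bw, Matrix.diagonal_mul_diagonal]
      rw [← Matrix.diagonal_one]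
      congr 1
      funext i
      by_cases hi : i = 0
      · simp only [hi, if_true]
        rw [← mul_pow, ← Units.val_mul, inv_mul_cancel, Units.val_one, one_pow]
      · simp only [hi, if_false]
        rw [← Units.val_mul, mul_inv_cancel, Units.val_one]
    have h2 : ((bw w : GG k N)⁻¹).1 * (bw w : GG k N).1 = 1 := by
      rw [← Matrix.SpecialLinearGroup.coe_mul, inv_mul_cancel, Matrix.SpecialLinearGroup.coe_one]
    calc ((bw w : GG k N)⁻¹).1 = ((bw w : GG k N)⁻¹).1 * ((bw w : GG k N).1 *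
        (Matrix.diagonal fun i => if i = 0 then (w : k) ^ N else ((w⁻¹ : kˣ) : k))) := by
          rw [h1, mul_one]
      _ = _ := by rw [← mul_assoc, h2, one_mul]
  have e : (ct (bw w : GG k N)).1 = (((bw w : GG k N)⁻¹).1)ᵀ := rfl
  rw [smul_def, e, hinv, Matrix.diagonal_transpose, Matrix.mulVec_diagonal]

theorem fx_bw (w : kˣ) : Fx (ct (bw w : GG k N)) where
  sc := ⟨((w⁻¹ : kˣ) : k), fun x hx => by
    funext i
    rw [ct_bw, Pi.smul_apply, smul_eq_mul]
    by_cases hi : i = 0
    · rw [hi, hx, mul_zero, mul_zero]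
    · rw [if_neg hi]⟩
  e0 := by
    have h : ct (bw w : GG k N) • (Pi.single 0 1 : Fin (N + 1) → k) =
        (w : k) ^ N • (Pi.single 0 1 : Fin (N + 1) → k) := by
      funext i
      rw [ct_bw, Pi.smul_apply, smul_eq_mul]
      by_cases hi : i = 0
      · rw [if_pos hi]
      · rw [if_neg hi, Pi.single_eq_of_ne hi, mul_zero, mul_zero]
    rw [h]
    exact (L0 k N).smul_mem _ (Submodule.subset_span (by simp))

/-- the dual root group `x ↦ x - s x_0 e_1` -/
theorem ct_un {j : Fin (N + 1)} (hj : (0 : Fin (N + 1)) ≠ j) (s : k) (x : Fin (N + 1) → k) :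
    ct (un hj s) • x = x - (s * x 0) • Pi.single j 1 := by
  have hinv : ((un hj s)⁻¹).1 = Matrix.transvection 0 j (-s) := by
    have h1 : (un hj s).1 * Matrix.transvection 0 j (-s) = 1 := by
      change Matrix.transvection 0 j s * Matrix.transvection 0 j (-s) = 1
      rw [Matrix.transvection_mul_transvection_same 0 j hj, add_neg_cancel,
        Matrix.transvection_zero]
    have h2 : ((un hj s)⁻¹).1 * (un hj s).1 = 1 := by
      rw [← Matrix.SpecialLinearGroup.coe_mul, inv_mul_cancel, Matrix.SpecialLinearGroup.coe_one]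
    calc ((un hj s)⁻¹).1 = ((un hj s)⁻¹).1 * ((un hj s).1 * Matrix.transvection 0 j (-s)) := by
          rw [h1, mul_one]
      _ = _ := by rw [← mul_assoc, h2, one_mul]
  have e : (ct (un hj s)).1 = (((un hj s)⁻¹).1)ᵀ := rfl
  rw [smul_def, e, hinv]
  funext i
  rw [Matrix.transvection, Matrix.transpose_add, Matrix.transpose_one, Matrix.transpose_single,
    Matrix.add_mulVec, Matrix.one_mulVec]
  simp only [Pi.add_apply, Pi.sub_apply, Pi.smul_apply, smul_eq_mul]
  rw [Matrix.single_mulVec]
  by_cases hi : i = j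
  · subst hi
    simp [Function.update]
    ring
  · simp [Function.update, hi]

theorem fx_un (h01 : (0 : Fin (N + 1)) ≠ 1) (s : k) : Fx (ct (un h01 s)) where
  sc := ⟨1, fun x hx => by rw [ct_un, hx, mul_zero, zero_smul, sub_zero, one_smul]⟩
  e0 := by
    rw [ct_un]
    refine (L0 k N).sub_mem (Submodule.subset_span (by simp)) ((L0 k N).smul_mem _
      (Submodule.subset_span (by simp)))

end mats

end Vale.Agent.P092.H124.KL
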