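import Vale.Agent.P092.SN.Blocks
import Vale.Agent.P092.H124.KL3
import Vale.Agent.P092.H218.NDen

/-!
P092, TEAM N (helper124), [N-KL]: `SN.KeyStmt k μ` from `SN.NJBStmt k`, every local field `k`.

`λ_C(u) G_l(g) E_b(a) = 0` for a hyperplane `C`, a line `l` not in `C`, a point `b ∈ C` off `l`, no point
of `supp a` on a hyperplane of `supp u`. The dual wall element and the dual root group at
`(C, l)` in standard position fix `l` and all points of `C`; the count of `B = G_l(g) E_b(a)` is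
polynomial by (NJB).
-/

set_option linter.all false

open scoped InnerProductSpace ENNReal LinearAlgebra.Projectivization Matrix
open Filter Topology ContinuousLinearMap MeasureTheory TopologicalSpace

namespace Vale.Agent.P092.H124.KL

open Vale.Agent.P092.SN
open Vale.Agent.P092.SD (Ms UC)
open Vale.Agent.P092.RC (Cm TRN Moore GG PG YY y0 ct)
open Vale.Agent.P092.H790.CTA (ORBG SIZEG)
open Vale.Agent.P092.H100.Gr (Gr)
open Vale.Agent.P092.H644.Gr3 (p1 hyp)

/-! ### Sizes -/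

section size

variable {k : Type} [NontriviallyNormedField k] {N : ℕ}

theorem le_nm (h : GG k N) (i j : Fin (N + 1)) : ‖h.1 i j‖ ≤ nm h :=
  (norm_le_pi_norm (fun j => h.1 i j) j).trans
    (norm_le_pi_norm (fun i j => h.1 i j : Fin (N + 1) → Fin (N + 1) → k) i)

theorem nm_le {h : GG k N} {c : ℝ} (hc : 0 ≤ c) (H : ∀ i j, ‖h.1 i j‖ ≤ c) : nm h ≤ c :=
  (pi_norm_le_iff_of_nonneg hc).2 fun i => (pi_norm_le_iff_of_nonneg hc).2 fun j => H i j

theorem nm_nonneg (h : GG k N) : 0 ≤ nm h := norm_nonneg _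

theorem nm_pos (h : GG k N) : 0 < nm h := by
  refine lt_of_le_of_ne (nm_nonneg h) fun h0 => ?_
  have h1 : h.1 = 0 := by
    ext i j
    have h2 := le_nm h i j
    rw [← h0] at h2
    exact norm_le_zero_iff.1 h2
  have h3 := h.2
  rw [h1, Matrix.det_zero] at h3
  exact zero_ne_one h3

theorem nm_mul_le (g h : GG k N) : nm (g * h) ≤ (N + 1) * nm g * nm h := by
  have h1 := nm_nonneg g
  have h2 := nm_nonneg h
  refine nm_le (by positivity) fun i j => ?_
  rw [Matrix.SpecialLinearGroup.coe_mul, Matrix.mul_apply]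
  refine (norm_sum_le _ _).trans ?_
  calc ∑ l, ‖g.1 i l * h.1 l j‖ ≤ ∑ _l : Fin (N + 1), nm g * nm h := by
        refine Finset.sum_le_sum fun l _ => ?_
        rw [norm_mul]
        exact mul_le_mul (le_nm g i l) (le_nm h l j) (norm_nonneg _) h1
    _ = (N + 1) * nm g * nm h := by
        rw [Finset.sum_const, Finset.card_univ, Fintype.card_fin, nsmul_eq_mul]
        push_cast
        ring

theorem norm_scalar {g h : GG k N} {c : k} (e : g.1 = c • h.1) : ‖c‖ = 1 := by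
  have h1 := congrArg Matrix.det e
  rw [g.2, Matrix.det_smul, h.2, mul_one, Fintype.card_fin] at h1
  have h2 : ‖c‖ ^ (N + 1) = 1 := by rw [← norm_pow, ← h1, norm_one]
  exact (pow_eq_one_iff_of_nonneg (norm_nonneg _) (Nat.succ_ne_zero N)).1 h2

theorem nm_ct_scalar {g h : GG k N} {c : k} (e : g.1 = c • h.1) : nm (ct g) = nm (ct h) := by
  have hc := norm_scalar e
  have e1 : (g⁻¹).1 = c ^ N • (h⁻¹).1 := by
    rw [Matrix.SpecialLinearGroup.coe_inv, Matrix.SpecialLinearGroup.coe_inv, e,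
      Matrix.adjugate_smul, Fintype.card_fin, Nat.add_sub_cancel]
  have e2 : ∀ i j, ‖(ct g).1 i j‖ = ‖(ct h).1 i j‖ := by
    intro i j
    change ‖(g⁻¹).1 j i‖ = ‖(h⁻¹).1 j i‖
    rw [e1, Matrix.smul_apply, smul_eq_mul, norm_mul, norm_pow, hc, one_pow, one_mul]
  refine le_antisymm (nm_le (nm_nonneg _) fun i j => ?_) (nm_le (nm_nonneg _) fun i j => ?_)
  · rw [e2]; exact le_nm _ i j
  · rw [← e2]; exact le_nm _ i j

theorem size_trans {Γ : Type} [Group Γ] {q : Γ → GG k N} (hq : PH q) (γ : Γ) :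
    ∃ d : ℝ, 1 ≤ d ∧ ∀ y, nm (ct (q (γ * y))) ≤ d * nm (ct (q y)) := by
  refine ⟨max 1 ((N + 1) * nm (ct (q γ))), le_max_left _ _, fun y => ?_⟩
  obtain ⟨c, hc⟩ := hq γ y
  rw [nm_ct_scalar hc, map_mul]
  exact (nm_mul_le _ _).trans (mul_le_mul_of_nonneg_right (le_max_right _ _) (nm_nonneg _))

end size

/-! ### Functions -/

section fun'

variable {k : Type} [NontriviallyNormedField k] [ProperSpace k] {N : ℕ}

theorem tsupport_star {X : Type*} [TopologicalSpace X] (v : C(X, ℂ)) :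
    tsupport ⇑(star v) = tsupport ⇑v := by
  unfold tsupport
  congr 1
  ext x; simp [Function.mem_support]

theorem tsupport_fh (u : CG k N N) : tsupport (fh u) ⊆ hyp ⁻¹' tsupport u := by
  refine closure_minimal ?_ ((isClosed_tsupport u).preimage H644.Gr3.hyp_cont)
  intro x hx
  exact subset_tsupport u hx

/-- the hyperplanes which meet a compact set of points -/
theorem isClosed_meet (a : CG k N 1) :
    IsClosed {M : YY k N | ∃ x ∈ tsupport a, x.1 ≤ (hyp M).1} := by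
  have h1 : {M : YY k N | ∃ x ∈ tsupport a, x.1 ≤ (hyp M).1} =
      Prod.snd '' ({p : Gr k (Fin (N + 1)) 1 × YY k N | p.1.1 ≤ (hyp p.2).1} ∩
        (tsupport a ×ˢ Set.univ)) := by
    ext M
    constructor
    · rintro ⟨x, hx, hM⟩
      exact ⟨(x, M), ⟨hM, hx, trivial⟩, rfl⟩
    · rintro ⟨⟨x, M'⟩, ⟨h, hx, -⟩, rfl⟩
      exact ⟨x, hx, h⟩
  rw [h1]
  have h2 : IsClosed ({p : Gr k (Fin (N + 1)) 1 × YY k N | p.1.1 ≤ (hyp p.2).1} ∩
      (tsupport a ×ˢ Set.univ)) :=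
    H644.Gr3.le_hyp_closed.inter ((isClosed_tsupport a).prod isClosed_univ)
  exact (h2.isCompact.image continuous_snd).isClosed

theorem exists_open {a : CG k N 1} {u : CG k N N} (h : H232.Nin H218.NC.In a u) :
    ∃ A : Set (YY k N), IsOpen A ∧ tsupport (fh u) ⊆ A ∧
      ∀ M ∈ closure A, ∀ x ∈ tsupport a, ¬ x.1 ≤ (hyp M).1 := by
  obtain ⟨A, hA, huA, hAc⟩ := normal_exists_closure_subset (isClosed_tsupport (fh u))
    (isClosed_meet a).isOpen_compl (by
      rintro M hM ⟨x, hx, hxM⟩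
      exact h x hx _ (tsupport_fh u hM) hxM)
  exact ⟨A, hA, huA, fun M hM x hx hxM => hAc hM ⟨x, hx, hxM⟩⟩

end fun'

section adj

variable {Γ K X Y : Type} [Group Γ] [NormedAddCommGroup K] [InnerProductSpace ℂ K]
  [CompleteSpace K] {lam : Γ →* (K →L[ℂ] K)} {Ω : K}
  [TopologicalSpace X] [CompactSpace X] [TopologicalSpace Y] [CompactSpace Y]

theorem cov_apply' {b : C(X, ℂ) →⋆ₐ[ℂ] (K →L[ℂ] K)} {t : Γ → C(X, ℂ) → C(X, ℂ)}
    (cov : ∀ γ f, lam γ * b (t γ f) * lam γ⁻¹ = b f) (γ : Γ) (f : C(X, ℂ)) (ξ : K) :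
    b f (lam γ ξ) = lam γ (b (t γ f) ξ) := by
  have h2 : lam γ⁻¹ * lam γ = 1 := by rw [← map_mul, inv_mul_cancel, map_one]
  calc b f (lam γ ξ) = (lam γ * b (t γ f) * lam γ⁻¹) (lam γ ξ) := by rw [cov]
    _ = lam γ (b (t γ f) ((lam γ⁻¹ * lam γ) ξ)) := rfl
    _ = lam γ (b (t γ f) ξ) := by rw [h2]; rfl

theorem norm_adj' (hl : ∀ γ ξ, ‖lam γ ξ‖ = ‖ξ‖) {b : C(X, ℂ) →⋆ₐ[ℂ] (K →L[ℂ] K)}
    {l : C(Y, ℂ) →⋆ₐ[ℂ] (K →L[ℂ] K)} {t : Γ → C(X, ℂ) → C(X, ℂ)} {t' : Γ → C(Y, ℂ) → C(Y, ℂ)}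
    (covb : ∀ γ f, lam γ * b (t γ f) * lam γ⁻¹ = b f)
    (covl : ∀ γ f, lam γ * l (t' γ f) * lam γ⁻¹ = l f) (a : C(X, ℂ)) (g : C(Y, ℂ)) (γ : Γ) :
    ‖adjoint (l (star g) * b (star a)) (lam γ Ω)‖ = ‖b (t γ a) (l (t' γ g) Ω)‖ := by
  have h1 : adjoint (l (star g) * b (star a)) = b a * l g := by
    rw [← star_eq_adjoint, star_mul, star_eq_adjoint, star_eq_adjoint, star_calc, star_calc,
      star_star, star_star]
  rw [h1]
  change ‖b a (l g (lam γ Ω))‖ = _
  rw [cov_apply' covl, cov_apply' covb, hl]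

end adj

/-! ### KEY -/

section key

variable {k : Type} [NontriviallyNormedField k] [ProperSpace k] [MeasurableSpace k] [BorelSpace k]
  {μ : Measure k} [IsFiniteMeasureOnCompacts μ] [μ.IsOpenPosMeasure]
  {N : ℕ} {E Γ K : Type} [Group E] [TopologicalSpace E] [Group Γ] [NormedAddCommGroup K]
  [InnerProductSpace ℂ K] [CompleteSpace K] {w : kˣ} {ι : GG k N →* E}
  {a a' : E →* PG k (N + 1)} {π : E →* (K →L[ℂ] K)} {lam : Γ →* (K →L[ℂ] K)}
  {W : Set (K →L[ℂ] K)} {Ω : K} {m : Set Γ → (K →L[ℂ] K)} {q : Γ → GG k N} {Z : ℝ → Set Γ}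
  {Ec F : YY k N → (CY k N →⋆ₐ[ℂ] (K →L[ℂ] K))}
  {G : ∀ j, Gr k (Fin (N + 1)) j → (CG k N j →⋆ₐ[ℂ] (K →L[ℂ] K))}

theorem un_continuous {j : Fin (N + 1)} (hj : (0 : Fin (N + 1)) ≠ j) :
    Continuous fun s : k => (un hj s : GG k N) := by
  refine Continuous.subtype_mk ?_ _
  change Continuous fun s : k => Matrix.transvection 0 j s
  unfold Matrix.transvection
  refine continuous_const.add ?_
  refine continuous_matrix fun i i' => ?_
  by_cases h : 0 = i ∧ j = i'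
  · obtain ⟨rfl, rfl⟩ := h
    simp only [Matrix.single_apply_same]
    exact continuous_id
  · have e : (fun s : k => Matrix.single 0 j s i i') = fun _ => 0 := by
      funext s
      rw [Matrix.single_apply_of_ne]
      exact h
    rw [e]
    exact continuous_const

theorem un_zero {j : Fin (N + 1)} (hj : (0 : Fin (N + 1)) ≠ j) : (un hj (0 : k) : GG k N) = 1 := by
  apply Subtype.ext
  change Matrix.transvection 0 j (0 : k) = 1
  exact Matrix.transvection_zero 0 j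

/-- an element of the group which fixes a subspace commutes with its calculus -/
theorem commute_fix (hG : CalN ι π lam W q Ec F G) {j : ℕ} (h1 : 1 ≤ j) (h2 : j ≤ N)
    {X : Gr k (Fin (N + 1)) j} {g : GG k N} (hg : g • X = X) (f : CG k N j) :
    Commute (G j X f) (π (ι g)) := by
  have h := hG.pcov j h1 h2 g X f
  rw [hg] at h
  have h3 : π (ι g)⁻¹ * π (ι g) = 1 := by rw [← map_mul, inv_mul_cancel, map_one]
  change G j X f * π (ι g) = π (ι g) * G j X f
  calc G j X f * π (ι g) = (π (ι g) * G j X f * π (ι g)⁻¹) * π (ι g) := by rw [h]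
    _ = π (ι g) * G j X f * (π (ι g)⁻¹ * π (ι g)) := by simp only [mul_assoc]
    _ = π (ι g) * G j X f := by rw [h3, mul_one]

/-- covariance, inverse form -/
theorem cov_inv (hG : CalN ι π lam W q Ec F G) {j : ℕ} (h1 : 1 ≤ j) (h2 : j ≤ N)
    (X : Gr k (Fin (N + 1)) j) (γ : Γ) (f : CG k N j) :
    lam γ * G j X (actG (q γ)⁻¹ f) * lam γ⁻¹ = G j X f := by
  rw [hG.cov j h1 h2]
  congr 1
  ext x
  change f (((q γ)⁻¹)⁻¹ • ((q γ)⁻¹ • x)) = f x
  rw [inv_inv, smul_inv_smul]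

/-- **KEY for one leg and one middle function `g ∈ D`** -/
theorem key_one (h : LegN μ w ι a a' π lam W Ω m q Z Ec F) (hG : CalN ι π lam W q Ec F G)
    {C : Gr k (Fin (N + 1)) N} {l : Gr k (Fin (N + 1)) 2} {b : Gr k (Fin (N + 1)) 1}
    (hbC : b.1 ≤ C.1) (hlC : ¬ l.1 ≤ C.1) {u : CG k N N} {g : CG k N 2} {f : CG k N 1}
    (hni : H232.Nin H218.NC.In f u)
    (hNJ : ∀ (R : ℝ) (A : Set (YY k N)), (∀ M ∈ closure A, ∀ x ∈ tsupport f, ¬ x.1 ≤ (hyp M).1) →
      ∃ T > 0, ∃ (c : ℝ) (d : ℕ), ∀ J : ℝ, 0 ≤ J → ∀ S : Finset Γ,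
        (∀ γ ∈ S, γ ∈ NWA (fun γ => ct (q γ)) Z R T A ∧ Real.log (nm (ct (q γ))) ≤ J) →
        ∀ ξ : K, ∑ γ ∈ S, ‖G 1 b (actG (q γ)⁻¹ f) (G 2 l (actG (q γ)⁻¹ g) ξ)‖ ^ 2 ≤
          c * (1 + J) ^ d * ‖ξ‖ ^ 2) :
    G N C u * (G 2 l (star g) * G 1 b (star f)) = 0 := by
  haveI : IsTopologicalGroup E := h.adm.tg
  have hN2 : 2 ≤ N := h.adm.hN
  have hN1 : 1 ≤ N := by omega
  have h01 : (0 : Fin (N + 1)) ≠ 1 := by
    obtain ⟨m', rfl⟩ : ∃ m', N = m' + 1 := ⟨N - 1, by omega⟩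
    exact Fin.zero_ne_one
  have hP := H790.CT.PicL.of_pic h.pic
  obtain ⟨g₀, hgC, hgl⟩ := exists_std hN1 C l hlC
  obtain ⟨A, hA, huA, hAf⟩ := exists_open hni
  obtain ⟨ρ, hρ, hρ1, horb⟩ := h.orb' h01
  have hCx : C = hyp (ct g₀ • (y0 : YY k N)) := by rw [hyp_ct, hyp_y0, hgC]
  have hconj : ∀ β : GG k N, ι g₀ * ι β * (ι g₀)⁻¹ = ι (g₀ * β * g₀⁻¹) := by
    intro β
    rw [map_mul, map_mul, map_inv]
  have hcomm : ∀ β : GG k N, Fx β →
      Commute (G 2 l (star g) * G 1 b (star f)) (π (ι g₀ * ι β * (ι g₀)⁻¹)) := by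
    intro β hβ
    obtain ⟨e1, e2⟩ := hβ.conj hN1 hgC hgl
    rw [hconj]
    exact Commute.mul_left (commute_fix hG (by omega) hN2 e1 _)
      (commute_fix hG le_rfl hN1 (e2 b hbC) _)
  have hCm : Cm W (G 2 l (star g) * G 1 b (star f)) := fun w' hw' => by
    rw [mul_assoc, hG.cm 1 le_rfl hN1 b (star f) w' hw', ← mul_assoc,
      hG.cm 2 (by omega) hN2 l (star g) w' hw', mul_assoc]
  refine zero_of_count (μ := μ) (b := ι (ct (bw w))) (n := fun s : k => ι (ct (un h01 s))) (ρ := ρ)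
    (sz := fun γ => nm (ct (q γ))) (g := ι g₀) (c := ‖fh u‖)
    (NA := fun R T => NWA (fun γ => ct (q γ)) Z R T A) hP h.ms h.uc hρ hρ1 ?_ horb
    (size_trans h.ph) (fun γ => nm_pos _) h.size' hCm (hcomm _ (fx_bw w))
    (fun s => hcomm _ (fx_un h01 s)) ?_ ?_
  · have h1 : Continuous fun s : k => ι (ct (un h01 s : GG k N)) :=
      h.adm.cι.comp (ct_continuous.comp (un_continuous h01))
    have h2 := h1.tendsto 0
    rw [un_zero, map_one, map_one] at h2
    exact h2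
  · intro ζ ε hε
    obtain ⟨R, hR⟩ := h.f.dom (ct g₀) (fh u) A hA huA ζ ε hε
    refine ⟨R, fun T hT => (hR T hT).mono fun t ht => ?_⟩
    rw [hCx, hG.top]
    have e1 : (ι.comp ct) (ct g₀ * bw w ^ t * (ct g₀)⁻¹) =
        ι g₀ * ι (ct (bw w)) ^ t * (ι g₀)⁻¹ := by
      rw [map_mul, map_mul, map_pow, map_inv, MonoidHom.comp_apply, MonoidHom.comp_apply, ct_ct]
    rw [e1] at ht
    exact ht
  · intro R
    obtain ⟨T, hT, c, d, hc⟩ := hNJ R A hAf
    refine ⟨T, hT, c, d, fun J hJ S hS => ?_⟩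
    have h2 := hc J hJ S hS Ω
    rw [h.pic.nΩ, one_pow, mul_one] at h2
    refine le_trans (le_of_eq ?_) h2
    refine Finset.sum_congr rfl fun γ _ => ?_
    congr 1
    exact norm_adj' (H790.CT.lam_norm hP) (fun γ f => cov_inv hG le_rfl hN1 b γ f)
      (fun γ f => cov_inv hG (by omega) hN2 l γ f) f g γ

/-- **[N-KL]**: `KeyStmt` from `NJBStmt` -/
theorem keyStmt (hNJ : NJBStmt k) : KeyStmt k μ := by
  intro N E Γ K _ _ _ _ _ _ w ι a a' π lam W Ω m q Z Ec F G h hG C l b hbC hlC hbl u g f hni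
  have hN2 : 2 ≤ N := h.adm.hN
  have hN1 : 1 ≤ N := by omega
  obtain ⟨D, hD, hK⟩ := hNJ hN2
  -- the point `z` and the line `ν`
  let z : Gr k (Fin (N + 1)) 1 := ⟨C.1 ⊓ l.1, finrank_inf C.2 l.2 hlC⟩
  have hzl : z.1 ≤ l.1 := inf_le_right
  have hbz : ¬ b.1 ≤ z.1 := fun e => hbl (e.trans hzl)
  let ν : Gr k (Fin (N + 1)) 2 := ⟨b.1 ⊔ z.1, H218.NC.rank_join b z hbz⟩
  have hPL : ∀ (x : Gr k (Fin (N + 1)) 1) (y : Gr k (Fin (N + 1)) 2), x.1 ≤ y.1 →
      PL (G 1 x) (G 2 y) := fun x y hxy =>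
    ⟨fun f g => hG.cal.com 1 2 le_rfl (by omega) hN2 x y hxy f g,
      fun u h => hG.cal.inc 1 2 le_rfl (by omega) hN2 x y hxy u h⟩
  have hni' : H232.Nin H218.NC.In (star f) u := by
    intro x hx
    rw [tsupport_star] at hx
    exact hni x hx
  -- the identity on `star D`
  have main : ∀ g' ∈ D, G N C u * G 2 l (star g') * G 1 b f = 0 := by
    intro g' hg'
    have := key_one h hG (C := C) (l := l) (b := b) hbC hlC (u := u) (g := g') (f := star f)
      hni' fun R A hA =>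
        hK q Z h.ud (G 1 b) (G 1 z) (G 2 l) (G 2 ν) (hPL z l hzl)
          (hPL z ν (show z.1 ≤ ν.1 from le_sup_right)) (hPL b ν (show b.1 ≤ ν.1 from le_sup_left))
          R A (star f) g' hg' hA
    rw [star_star] at this
    rw [mul_assoc]
    exact this
  have hD' : Dense (Submodule.span ℂ ((fun g => star g) '' D) : Set (CG k N 2)) := by
    have hsp : (Submodule.span ℂ ((fun g => star g) '' D) : Set (CG k N 2)) =
        (fun g => star g) '' (Submodule.span ℂ D : Set (CG k N 2)) := by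
      apply Set.Subset.antisymm
      · intro x hx
        refine Submodule.span_induction (p := fun x _ => x ∈ (fun g => star g) ''
          (Submodule.span ℂ D : Set (CG k N 2))) ?_ ?_ ?_ ?_ hx
        · rintro _ ⟨y, hy, rfl⟩
          exact ⟨y, Submodule.subset_span hy, rfl⟩
        · exact ⟨0, Submodule.zero_mem _, star_zero _⟩
        · rintro _ _ _ _ ⟨y, hy, rfl⟩ ⟨y', hy', rfl⟩
          exact ⟨y + y', Submodule.add_mem _ hy hy', star_add _ _⟩
        · rintro c _ _ ⟨y, hy, rfl⟩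
          refine ⟨star c • y, Submodule.smul_mem _ _ hy, ?_⟩
          change star (star c • y) = c • star y
          rw [star_smul, star_star]
      · rintro _ ⟨y, hy, rfl⟩
        refine Submodule.span_induction (p := fun y _ => star y ∈
          (Submodule.span ℂ ((fun g => star g) '' D) : Set (CG k N 2))) ?_ ?_ ?_ ?_ hy
        · intro y hy
          exact Submodule.subset_span ⟨y, hy, rfl⟩
        · rw [star_zero]; exact Submodule.zero_mem _
        · intro y y' _ _ h1 h2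
          rw [star_add]; exact Submodule.add_mem _ h1 h2
        · intro c y _ h1
          rw [star_smul]; exact Submodule.smul_mem _ _ h1
    rw [hsp]
    have hsurj : Function.Surjective fun g : CG k N 2 => star g := fun g => ⟨star g, star_star g⟩
    exact hsurj.denseRange.dense_image continuous_star (dense_iff_closure_eq.2 hD)
  refine H218.NC.mid_dense (G 2 l) (G N C u) (G 1 b f) hD' ?_ g
  rintro _ ⟨g', hg', rfl⟩
  exact main g' hg'

end key

end Vale.Agent.P092.H124.KL
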