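import Vale.Agent.P092.H17.SpGeo

/-!
P092 (helper124): singular values of matrices which commute with a complex structure, or preserve
an indefinite quadratic form.
-/

set_option linter.all false

namespace Vale.Agent.P092.H124

open Matrix
open Vale.Agent.P092.H944 (hs gap sv la isSVD IsSVD)

/-- A square matrix of odd size has no square root of `-1`. -/
theorem odd_false {m : ℕ} (T : Matrix (Fin m) (Fin m) ℝ) (h : T * T = -1) (hm : Odd m) : False := by
  have h1 := congrArg Matrix.det h
  rw [det_mul, det_neg, det_one, mul_one, Fintype.card_fin, hm.neg_one_pow] at h1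
  nlinarith [sq_nonneg T.det]

/-- The singular values of a matrix which commutes with a complex structure come in pairs. -/
theorem sv_pair {N : ℕ} {g I : Matrix (Fin N) (Fin N) ℝ} (hg : g.det ≠ 0) (hI : Iᵀ * I = 1)
    (hI2 : I * I = -1) (hc : g * I = I * g) {i : ℕ} (hi : 2 * i + 1 < N) :
    sv g ⟨2 * i, by omega⟩ = sv g ⟨2 * i + 1, hi⟩ := by
  have S := isSVD hg
  obtain ⟨k, hk⟩ : ∃ k, k = H944.kA g := ⟨_, rfl⟩
  obtain ⟨a, ha⟩ : ∃ a, a = sv g := ⟨_, rfl⟩
  have hIt : Iᵀ = -I := by
    have h1 : Iᵀ * (I * I) = I := by rw [← Matrix.mul_assoc, hI, Matrix.one_mul]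
    rw [hI2, Matrix.mul_neg, Matrix.mul_one] at h1
    calc Iᵀ = -(-Iᵀ) := (neg_neg _).symm
      _ = -I := by rw [h1]
  have hct : I * gᵀ = gᵀ * I := by
    have h1 := congrArg Matrix.transpose hc
    rw [transpose_mul, transpose_mul, hIt, Matrix.neg_mul, Matrix.mul_neg, neg_inj] at h1
    exact h1
  have hB : g * gᵀ = k * diagonal (fun i => a i ^ 2) * kᵀ := by
    rw [hk, ha]
    conv_lhs => rw [S.eq, transpose_mul, transpose_mul, diagonal_transpose]
    calc H944.kA g * diagonal (sv g) * H944.kB g * ((H944.kB g)ᵀ * (diagonal (sv g) * (H944.kA g)ᵀ))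
        = H944.kA g * diagonal (sv g) * (H944.kB g * (H944.kB g)ᵀ) * (diagonal (sv g) * (H944.kA g)ᵀ) := by
          simp only [Matrix.mul_assoc]
      _ = H944.kA g * (diagonal (sv g) * diagonal (sv g)) * (H944.kA g)ᵀ := by
          rw [S.o2', Matrix.mul_one]; simp only [Matrix.mul_assoc]
      _ = _ := by rw [diagonal_mul_diagonal]; simp only [pow_two]
  have hk1 : kᵀ * k = 1 := by rw [hk]; exact S.o1
  have hk2 : k * kᵀ = 1 := by rw [hk]; exact S.o1'
  have hIB : I * (g * gᵀ) = (g * gᵀ) * I := by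
    rw [← Matrix.mul_assoc, ← hc, Matrix.mul_assoc, hct, ← Matrix.mul_assoc]
  obtain ⟨T, hT⟩ : ∃ T, T = kᵀ * I * k := ⟨_, rfl⟩
  have hTT : T * T = -1 := by
    rw [hT]
    calc kᵀ * I * k * (kᵀ * I * k) = kᵀ * I * (k * kᵀ) * I * k := by simp only [Matrix.mul_assoc]
      _ = kᵀ * (I * I) * k := by rw [hk2, Matrix.mul_one]; simp only [Matrix.mul_assoc]
      _ = -1 := by rw [hI2, Matrix.mul_neg, Matrix.mul_one, Matrix.neg_mul, hk1]
  have hTD : T * diagonal (fun i => a i ^ 2) = diagonal (fun i => a i ^ 2) * T := by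
    have h1 : diagonal (fun i => a i ^ 2) = kᵀ * (g * gᵀ) * k := by
      rw [hB]
      calc diagonal (fun i => a i ^ 2) = (kᵀ * k) * diagonal (fun i => a i ^ 2) * (kᵀ * k) := by
            rw [hk1, Matrix.one_mul, Matrix.mul_one]
        _ = _ := by simp only [Matrix.mul_assoc]
    rw [h1, hT]
    calc kᵀ * I * k * (kᵀ * (g * gᵀ) * k) = kᵀ * I * (k * kᵀ) * (g * gᵀ) * k := by
          simp only [Matrix.mul_assoc]
      _ = kᵀ * (I * (g * gᵀ)) * k := by rw [hk2, Matrix.mul_one]; simp only [Matrix.mul_assoc]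
      _ = kᵀ * (g * gᵀ) * (k * kᵀ) * I * k := by
          rw [hIB, hk2, Matrix.mul_one]; simp only [Matrix.mul_assoc]
      _ = _ := by simp only [Matrix.mul_assoc]
  have hT0 : ∀ x y, a x ≠ a y → T x y = 0 := by
    intro x y hxy
    have h1 := congrFun (congrFun hTD x) y
    rw [mul_diagonal, diagonal_mul] at h1
    have hx := S.pos x
    have hy := S.pos y
    rw [← ha] at hx hy
    have h2 : (a x ^ 2 - a y ^ 2) * T x y = 0 := by linear_combination -h1
    rcases mul_eq_zero.1 h2 with h3 | h3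
    · exfalso
      apply hxy
      nlinarith [sq_nonneg (a x - a y)]
    · exact h3
  by_contra hne
  rw [← ha] at hne
  have hanti : Antitone a := by rw [ha]; exact S.anti
  have hlt : a ⟨2 * i + 1, hi⟩ < a ⟨2 * i, by omega⟩ :=
    lt_of_le_of_ne (hanti (by simp [Fin.le_def])) (Ne.symm hne)
  obtain ⟨l, rfl⟩ : ∃ l, N = (2 * i + 1) + l := ⟨N - (2 * i + 1), by omega⟩
  have hz : ∀ (x : Fin (2 * i + 1)) (y : Fin l), T (Fin.castAdd l x) (Fin.natAdd (2 * i + 1) y) = 0 := by
    intro x y
    refine hT0 _ _ (ne_of_gt ?_)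
    have h1 : a (Fin.natAdd (2 * i + 1) y) ≤ a ⟨2 * i + 1, hi⟩ := hanti (by simp [Fin.le_def])
    have h2 : a ⟨2 * i, by omega⟩ ≤ a (Fin.castAdd l x) := hanti (by
      have := x.2
      simp only [Fin.le_def, Fin.val_castAdd]
      omega)
    linarith
  refine odd_false (T.submatrix (Fin.castAdd l) (Fin.castAdd l)) ?_ ⟨i, rfl⟩
  ext x y
  have h1 := congrFun (congrFun hTT (Fin.castAdd l x)) (Fin.castAdd l y)
  rw [mul_apply, Fin.sum_univ_add] at h1
  rw [mul_apply]
  simp only [submatrix_apply]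
  have h2 : ∑ z : Fin l, T (Fin.castAdd l x) (Fin.natAdd (2 * i + 1) z) *
      T (Fin.natAdd (2 * i + 1) z) (Fin.castAdd l y) = 0 :=
    Finset.sum_eq_zero fun z _ => by rw [hz, zero_mul]
  rw [h2, add_zero] at h1
  rw [h1, Matrix.neg_apply, Matrix.neg_apply, one_apply, one_apply]
  simp [Fin.ext_iff]

/-- `g` preserves the form with matrix `diag(ε)`, `ε_i = ±1`: if at most `q` of the `ε_i` are equal
to `e`, then the singular values from the `q`-th on are at most `1`. -/
theorem sv_le_one {N : ℕ} {g : Matrix (Fin N) (Fin N) ℝ} (hg : g.det ≠ 0) {ε : Fin N → ℝ}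
    (hε : ∀ i, ε i * ε i = 1) (h : g * diagonal ε * gᵀ = diagonal ε) {e : ℝ} {q : ℕ}
    (hq : Fintype.card {i // ε i = e} ≤ q) (he : e = 1 ∨ e = -1) {j : ℕ} (hqj : q ≤ j)
    (hj : j < N) : sv g ⟨j, hj⟩ ≤ 1 := by
  classical
  have S := isSVD hg
  by_contra hlt
  push Not at hlt
  obtain ⟨k, hk⟩ : ∃ k, k = H944.kA g := ⟨_, rfl⟩
  have hk1 : kᵀ * k = 1 := by rw [hk]; exact S.o1
  have hk2 : k * kᵀ = 1 := by rw [hk]; exact S.o1'
  have hB : g * gᵀ = k * diagonal (fun i => sv g i ^ 2) * kᵀ := by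
    rw [hk]
    conv_lhs => rw [S.eq, transpose_mul, transpose_mul, diagonal_transpose]
    calc H944.kA g * diagonal (sv g) * H944.kB g * ((H944.kB g)ᵀ * (diagonal (sv g) * (H944.kA g)ᵀ))
        = H944.kA g * diagonal (sv g) * (H944.kB g * (H944.kB g)ᵀ) * (diagonal (sv g) * (H944.kA g)ᵀ) := by
          simp only [Matrix.mul_assoc]
      _ = H944.kA g * (diagonal (sv g) * diagonal (sv g)) * (H944.kA g)ᵀ := by
          rw [S.o2', Matrix.mul_one]; simp only [Matrix.mul_assoc]
      _ = _ := by rw [diagonal_mul_diagonal]; simp only [pow_two]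
  have hJJ : diagonal ε * diagonal ε = (1 : Matrix (Fin N) (Fin N) ℝ) := by
    rw [diagonal_mul_diagonal, ← diagonal_one]
    congr 1
    funext i
    exact hε i
  -- `gᵀ J g = J`
  have h' : gᵀ * diagonal ε * g = diagonal ε := by
    have h1 : g * (diagonal ε * gᵀ * diagonal ε) = 1 := by
      rw [← Matrix.mul_assoc, ← Matrix.mul_assoc, h, hJJ]
    have h2 := mul_eq_one_comm.1 h1
    calc gᵀ * diagonal ε * g = (diagonal ε * diagonal ε) * (gᵀ * diagonal ε * g) := by
          rw [hJJ, Matrix.one_mul]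
      _ = diagonal ε * (diagonal ε * gᵀ * diagonal ε * g) := by simp only [Matrix.mul_assoc]
      _ = diagonal ε := by rw [h2, Matrix.mul_one]
  have hBJ : (g * gᵀ) * diagonal ε * (g * gᵀ) = diagonal ε := by
    calc (g * gᵀ) * diagonal ε * (g * gᵀ) = g * (gᵀ * diagonal ε * g) * gᵀ := by
          simp only [Matrix.mul_assoc]
      _ = diagonal ε := by rw [h', h]
  obtain ⟨M, hM⟩ : ∃ M, M = kᵀ * diagonal ε * k := ⟨_, rfl⟩
  have hDM : diagonal (fun i => sv g i ^ 2) * M * diagonal (fun i => sv g i ^ 2) = M := by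
    have h1 : diagonal (fun i => sv g i ^ 2) = kᵀ * (g * gᵀ) * k := by
      rw [hB]
      calc diagonal (fun i => sv g i ^ 2) = (kᵀ * k) * diagonal (fun i => sv g i ^ 2) * (kᵀ * k) := by
            rw [hk1, Matrix.one_mul, Matrix.mul_one]
        _ = _ := by simp only [Matrix.mul_assoc]
    rw [h1, hM]
    calc kᵀ * (g * gᵀ) * k * (kᵀ * diagonal ε * k) * (kᵀ * (g * gᵀ) * k)
        = kᵀ * (g * gᵀ) * (k * kᵀ) * diagonal ε * (k * kᵀ) * (g * gᵀ) * k := by
          simp only [Matrix.mul_assoc]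
      _ = kᵀ * ((g * gᵀ) * diagonal ε * (g * gᵀ)) * k := by
          rw [hk2, Matrix.mul_one, Matrix.mul_one]; simp only [Matrix.mul_assoc]
      _ = _ := by rw [hBJ]
  have hM0 : ∀ x y : Fin N, (x : ℕ) ≤ j → (y : ℕ) ≤ j → M x y = 0 := by
    intro x y hx hy
    have h1 := congrFun (congrFun hDM x) y
    rw [mul_diagonal, diagonal_mul] at h1
    have hx' : sv g ⟨j, hj⟩ ≤ sv g x := S.anti (by simpa [Fin.le_def] using hx)
    have hy' : sv g ⟨j, hj⟩ ≤ sv g y := S.anti (by simpa [Fin.le_def] using hy)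
    have h2 : (sv g x ^ 2 * sv g y ^ 2 - 1) * M x y = 0 := by linear_combination h1
    rcases mul_eq_zero.1 h2 with h3 | h3
    · exfalso
      have h4 : 1 < sv g x := lt_of_lt_of_le hlt hx'
      have h5 : 1 < sv g y := lt_of_lt_of_le hlt hy'
      have h6 : 1 < sv g x ^ 2 := by nlinarith
      have h7 : 1 < sv g y ^ 2 := by nlinarith
      nlinarith
    · exact h3
  -- a vector in the span of the first `j + 1` columns, vanishing where `ε = e`
  let f : (Fin (j + 1) → ℝ) →ₗ[ℝ] ({i // ε i = e} → ℝ) :=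
    { toFun := fun c i => ∑ x : Fin (j + 1), k i.1 (Fin.castLE hj x) * c x
      map_add' := by
        intro c d
        funext i
        simp only [Pi.add_apply, mul_add, Finset.sum_add_distrib]
      map_smul' := by
        intro a c
        funext i
        simp only [Pi.smul_apply, smul_eq_mul, RingHom.id_apply, Finset.mul_sum]
        exact Finset.sum_congr rfl fun _ _ => by ring }
  have hker : LinearMap.ker f ≠ ⊥ := by
    apply LinearMap.ker_ne_bot_of_finrank_lt
    rw [Module.finrank_fintype_fun_eq_card, Module.finrank_fintype_fun_eq_card, Fintype.card_fin]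
    omega
  obtain ⟨c, hc, hc0⟩ := (Submodule.ne_bot_iff _).1 hker
  rw [LinearMap.mem_ker] at hc
  obtain ⟨w, hw⟩ : ∃ w : Fin N → ℝ, w = fun i => ∑ x : Fin (j + 1), k i (Fin.castLE hj x) * c x :=
    ⟨_, rfl⟩
  have hwe : ∀ i, ε i = e → w i = 0 := by
    intro i hi
    rw [hw]
    exact congrFun hc ⟨i, hi⟩
  have hform : ∑ i, ε i * w i ^ 2 = 0 := by
    have h1 : ∀ i, ε i * w i ^ 2 = ∑ x : Fin (j + 1), ∑ y : Fin (j + 1),
        c x * c y * (k i (Fin.castLE hj x) * ε i * k i (Fin.castLE hj y)) := by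
      intro i
      rw [hw, pow_two, Finset.sum_mul_sum, Finset.mul_sum]
      refine Finset.sum_congr rfl fun x _ => ?_
      rw [Finset.mul_sum]
      exact Finset.sum_congr rfl fun y _ => by ring
    simp_rw [h1]
    rw [Finset.sum_comm]
    refine Finset.sum_eq_zero fun x _ => ?_
    rw [Finset.sum_comm]
    refine Finset.sum_eq_zero fun y _ => ?_
    rw [← Finset.mul_sum]
    have h2 : ∑ i, k i (Fin.castLE hj x) * ε i * k i (Fin.castLE hj y) =
        M (Fin.castLE hj x) (Fin.castLE hj y) := by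
      rw [hM, mul_apply]
      refine Finset.sum_congr rfl fun i _ => ?_
      rw [mul_diagonal, transpose_apply]
    rw [h2, hM0 _ _ (by have := x.2; simp; omega) (by have := y.2; simp; omega), mul_zero]
  have hw0 : ∀ i, w i = 0 := by
    have h1 : ∑ i, w i ^ 2 = 0 := by
      have h2 : ∀ i, ε i * w i ^ 2 = -e * w i ^ 2 := by
        intro i
        by_cases hi : ε i = e
        · rw [hwe i hi]; ring
        · have h3 := hε i
          have h4 : ε i = -e := by
            rcases he with rfl | rfl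
            · rcases mul_self_eq_one_iff.1 h3 with h5 | h5
              · exact absurd h5 hi
              · exact h5
            · rcases mul_self_eq_one_iff.1 h3 with h5 | h5
              · rw [h5]; norm_num
              · exact absurd h5 hi
          rw [h4]
      simp_rw [h2] at hform
      rw [← Finset.mul_sum] at hform
      rcases mul_eq_zero.1 hform with h3 | h3
      · exfalso
        rcases he with rfl | rfl <;> norm_num at h3
      · exact h3
    intro i
    have := (Finset.sum_eq_zero_iff_of_nonneg (fun i _ => sq_nonneg (w i))).1 h1 i (Finset.mem_univ i)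
    simpa using this
  apply hc0
  funext x
  -- `c = kᵀ w`
  have h1 : ∑ i, k i (Fin.castLE hj x) * w i = c x := by
    have h2 : ∀ i, k i (Fin.castLE hj x) * w i = ∑ y : Fin (j + 1),
        c y * (kᵀ (Fin.castLE hj x) i * k i (Fin.castLE hj y)) := by
      intro i
      rw [hw, Finset.mul_sum]
      exact Finset.sum_congr rfl fun y _ => by rw [transpose_apply]; ring
    simp_rw [h2]
    rw [Finset.sum_comm]
    simp_rw [← Finset.mul_sum, ← mul_apply, hk1]
    rw [Finset.sum_eq_single x]
    · rw [one_apply_eq, mul_one]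
    · intro y _ hy
      rw [one_apply_ne, mul_zero]
      intro h3
      exact hy (Fin.castLE_injective _ h3).symm
    · intro h3
      exact absurd (Finset.mem_univ _) h3
  rw [← h1]
  simp [hw0]

end Vale.Agent.P092.H124
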