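import Vale.Agent.P092.H124.PglC
import Vale.Agent.P092.H188.Root

/-!
P092, project MIX, row (b) of helper962 (helper124): for local fields `k j` there are local fields
`l j` such that every lattice `Γ` of `Π_j PGL_(N_j+1)(k_j) × H` (`H` any topological group, e.g.
`Π_b G_b`) has coordinates `q j : Γ → SL_(N_j+1)(l_j)`, homomorphisms modulo scalars, jointly
injective and jointly proper modulo `H`, without invariant states on the Grassmannians.
-/

set_option linter.all false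

open scoped LinearAlgebra.Projectivization
open Matrix Filter Topology Set

namespace Vale.Agent.P092.H124.Mx

open Vale.Agent.P092.RC (Moore GG PG YY ct)
open Vale.Agent.P092.SN (PH UD nm CG)
open Vale.Agent.P092.H933 (LocK)
open Vale.Agent.P092.H35 (sp mkP)
open Vale.Agent.P092.H644.PGr (tauG tauP tauP_cont tauP_can pair_gl)
open Vale.Agent.P092.H387.Ad (adm_pgl adm_pi ph_of_hom)
open Vale.Agent.P092.H514.NI (Covol)
open Vale.Agent.P092.H76.Pur (NIS)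
open Vale.Agent.P092.H124.Pgl

/-- what the two-field engine needs of the coordinates of the `D`-part of a lattice of
`EG k N × H` -/
structure CoordM {J Γ : Type} [Group Γ] {l : J → Type} [∀ j, NontriviallyNormedField (l j)]
    [∀ j, ProperSpace (l j)] {N : J → ℕ} {X : Type} [Group X] [TopologicalSpace X]
    (π : Γ →* X) (q : ∀ j, Γ → GG (l j) (N j)) : Prop where
  ph : ∀ j, PH (q j)
  inj : ∀ γ, (∀ j, sp (l j) (N j + 1) (q j γ) = 1) → π γ = 1
  cpt : ∀ C : ℝ, ∃ Q : Set X, IsCompact Q ∧ ∀ γ : Γ, (∀ j, nm (q j γ) ≤ C) → π γ ∈ Q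
  nis : ∀ i j, 1 ≤ j → j ≤ N i →
    NIS fun (γ : Γ) (x : H100.Gr.Gr (l i) (Fin (N i + 1)) j) => q i γ • x
  nis' : ∀ i j, 1 ≤ j → j ≤ N i →
    NIS fun (γ : Γ) (x : H100.Gr.Gr (l i) (Fin (N i + 1)) j) => ct (q i γ) • x

section co

variable {J : Type} {k l : J → Type} [∀ j, NontriviallyNormedField (k j)]
  [∀ j, NontriviallyNormedField (l j)] {N : J → ℕ} {H : Type} [Group H] (φ : ∀ j, k j →+* l j)
  (hr : ∀ j, ∀ x, ∃ y : l j, y ^ (N j + 1) = φ j x) (Γ : Subgroup (EG k N × H))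

/-- the coordinates of an element of `Γ` -/
noncomputable def cm (j : J) (γ : Γ) : GG (l j) (N j) :=
  lf (φ j) (hr j) ((γ : EG k N × H).1 j)

theorem sp_cm (j : J) (γ : Γ) :
    sp (l j) (N j + 1) (cm φ hr Γ j γ) = pgm (φ j) (N j + 1) ((γ : EG k N × H).1 j) :=
  sp_lf (φ j) (hr j) _

/-- the projection of `Γ` to `EG k N` -/
def pr1 : Γ →* EG k N := (MonoidHom.fst (EG k N) H).comp Γ.subtype

theorem pr1_apply (γ : Γ) : pr1 Γ γ = (γ : EG k N × H).1 := rfl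

theorem ph_cm (j : J) : PH (cm φ hr Γ j) :=
  ph_of_hom _ ((pgm (φ j) (N j + 1)).comp
    ((Pi.evalMonoidHom (fun j => PG (k j) (N j + 1)) j).comp (pr1 Γ))) fun γ => sp_cm φ hr Γ j γ

theorem inj_cm (γ : Γ) (h : ∀ j, sp (l j) (N j + 1) (cm φ hr Γ j γ) = 1) : pr1 Γ γ = 1 := by
  funext j
  have h1 := h j
  rw [sp_cm] at h1
  exact pgm_one h1

theorem cpt_cm [∀ j, ProperSpace (k j)] {s : J → ℝ} (hs : ∀ j, 0 < s j)
    (hφ : ∀ j x, ‖φ j x‖ = ‖x‖ ^ s j) (C : ℝ) :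
    ∃ Q : Set (EG k N), IsCompact Q ∧ ∀ γ : Γ, (∀ j, nm (cm φ hr Γ j γ) ≤ C) → pr1 Γ γ ∈ Q := by
  choose Q hQ h using fun j => exists_compact_lf (N := N j) (hr j) (hs j) (hφ j) C
  exact ⟨Set.univ.pi fun j => Q j, isCompact_univ_pi hQ, fun γ hγ j _ => h j _ (hγ j)⟩

variable [DecidableEq J] [∀ j, ProperSpace (l j)] [TopologicalSpace H] [IsTopologicalGroup H]

/-- **No invariant states** for every coordinate. -/
theorem nis_cm {s : J → ℝ} (hs : ∀ j, 0 < s j)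
    (hφ : ∀ j x, ‖φ j x‖ = ‖x‖ ^ s j) (hΓ : Covol Γ) (i : J) {j : ℕ}
    (h1 : 1 ≤ j) (h2 : j ≤ N i) :
    NIS fun (γ : Γ) (x : H100.Gr.Gr (l i) (Fin (N i + 1)) j) => cm φ hr Γ i γ • x := by
  intro ψ hpos hone hinv
  refine nis_e2 (k := k i) (φ i) (fun ε hε => exists_small (hs i) (hφ i) ε hε)
    ((pgm (φ i) (N i + 1)).comp ((aG k N i).comp (MonoidHom.fst (EG k N) H))) ?_
    (fun g => ⟨(iG k N i g, 1), ?_⟩) Γ hΓ (cm φ hr Γ i)
    (fun γ => sp_cm φ hr Γ i γ) h1 h2 ψ hpos hone hinv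
  · exact (pgm_cont (phi_cont (hs i) (hφ i))).comp ((continuous_apply i).comp continuous_fst)
  · change pgm (φ i) (N i + 1) (aG k N i (iG k N i g)) = _
    rw [aG_same, pgm_sp]

/-- **No invariant states**, dual picture. -/
theorem nis_cm' {s : J → ℝ} (hs : ∀ j, 0 < s j)
    (hφ : ∀ j x, ‖φ j x‖ = ‖x‖ ^ s j) (hΓ : Covol Γ) (i : J) {j : ℕ}
    (h1 : 1 ≤ j) (h2 : j ≤ N i) :
    NIS fun (γ : Γ) (x : H100.Gr.Gr (l i) (Fin (N i + 1)) j) => ct (cm φ hr Γ i γ) • x := by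
  intro ψ hpos hone hinv
  refine nis_e2 (k := k i) (φ i) (fun ε hε => exists_small (hs i) (hφ i) ε hε)
    ((tauP (l i) (N i + 1)).comp
      ((pgm (φ i) (N i + 1)).comp ((aG k N i).comp (MonoidHom.fst (EG k N) H)))) ?_
    (fun g => ⟨(iG k N i (ct g), 1), ?_⟩) Γ hΓ (fun γ => ct (cm φ hr Γ i γ))
    (fun γ => ?_) h1 h2 ψ hpos hone hinv
  · exact (tauP_cont (k := l i) (n := N i + 1)).comp
      ((pgm_cont (phi_cont (hs i) (hφ i))).comp ((continuous_apply i).comp continuous_fst))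
  · change tauP (l i) (N i + 1) (pgm (φ i) (N i + 1) (aG k N i (iG k N i (ct g)))) = _
    rw [aG_same, pgm_sp, tau_sp, ct_map]
  · rw [← tau_sp, sp_cm]
    rfl

end co

/-- **[MIX], row (b)** -/
theorem exists_coordM {J : Type} (k : J → Type) [∀ j, NontriviallyNormedField (k j)]
    [∀ j, ProperSpace (k j)] (N : J → ℕ) (hk : ∀ j, LocK (k j)) (H : Type) [Group H]
    [TopologicalSpace H] [IsTopologicalGroup H] :
    ∃ (l : J → Type) (_ : ∀ j, NontriviallyNormedField (l j)) (_ : ∀ j, ProperSpace (l j)),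
      (∀ j, LocK (l j)) ∧ ∀ (Γ : Subgroup (EG k N × H)), Covol Γ →
        ∃ q : ∀ j, Γ → GG (l j) (N j), CoordM (pr1 Γ) q := by
  classical
  choose l i1 i2 hl φ hφ using fun j => H188.root_loc (hk j) (n := N j + 1) (Nat.succ_pos _)
  choose hs hr using hφ
  choose s hs0 hsn using hs
  refine ⟨l, i1, i2, hl, fun Γ hΓ => ⟨cm φ hr Γ, ?_⟩⟩
  exact
    { ph := ph_cm φ hr Γ
      inj := inj_cm φ hr Γ
      cpt := cpt_cm φ hr Γ hs0 hsn
      nis := fun i j h1 h2 => nis_cm φ hr Γ hs0 hsn hΓ i h1 h2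
      nis' := fun i j h1 h2 => nis_cm' φ hr Γ hs0 hsn hΓ i h1 h2 }

/-- The whole coordinates are proper: with a size `s₀` of the other factor whose bounded sets have
compact image, bounded sets of a discrete `Γ` are finite. -/
theorem fin_of_cpt {J : Type} {k l : J → Type} [∀ j, NontriviallyNormedField (k j)]
    [∀ j, NontriviallyNormedField (l j)] [∀ j, ProperSpace (l j)] {N : J → ℕ} {H : Type} [Group H]
    [TopologicalSpace H] [IsTopologicalGroup H] (Γ : Subgroup (EG k N × H)) [DiscreteTopology Γ]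
    [T2Space (EG k N × H)]
    {q : ∀ j, Γ → GG (l j) (N j)} (hq : CoordM (pr1 Γ) q) {s₀ : Γ → ℝ}
    (hs : ∀ R, ∃ Q : Set H, IsCompact Q ∧ ∀ γ : Γ, s₀ γ ≤ R → (γ : EG k N × H).2 ∈ Q) (C : ℝ) :
    {γ : Γ | (∀ j, nm (q j γ) ≤ C) ∧ s₀ γ ≤ C}.Finite := by
  obtain ⟨Q, hQ, h⟩ := hq.cpt C
  obtain ⟨Q', hQ', h'⟩ := hs C
  exact (H790.finite_inter Γ (hQ.prod hQ')).subset fun γ hγ => ⟨h γ hγ.1, h' γ hγ.2⟩

end Vale.Agent.P092.H124.Mx
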