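import Mathlib

/-!
P092, TEAM N (helper124), [N-NWG]: near-wall elements of `SL_(n+1)(k)`, `k` any normed field, no
singular values: `g = u ⊗ y + E`, `(i, j)` a pivot (entry of largest norm), `u = g · j / g i j`,
`y = g i · / g i j`, and `‖E‖ ‖g⁻¹‖ ≤ (n-1)! R` as soon as `‖g⁻¹‖ ^ n ≤ R ‖g‖`.

Reason: the Schur complement `E'` of `g i j` has the inverse `H' = ` the complementary block of
`g⁻¹`; `det H' = ± g i j` (cofactor formula), so `E' = adj H' / det H'`.
-/

set_option linter.all false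

open Matrix

namespace Vale.Agent.P092.H124.NW

section det

variable {k : Type*} [NormedField k]

theorem norm_det_le {n : ℕ} (A : Matrix (Fin n) (Fin n) k) {x : ℝ} (hA : ∀ i j, ‖A i j‖ ≤ x) :
    ‖A.det‖ ≤ n.factorial * x ^ n := by
  rw [Matrix.det_apply']
  refine (norm_sum_le _ _).trans ?_
  have h1 : ∀ σ ∈ (Finset.univ : Finset (Equiv.Perm (Fin n))),
      ‖((Equiv.Perm.sign σ : ℤ) : k) * ∏ i, A (σ i) i‖ ≤ x ^ n := by
    intro σ _
    rw [norm_mul, norm_prod]
    have h2 : ‖((Equiv.Perm.sign σ : ℤ) : k)‖ = 1 := by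
      rcases Int.units_eq_one_or (Equiv.Perm.sign σ) with h | h <;> rw [h] <;> simp
    rw [h2, one_mul]
    calc ∏ i, ‖A (σ i) i‖ ≤ ∏ _i : Fin n, x :=
          Finset.prod_le_prod (fun i _ => norm_nonneg _) fun i _ => hA _ _
      _ = x ^ n := by simp
  refine (Finset.sum_le_sum h1).trans (le_of_eq ?_)
  rw [Finset.sum_const, Finset.card_univ, Fintype.card_perm, Fintype.card_fin, nsmul_eq_mul]

theorem norm_adjugate_le {n : ℕ} (A : Matrix (Fin (n + 1)) (Fin (n + 1)) k) {x : ℝ}
    (hA : ∀ i j, ‖A i j‖ ≤ x) (i j : Fin (n + 1)) : ‖A.adjugate i j‖ ≤ n.factorial * x ^ n := by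
  rw [Matrix.adjugate_fin_succ_eq_det_submatrix, norm_mul, norm_pow, norm_neg, norm_one, one_pow,
    one_mul]
  exact norm_det_le _ fun a b => hA _ _

end det

section schur

variable {k : Type*} [NormedField k] {n : ℕ}

/-- the maximum of the norms of the entries -/
noncomputable def mx (A : Matrix (Fin (n + 1)) (Fin (n + 1)) k) : ℝ :=
  ‖(fun i j => A i j : Fin (n + 1) → Fin (n + 1) → k)‖

theorem mx_nonneg (A : Matrix (Fin (n + 1)) (Fin (n + 1)) k) : 0 ≤ mx A := norm_nonneg _

theorem le_mx (A : Matrix (Fin (n + 1)) (Fin (n + 1)) k) (i j) : ‖A i j‖ ≤ mx A :=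
  (norm_le_pi_norm (fun j => A i j) j).trans
    (norm_le_pi_norm (fun i j => A i j : Fin (n + 1) → Fin (n + 1) → k) i)

theorem mx_le {A : Matrix (Fin (n + 1)) (Fin (n + 1)) k} {c : ℝ} (hc : 0 ≤ c)
    (h : ∀ i j, ‖A i j‖ ≤ c) : mx A ≤ c :=
  (pi_norm_le_iff_of_nonneg hc).2 fun i => (pi_norm_le_iff_of_nonneg hc).2 fun j => h i j

/-- `(i, j)` is a pivot: an entry of maximal norm. -/
def Piv (g : Matrix (Fin (n + 1)) (Fin (n + 1)) k) (i j : Fin (n + 1)) : Prop :=
  ∀ a b, ‖g a b‖ ≤ ‖g i j‖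

theorem Piv.mx_eq {g : Matrix (Fin (n + 1)) (Fin (n + 1)) k} {i j : Fin (n + 1)}
    (h : Piv g i j) : mx g = ‖g i j‖ :=
  le_antisymm (mx_le (norm_nonneg _) h) (le_mx g i j)

theorem exists_piv (g : Matrix (Fin (n + 1)) (Fin (n + 1)) k) : ∃ i j, Piv g i j := by
  obtain ⟨p, hp⟩ := Finite.exists_max (fun p : Fin (n + 1) × Fin (n + 1) => ‖g p.1 p.2‖)
  exact ⟨p.1, p.2, fun a b => hp (a, b)⟩

/-- the error term `g - u ⊗ y` -/
def Er (g : Matrix (Fin (n + 1)) (Fin (n + 1)) k) (i j a b : Fin (n + 1)) : k :=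
  g a b - g a j * (g i b / g i j)

/-- the column direction, normalised at the pivot -/
def uu (g : Matrix (Fin (n + 1)) (Fin (n + 1)) k) (i j : Fin (n + 1)) : Fin (n + 1) → k :=
  fun a => g a j / g i j

/-- the row direction, normalised at the pivot -/
def yy (g : Matrix (Fin (n + 1)) (Fin (n + 1)) k) (i j : Fin (n + 1)) : Fin (n + 1) → k :=
  fun b => g i b / g i j

theorem er_col (g : Matrix (Fin (n + 1)) (Fin (n + 1)) k) {i j : Fin (n + 1)} (h0 : g i j ≠ 0)
    (a : Fin (n + 1)) : Er g i j a j = 0 := by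
  rw [Er, div_self h0, mul_one, sub_self]

theorem er_row (g : Matrix (Fin (n + 1)) (Fin (n + 1)) k) {i j : Fin (n + 1)} (h0 : g i j ≠ 0)
    (b : Fin (n + 1)) : Er g i j i b = 0 := by
  rw [Er, mul_div_cancel₀ _ h0, sub_self]

/-- the Schur complement -/
def Sc (g : Matrix (Fin (n + 1)) (Fin (n + 1)) k) (i j : Fin (n + 1)) : Matrix (Fin n) (Fin n) k :=
  Matrix.of fun a b => Er g i j (i.succAbove a) (j.succAbove b)

/-- the complementary block of the inverse -/
def Hc (h : Matrix (Fin (n + 1)) (Fin (n + 1)) k) (i j : Fin (n + 1)) : Matrix (Fin n) (Fin n) k :=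
  h.submatrix j.succAbove i.succAbove

theorem sc_mul (g h : Matrix (Fin (n + 1)) (Fin (n + 1)) k) (hgh : g * h = 1) {i j : Fin (n + 1)}
    (h0 : g i j ≠ 0) : Sc g i j * Hc h i j = 1 := by
  ext a c
  have e1 : ∀ r s, ∑ l, g r l * h l s = if r = s then 1 else 0 := by
    intro r s
    rw [← Matrix.mul_apply, hgh, Matrix.one_apply]
  have h1 := e1 (i.succAbove a) (i.succAbove c)
  have h2 := e1 i (i.succAbove c)
  rw [Fin.sum_univ_succAbove _ j] at h1 h2
  rw [if_neg (Fin.succAbove_ne i c).symm] at h2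
  rw [Matrix.mul_apply, Matrix.one_apply]
  have h3 : (if i.succAbove a = i.succAbove c then (1 : k) else 0) = if a = c then 1 else 0 := by
    by_cases hac : a = c
    · rw [if_pos hac, if_pos (by rw [hac])]
    · rw [if_neg hac, if_neg (fun e => hac (Fin.succAbove_right_injective e))]
  rw [← h3, ← h1]
  have h4 : ∀ b, Sc g i j a b * Hc h i j b c =
      g (i.succAbove a) (j.succAbove b) * h (j.succAbove b) (i.succAbove c) -
        g (i.succAbove a) j / g i j * (g i (j.succAbove b) * h (j.succAbove b) (i.succAbove c)) := by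
    intro b
    simp only [Sc, Hc, Er, Matrix.of_apply, Matrix.submatrix_apply]
    field_simp
  simp_rw [h4]
  rw [Finset.sum_sub_distrib, ← Finset.mul_sum]
  have h5 : ∑ b, g i (j.succAbove b) * h (j.succAbove b) (i.succAbove c) =
      - (g i j * h j (i.succAbove c)) := by
    rw [eq_neg_iff_add_eq_zero, add_comm]
    exact h2
  rw [h5]
  field_simp
  ring

theorem norm_det_hc (g h : Matrix (Fin (n + 1)) (Fin (n + 1)) k) (hgh : g * h = 1)
    (hdet : g.det = 1) (i j : Fin (n + 1)) : ‖(Hc h i j).det‖ = ‖g i j‖ := by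
  have hd : h.det = 1 := by
    have := congrArg Matrix.det hgh
    rwa [Matrix.det_mul, hdet, one_mul, Matrix.det_one] at this
  have h1 : h.adjugate = g := by
    calc h.adjugate = g * h * h.adjugate := by rw [hgh, one_mul]
      _ = g * (h * h.adjugate) := by rw [Matrix.mul_assoc]
      _ = g := by rw [Matrix.mul_adjugate, hd, one_smul, mul_one]
  have h2 := Matrix.adjugate_fin_succ_eq_det_submatrix h i j
  rw [h1] at h2
  rw [h2, norm_mul, norm_pow, norm_neg, norm_one, one_pow, one_mul]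
  rfl

/-- **The error bound.** -/
theorem er_le {n : ℕ} (g h : Matrix (Fin (n + 2)) (Fin (n + 2)) k) (hgh : g * h = 1)
    (hdet : g.det = 1) {i j : Fin (n + 2)} (h0 : g i j ≠ 0) (a b : Fin (n + 2)) :
    ‖Er g i j a b‖ * ‖g i j‖ ≤ n.factorial * mx h ^ n := by
  have hpos : (0 : ℝ) ≤ n.factorial * mx h ^ n := by
    have := mx_nonneg h
    positivity
  by_cases ha : a = i
  · rw [ha, er_row g h0, norm_zero, zero_mul]; exact hpos
  by_cases hb : b = j
  · rw [hb, er_col g h0, norm_zero, zero_mul]; exact hpos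
  obtain ⟨a', rfl⟩ := Fin.exists_succAbove_eq ha
  obtain ⟨b', rfl⟩ := Fin.exists_succAbove_eq hb
  have h1 := sc_mul g h hgh h0
  have h2 : (Hc h i j).det • Sc g i j = (Hc h i j).adjugate := by
    calc (Hc h i j).det • Sc g i j = Sc g i j * ((Hc h i j).det • 1) := by
          rw [Matrix.mul_smul, mul_one]
      _ = Sc g i j * (Hc h i j * (Hc h i j).adjugate) := by rw [Matrix.mul_adjugate]
      _ = (Hc h i j).adjugate := by rw [← Matrix.mul_assoc, h1, one_mul]
  have h3 : (Hc h i j).det * Er g i j (i.succAbove a') (j.succAbove b') =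
      (Hc h i j).adjugate a' b' := by
    rw [← h2]
    simp [Sc]
  have h4 : ‖(Hc h i j).adjugate a' b'‖ ≤ n.factorial * mx h ^ n :=
    norm_adjugate_le _ (fun r s => by
      simp only [Hc, Matrix.submatrix_apply]
      exact le_mx h _ _) a' b'
  rw [← h3, norm_mul, norm_det_hc g h hgh hdet i j, mul_comm] at h4
  exact h4

end schur

end Vale.Agent.P092.H124.NW
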