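import Vale.Agent.P092.H124.NWa

/-!
P092, TEAM N (helper124), [N-NWG], part 2: near-wall elements `g ∈ SL_(n+2)(k)` of type 1
(`‖g⁻¹‖ ^ (n+1) ≤ R ‖g‖`) and their inverses (type `n+1`), every normed field `k`.

`u` = normalised pivot column = attracting point of `g` = repelling point of `g⁻¹`;
`y` = normalised pivot row = attracting hyperplane of `g⁻¹` (and repelling hyperplane of `g`).
-/

set_option linter.all false

open Matrix

namespace Vale.Agent.P092.H124.NW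

section vec

variable {k : Type*} [NormedField k] {n : ℕ}

theorem norm_mulVec_le (A : Matrix (Fin (n + 1)) (Fin (n + 1)) k) {e : ℝ} (he : 0 ≤ e)
    (hA : ∀ a b, ‖A a b‖ ≤ e) (x : Fin (n + 1) → k) : ‖A *ᵥ x‖ ≤ (n + 1) * e * ‖x‖ := by
  refine (pi_norm_le_iff_of_nonneg (by positivity)).2 fun a => ?_
  rw [Matrix.mulVec, dotProduct]
  refine (norm_sum_le _ _).trans ?_
  calc ∑ b, ‖A a b * x b‖ ≤ ∑ _b : Fin (n + 1), e * ‖x‖ := by
        refine Finset.sum_le_sum fun b _ => ?_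
        rw [norm_mul]
        exact mul_le_mul (hA a b) (norm_le_pi_norm x b) (norm_nonneg _) he
    _ = (n + 1) * e * ‖x‖ := by
        rw [Finset.sum_const, Finset.card_univ, Fintype.card_fin, nsmul_eq_mul]
        push_cast
        ring

theorem norm_dot_le (x y : Fin (n + 1) → k) : ‖x ⬝ᵥ y‖ ≤ (n + 1) * ‖x‖ * ‖y‖ := by
  rw [dotProduct]
  refine (norm_sum_le _ _).trans ?_
  calc ∑ b, ‖x b * y b‖ ≤ ∑ _b : Fin (n + 1), ‖x‖ * ‖y‖ := by
        refine Finset.sum_le_sum fun b _ => ?_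
        rw [norm_mul]
        exact mul_le_mul (norm_le_pi_norm x b) (norm_le_pi_norm y b) (norm_nonneg _)
          (norm_nonneg _)
    _ = (n + 1) * ‖x‖ * ‖y‖ := by
        rw [Finset.sum_const, Finset.card_univ, Fintype.card_fin, nsmul_eq_mul]
        push_cast
        ring

variable {g : Matrix (Fin (n + 1)) (Fin (n + 1)) k} {i j : Fin (n + 1)}

theorem uu_self (h0 : g i j ≠ 0) : uu g i j i = 1 := div_self h0

theorem yy_self (h0 : g i j ≠ 0) : yy g i j j = 1 := div_self h0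

theorem Piv.uu_le (h : Piv g i j) (a : Fin (n + 1)) : ‖uu g i j a‖ ≤ 1 := by
  rw [uu, norm_div]
  exact div_le_one_of_le₀ (h a j) (norm_nonneg _)

theorem Piv.yy_le (h : Piv g i j) (b : Fin (n + 1)) : ‖yy g i j b‖ ≤ 1 := by
  rw [yy, norm_div]
  exact div_le_one_of_le₀ (h i b) (norm_nonneg _)

theorem Piv.uu_norm (h : Piv g i j) (h0 : g i j ≠ 0) : ‖uu g i j‖ = 1 := by
  refine le_antisymm ((pi_norm_le_iff_of_nonneg zero_le_one).2 h.uu_le) ?_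
  have := norm_le_pi_norm (uu g i j) i
  rwa [uu_self h0, norm_one] at this

theorem Piv.yy_norm (h : Piv g i j) (h0 : g i j ≠ 0) : ‖yy g i j‖ = 1 := by
  refine le_antisymm ((pi_norm_le_iff_of_nonneg zero_le_one).2 h.yy_le) ?_
  have := norm_le_pi_norm (yy g i j) j
  rwa [yy_self h0, norm_one] at this

/-- `g x = g i j (y · x) u + E x` -/
theorem mulVec_eq (h0 : g i j ≠ 0) (x : Fin (n + 1) → k) :
    g *ᵥ x = (g i j * (yy g i j ⬝ᵥ x)) • uu g i j + (Matrix.of (Er g i j)) *ᵥ x := by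
  funext a
  simp only [Matrix.mulVec, dotProduct, Pi.add_apply, Pi.smul_apply, smul_eq_mul, Matrix.of_apply,
    yy, uu, Er]
  rw [Finset.mul_sum, Finset.sum_mul, ← Finset.sum_add_distrib]
  refine Finset.sum_congr rfl fun b _ => ?_
  field_simp
  ring

/-- coordinate `i` of `g x` -/
theorem mulVec_piv (h0 : g i j ≠ 0) (x : Fin (n + 1) → k) :
    (g *ᵥ x) i = g i j * (yy g i j ⬝ᵥ x) := by
  simp only [Matrix.mulVec, dotProduct, yy]
  rw [Finset.mul_sum]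
  refine Finset.sum_congr rfl fun b _ => ?_
  field_simp

end vec

section sl

variable {k : Type*} [NormedField k] {n : ℕ}

/-- near-wall elements of type 1 (one large singular value) -/
def NW (R : ℝ) (g : SpecialLinearGroup (Fin (n + 2)) k) : Prop :=
  mx (g⁻¹).1 ^ (n + 1) ≤ R * mx g.1

theorem inv_coe_mul (g : SpecialLinearGroup (Fin (n + 2)) k) : (g⁻¹).1 * g.1 = 1 := by
  rw [← Matrix.SpecialLinearGroup.coe_mul, inv_mul_cancel]; rfl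

theorem coe_mul_inv (g : SpecialLinearGroup (Fin (n + 2)) k) : g.1 * (g⁻¹).1 = 1 := by
  rw [← Matrix.SpecialLinearGroup.coe_mul, mul_inv_cancel]; rfl

theorem one_le_mx (g : SpecialLinearGroup (Fin (n + 2)) k) :
    1 ≤ ((n + 2).factorial : ℝ) * mx g.1 ^ (n + 2) := by
  have h := norm_det_le g.1 (le_mx g.1)
  rwa [g.2, norm_one] at h

theorem inv_fact_le_mx (g : SpecialLinearGroup (Fin (n + 2)) k) :
    (((n + 2).factorial : ℝ))⁻¹ ≤ mx g.1 := by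
  by_contra hc
  rw [not_le] at hc
  have hf : (1 : ℝ) ≤ ((n + 2).factorial : ℝ) := by
    exact_mod_cast Nat.one_le_iff_ne_zero.2 (Nat.factorial_ne_zero _)
  have h1 : mx g.1 < 1 := hc.trans_le (inv_le_one_of_one_le₀ hf)
  have h2 : mx g.1 ^ (n + 2) ≤ mx g.1 := by
    calc mx g.1 ^ (n + 2) ≤ mx g.1 ^ 1 :=
          pow_le_pow_of_le_one (mx_nonneg _) h1.le (by omega)
      _ = mx g.1 := pow_one _
  have h3 := one_le_mx g
  have h4 : ((n + 2).factorial : ℝ) * mx g.1 < 1 := by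
    calc ((n + 2).factorial : ℝ) * mx g.1 < ((n + 2).factorial : ℝ) * (((n + 2).factorial : ℝ))⁻¹ :=
          mul_lt_mul_of_pos_left hc (by linarith)
      _ = 1 := mul_inv_cancel₀ (by linarith)
  nlinarith [mul_le_mul_of_nonneg_left h2 (by linarith : (0 : ℝ) ≤ ((n + 2).factorial : ℝ))]

theorem mx_pos (g : SpecialLinearGroup (Fin (n + 2)) k) : 0 < mx g.1 :=
  lt_of_lt_of_le (by positivity) (inv_fact_le_mx g)

/-- `‖g‖ ≤ (n+1)! ‖g⁻¹‖ ^ (n+1)` -/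
theorem mx_le_inv (g : SpecialLinearGroup (Fin (n + 2)) k) :
    mx g.1 ≤ ((n + 1).factorial : ℝ) * mx (g⁻¹).1 ^ (n + 1) := by
  have h0 := mx_nonneg (g⁻¹).1
  refine mx_le (by positivity) fun a b => ?_
  have h1 : g.1 = (g⁻¹).1.adjugate := by
    have := Matrix.SpecialLinearGroup.coe_inv (g⁻¹)
    rwa [inv_inv] at this
  rw [h1]
  exact norm_adjugate_le _ (le_mx _) a b

variable {g g' : SpecialLinearGroup (Fin (n + 2)) k} {i j : Fin (n + 2)} {R : ℝ}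

theorem Piv.ne (hp : Piv g.1 i j) : g.1 i j ≠ 0 := by
  have h := mx_pos g
  rw [hp.mx_eq] at h
  exact norm_pos_iff.1 h

theorem NW.R_nonneg (h : NW R g) : 0 ≤ R := by
  by_contra hc
  rw [not_le] at hc
  have h1 := mx_pos g
  have h2 : R * mx g.1 < 0 := mul_neg_of_neg_of_pos hc h1
  have h3 : 0 ≤ mx (g⁻¹).1 ^ (n + 1) := pow_nonneg (mx_nonneg _) _
  have h4 : mx (g⁻¹).1 ^ (n + 1) ≤ R * mx g.1 := h
  linarith

/-- **The error of the rank one approximation.** -/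
theorem NW.err (h : NW R g) (hp : Piv g.1 i j) (a b : Fin (n + 2)) :
    ‖Er g.1 i j a b‖ * mx (g⁻¹).1 ≤ n.factorial * R := by
  have h1 := er_le g.1 (g⁻¹).1 (coe_mul_inv g) g.2 hp.ne a b
  rw [← hp.mx_eq] at h1
  have hg := mx_pos g
  have hh := mx_pos g⁻¹
  have h2 : mx (g⁻¹).1 ^ (n + 1) ≤ R * mx g.1 := h
  have h3 : (‖Er g.1 i j a b‖ * mx (g⁻¹).1) * mx g.1 ≤ (n.factorial * R) * mx g.1 := by
    calc (‖Er g.1 i j a b‖ * mx (g⁻¹).1) * mx g.1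
        = (‖Er g.1 i j a b‖ * mx g.1) * mx (g⁻¹).1 := by ring
      _ ≤ (n.factorial * mx (g⁻¹).1 ^ n) * mx (g⁻¹).1 := mul_le_mul_of_nonneg_right h1 hh.le
      _ = n.factorial * mx (g⁻¹).1 ^ (n + 1) := by ring
      _ ≤ n.factorial * (R * mx g.1) := mul_le_mul_of_nonneg_left h2 (by positivity)
      _ = (n.factorial * R) * mx g.1 := by ring
  exact le_of_mul_le_mul_right h3 hg

/-- the constant of the error term, as a map -/
theorem NW.err_mulVec (h : NW R g) (hp : Piv g.1 i j) (x : Fin (n + 2) → k) :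
    ‖(Matrix.of (Er g.1 i j)) *ᵥ x‖ * mx (g⁻¹).1 ≤ (n + 2) * n.factorial * R * ‖x‖ := by
  have hh := mx_pos g⁻¹
  have hR := h.R_nonneg
  have h1 := norm_mulVec_le (n := n + 1) (Matrix.of (Er g.1 i j))
    (e := n.factorial * R / mx (g⁻¹).1) (by positivity) (fun a b => by
      rw [le_div_iff₀ hh]
      exact h.err hp a b) x
  calc ‖(Matrix.of (Er g.1 i j)) *ᵥ x‖ * mx (g⁻¹).1
      ≤ (((n + 1 : ℕ) : ℝ) + 1) * (n.factorial * R / mx (g⁻¹).1) * ‖x‖ * mx (g⁻¹).1 :=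
        mul_le_mul_of_nonneg_right h1 hh.le
    _ = (n + 2) * n.factorial * R * ‖x‖ := by
        push_cast
        field_simp
        ring

/-! ### The inverse: `κ = g⁻¹`, repelling point `u` -/

/-- `g⁻¹ u = e_j / g i j` -/
theorem inv_mulVec_uu (hp : Piv g.1 i j) :
    (g⁻¹).1 *ᵥ uu g.1 i j = (g.1 i j)⁻¹ • (Pi.single j 1 : Fin (n + 2) → k) := by
  have h1 : uu g.1 i j = (g.1 i j)⁻¹ • (g.1 *ᵥ (Pi.single j 1 : Fin (n + 2) → k)) := by
    funext a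
    simp only [uu, Pi.smul_apply, smul_eq_mul, Matrix.mulVec_single_one, Matrix.col_apply]
    rw [div_eq_inv_mul]
  rw [h1, Matrix.mulVec_smul, Matrix.mulVec_mulVec, inv_coe_mul, Matrix.one_mulVec]

theorem norm_inv_mulVec_uu (hp : Piv g.1 i j) :
    ‖(g⁻¹).1 *ᵥ uu g.1 i j‖ = (mx g.1)⁻¹ := by
  rw [inv_mulVec_uu hp, norm_smul, norm_inv, hp.mx_eq]
  have h1 : ‖(Pi.single j 1 : Fin (n + 2) → k)‖ = 1 := by
    rw [Pi.norm_single, norm_one]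
  rw [h1, mul_one]

/-- the equation of the attracting hyperplane of `g⁻¹` on the image -/
theorem inv_dot (hp : Piv g.1 i j) (w : Fin (n + 2) → k) :
    g.1 i j * (yy g.1 i j ⬝ᵥ ((g⁻¹).1 *ᵥ w)) = w i := by
  rw [← mulVec_piv hp.ne, Matrix.mulVec_mulVec, coe_mul_inv, Matrix.one_mulVec]

/-- `w = w i • u + E (g⁻¹ w)` -/
theorem inv_dec (hp : Piv g.1 i j) (w : Fin (n + 2) → k) :
    w - w i • uu g.1 i j = (Matrix.of (Er g.1 i j)) *ᵥ ((g⁻¹).1 *ᵥ w) := by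
  have h1 := mulVec_eq hp.ne ((g⁻¹).1 *ᵥ w)
  rw [inv_dot hp, Matrix.mulVec_mulVec, coe_mul_inv, Matrix.one_mulVec] at h1
  rw [sub_eq_iff_eq_add']
  exact h1

/-- **lower bound**: `g⁻¹` is large off its repelling point -/
theorem NW.inv_lower (h : NW R g) (hp : Piv g.1 i j) (w : Fin (n + 2) → k) :
    mx (g⁻¹).1 * ‖w - w i • uu g.1 i j‖ ≤ (n + 2) * n.factorial * R * ‖(g⁻¹).1 *ᵥ w‖ := by
  rw [inv_dec hp, mul_comm]
  exact h.err_mulVec hp _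

/-- the trivial lower bound -/
theorem inv_lower' (g : SpecialLinearGroup (Fin (n + 2)) k) (w : Fin (n + 2) → k) :
    ‖w‖ ≤ (n + 2) * mx g.1 * ‖(g⁻¹).1 *ᵥ w‖ := by
  have h1 := norm_mulVec_le (n := n + 1) g.1 (mx_nonneg _) (le_mx _) ((g⁻¹).1 *ᵥ w)
  rw [Matrix.mulVec_mulVec, coe_mul_inv, Matrix.one_mulVec] at h1
  refine h1.trans (le_of_eq ?_)
  push_cast
  ring

/-- **upper bound** -/
theorem inv_upper (hp : Piv g.1 i j) (w : Fin (n + 2) → k) :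
    ‖(g⁻¹).1 *ᵥ w‖ ≤ (n + 2) * mx (g⁻¹).1 * ‖w - w i • uu g.1 i j‖ + ‖w i‖ * (mx g.1)⁻¹ := by
  have h1 : (g⁻¹).1 *ᵥ w = (g⁻¹).1 *ᵥ (w - w i • uu g.1 i j) + w i • ((g⁻¹).1 *ᵥ uu g.1 i j) := by
    rw [Matrix.mulVec_sub, Matrix.mulVec_smul, sub_add_cancel]
  rw [h1]
  refine (norm_add_le _ _).trans ?_
  rw [norm_smul, norm_inv_mulVec_uu hp]
  gcongr
  have h2 := norm_mulVec_le (n := n + 1) (g⁻¹).1 (mx_nonneg _) (le_mx _) (w - w i • uu g.1 i j)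
  refine h2.trans (le_of_eq ?_)
  push_cast
  ring

/-- **repelling point**: `w` is close to `u` if `g⁻¹ w` is at a definite angle from the
attracting hyperplane `y` of `g⁻¹`. -/
theorem NW.inv_near (h : NW R g) (hp : Piv g.1 i j) {δ : ℝ} {w : Fin (n + 2) → k}
    (hw : δ * ‖(g⁻¹).1 *ᵥ w‖ ≤ ‖yy g.1 i j ⬝ᵥ ((g⁻¹).1 *ᵥ w)‖) (hδ : 0 < δ) :
    ‖w - w i • uu g.1 i j‖ * (mx g.1 * mx (g⁻¹).1) ≤
      (n + 2) * n.factorial * R / δ * ‖w i‖ := by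
  have hg := mx_pos g
  have hR := h.R_nonneg
  have h1 := h.inv_lower hp w
  have h2 : ‖(g⁻¹).1 *ᵥ w‖ * mx g.1 ≤ ‖w i‖ / δ := by
    rw [le_div_iff₀ hδ, ← inv_dot hp w, norm_mul, ← hp.mx_eq]
    calc ‖(g⁻¹).1 *ᵥ w‖ * mx g.1 * δ = mx g.1 * (δ * ‖(g⁻¹).1 *ᵥ w‖) := by ring
      _ ≤ mx g.1 * ‖yy g.1 i j ⬝ᵥ ((g⁻¹).1 *ᵥ w)‖ := mul_le_mul_of_nonneg_left hw hg.le
  calc ‖w - w i • uu g.1 i j‖ * (mx g.1 * mx (g⁻¹).1)
      = (mx (g⁻¹).1 * ‖w - w i • uu g.1 i j‖) * mx g.1 := by ring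
    _ ≤ ((n + 2) * n.factorial * R * ‖(g⁻¹).1 *ᵥ w‖) * mx g.1 :=
        mul_le_mul_of_nonneg_right h1 hg.le
    _ = (n + 2) * n.factorial * R * (‖(g⁻¹).1 *ᵥ w‖ * mx g.1) := by ring
    _ ≤ (n + 2) * n.factorial * R * (‖w i‖ / δ) := mul_le_mul_of_nonneg_left h2 (by positivity)
    _ = (n + 2) * n.factorial * R / δ * ‖w i‖ := by ring

/-- **attracting point** of `g` itself -/
theorem NW.near (h : NW R g) (hp : Piv g.1 i j) (x : Fin (n + 2) → k) :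
    ‖g.1 *ᵥ x - (g.1 i j * (yy g.1 i j ⬝ᵥ x)) • uu g.1 i j‖ * mx (g⁻¹).1 ≤
      (n + 2) * n.factorial * R * ‖x‖ := by
  have h1 : g.1 *ᵥ x - (g.1 i j * (yy g.1 i j ⬝ᵥ x)) • uu g.1 i j =
      (Matrix.of (Er g.1 i j)) *ᵥ x := by
    rw [mulVec_eq hp.ne x, add_sub_cancel_left]
  rw [h1]
  exact h.err_mulVec hp x

theorem size_aux {a b c d x : ℝ} (hx : x ≠ 0) : (a + 1) * (c * x) * (d / x) = (a + 1) * (c * d) := by
  field_simp

/-- column `b` -/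
theorem col_eq (hp' : Piv g'.1 i j) (b : Fin (n + 2)) :
    (fun c => g'.1 c b) = (g'.1 i j * yy g'.1 i j b) • uu g'.1 i j +
      fun c => Er g'.1 i j c b := by
  have hne := hp'.ne
  funext c
  simp only [Pi.add_apply, Pi.smul_apply, smul_eq_mul, Er, yy, uu]
  field_simp
  ring

theorem coef_le (hp' : Piv g'.1 i j) (b : Fin (n + 2)) :
    ‖g'.1 i j * yy g'.1 i j b‖ ≤ mx g'.1 := by
  rw [norm_mul, hp'.mx_eq]
  exact mul_le_of_le_one_right (norm_nonneg _) (hp'.yy_le b)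

theorem ib1 (hp : Piv g.1 i j) (hp' : Piv g'.1 i j) {C : ℝ} (hC : mx g'.1 ≤ C * mx g.1)
    (b : Fin (n + 2)) :
    ‖(g'.1 i j * yy g'.1 i j b) • ((g⁻¹).1 *ᵥ uu g.1 i j)‖ ≤ C := by
  have hg := mx_pos g
  rw [norm_smul, norm_inv_mulVec_uu hp]
  calc ‖g'.1 i j * yy g'.1 i j b‖ * (mx g.1)⁻¹ ≤ mx g'.1 * (mx g.1)⁻¹ :=
        mul_le_mul_of_nonneg_right (coef_le hp' b) (by positivity)
    _ ≤ C := by
      rw [← div_eq_mul_inv, div_le_iff₀ hg]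
      exact hC

theorem ib2 (hp' : Piv g'.1 i j) {C D : ℝ} (hC0 : 0 ≤ C)
    (hC : mx g'.1 ≤ C * mx g.1)
    (hD : ‖uu g'.1 i j - uu g.1 i j‖ * (mx g.1 * mx (g⁻¹).1) ≤ D) (b : Fin (n + 2)) :
    ‖(g'.1 i j * yy g'.1 i j b) • ((g⁻¹).1 *ᵥ (uu g'.1 i j - uu g.1 i j))‖ ≤
      (((n + 1 : ℕ) : ℝ) + 1) * (C * D) := by
  have hg := mx_pos g
  have hh := mx_pos g⁻¹
  rw [norm_smul]
  have h2 := norm_mulVec_le (n := n + 1) (g⁻¹).1 (mx_nonneg _) (le_mx _)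
    (uu g'.1 i j - uu g.1 i j)
  calc ‖g'.1 i j * yy g'.1 i j b‖ * ‖(g⁻¹).1 *ᵥ (uu g'.1 i j - uu g.1 i j)‖
      ≤ (C * mx g.1) * ((((n + 1 : ℕ) : ℝ) + 1) * mx (g⁻¹).1 * ‖uu g'.1 i j - uu g.1 i j‖) :=
        mul_le_mul ((coef_le hp' b).trans hC) h2 (norm_nonneg _) (by positivity)
    _ = (((n + 1 : ℕ) : ℝ) + 1) *
        (C * (‖uu g'.1 i j - uu g.1 i j‖ * (mx g.1 * mx (g⁻¹).1))) := by ring
    _ ≤ (((n + 1 : ℕ) : ℝ) + 1) * (C * D) := by gcongr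

theorem ib3 (h' : NW R g') (hp' : Piv g'.1 i j) {C : ℝ} (hC0 : 0 ≤ C)
    (hC' : mx (g⁻¹).1 ≤ C * mx (g'⁻¹).1) (b : Fin (n + 2)) :
    ‖(g⁻¹).1 *ᵥ (fun c => Er g'.1 i j c b)‖ ≤ (((n + 1 : ℕ) : ℝ) + 1) * (C * (n.factorial * R)) := by
  have hh' := mx_pos g'⁻¹
  have hR := h'.R_nonneg
  have h2 := norm_mulVec_le (n := n + 1) (g⁻¹).1 (mx_nonneg _) (le_mx _)
    (fun c => Er g'.1 i j c b)
  have h3 : ‖(fun c => Er g'.1 i j c b)‖ ≤ n.factorial * R / mx (g'⁻¹).1 := by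
    refine (pi_norm_le_iff_of_nonneg (by positivity)).2 fun c => ?_
    rw [le_div_iff₀ hh']
    exact h'.err hp' c b
  refine h2.trans ?_
  rw [← size_aux (a := ((n + 1 : ℕ) : ℝ)) (b := 0) (c := C) (d := n.factorial * R) hh'.ne']
  gcongr

/-- **multiplicity**: two elements with the same pivot whose column directions are at distance
`≤ D / (‖g‖ ‖g⁻¹‖)` (and comparable sizes) differ by RIGHT multiplication by a bounded matrix. -/
theorem inv_mul_bd (h' : NW R g') (hp : Piv g.1 i j)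
    (hp' : Piv g'.1 i j) {C D : ℝ} (hC : mx g'.1 ≤ C * mx g.1)
    (hC' : mx (g⁻¹).1 ≤ C * mx (g'⁻¹).1)
    (hD : ‖uu g'.1 i j - uu g.1 i j‖ * (mx g.1 * mx (g⁻¹).1) ≤ D) (a b : Fin (n + 2)) :
    ‖(g⁻¹ * g').1 a b‖ ≤ C + (n + 2) * (C * D) + (n + 2) * (C * (n.factorial * R)) := by
  have hg := mx_pos g
  have hg' := mx_pos g'
  have hC0 : 0 ≤ C := by
    by_contra hc
    rw [not_le] at hc
    have := mul_neg_of_neg_of_pos hc hg
    linarith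
  have e2 : (g⁻¹ * g').1 a b = ((g⁻¹).1 *ᵥ fun c => g'.1 c b) a := by
    rw [Matrix.SpecialLinearGroup.coe_mul, Matrix.mul_apply]
    rfl
  have e4 : ((g⁻¹).1 *ᵥ fun c => g'.1 c b) =
      ((g'.1 i j * yy g'.1 i j b) • ((g⁻¹).1 *ᵥ uu g.1 i j) +
      (g'.1 i j * yy g'.1 i j b) • ((g⁻¹).1 *ᵥ (uu g'.1 i j - uu g.1 i j))) +
      (g⁻¹).1 *ᵥ (fun c => Er g'.1 i j c b) := by
    rw [col_eq hp' b, Matrix.mulVec_add, Matrix.mulVec_smul]
    congr 1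
    rw [← smul_add, ← Matrix.mulVec_add, add_sub_cancel]
  have hn : (((n + 1 : ℕ) : ℝ) + 1) = (n : ℝ) + 2 := by push_cast; ring
  have t1 := ib1 hp hp' hC b
  have t2 := ib2 hp' hC0 hC hD b
  have t3 := ib3 (g := g) h' hp' hC0 hC' b
  rw [hn] at t2 t3
  rw [e2]
  refine (norm_le_pi_norm _ a).trans ?_
  rw [e4]
  exact (norm_add_le _ _).trans (add_le_add ((norm_add_le _ _).trans (add_le_add t1 t2)) t3)

/-! ### Transposition and the attracting set -/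

/-- the transposed element -/
def tr (g : SpecialLinearGroup (Fin (n + 2)) k) : SpecialLinearGroup (Fin (n + 2)) k :=
  ⟨g.1ᵀ, by rw [Matrix.det_transpose]; exact g.2⟩

theorem mx_transpose (A : Matrix (Fin (n + 2)) (Fin (n + 2)) k) : mx Aᵀ = mx A :=
  le_antisymm (mx_le (mx_nonneg _) fun a b => le_mx A b a)
    (mx_le (mx_nonneg _) fun a b => le_mx Aᵀ b a)

theorem tr_inv (g : SpecialLinearGroup (Fin (n + 2)) k) : (tr g)⁻¹ = tr g⁻¹ := by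
  rw [inv_eq_iff_mul_eq_one]
  apply Subtype.ext
  change g.1ᵀ * (g⁻¹).1ᵀ = 1
  rw [← Matrix.transpose_mul, inv_coe_mul, Matrix.transpose_one]

theorem nw_tr : NW R (tr g) ↔ NW R g := by
  rw [NW, NW, tr_inv]
  change mx (g⁻¹).1ᵀ ^ (n + 1) ≤ R * mx g.1ᵀ ↔ _
  rw [mx_transpose, mx_transpose]

theorem piv_tr : Piv (tr g).1 j i ↔ Piv g.1 i j :=
  ⟨fun h a b => h b a, fun h a b => h b a⟩

theorem uu_tr : uu (tr g).1 j i = yy g.1 i j := rfl

theorem yy_tr : yy (tr g).1 j i = uu g.1 i j := rfl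

end sl

end Vale.Agent.P092.H124.NW
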