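import Vale.Agent.P092.H124.NWb
import Vale.Agent.P092.H820.Pn

/-!
P092, TEAM N (helper124), [N-NWG], part 3: compactness and counting. `k` is a proper normed field.

`ρ : Γ →* SL_(n+2)(k)`; `κ = ρ γ` is of HYPERPLANE type: `tau κ = (κ⁻¹)ᵀ` is near-wall with attracting
set `A` (hyperplanes, in coordinates). The repelling point of `κ` is `uu κ⁻¹ i j`. Elements of POINT
type are obtained with `ρ = tau ∘ q`.
-/

set_option linter.all false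

open Matrix
open scoped LinearAlgebra.Projectivization

namespace Vale.Agent.P092.H124.NW

section angle

variable {k : Type} [NontriviallyNormedField k] {m : ℕ}

/-- every vector is a multiple of a unit vector -/
theorem exists_unit (v : Fin m → k) (hv : v ≠ 0) : ∃ c : k, c ≠ 0 ∧ ‖c • v‖ = 1 ∧ ‖c‖ * ‖v‖ = 1 := by
  have h0 : ‖v‖ ≠ 0 := norm_ne_zero_iff.2 hv
  have hne : Nonempty (Fin m) := by
    by_contra hc
    rw [not_nonempty_iff] at hc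
    exact hv (Subsingleton.elim _ _)
  obtain ⟨i, hi⟩ : ∃ i, ‖v‖ = ‖v i‖ := by
    obtain ⟨i, hi⟩ := Finite.exists_max fun i => ‖v i‖
    exact ⟨i, le_antisymm ((pi_norm_le_iff_of_nonneg (norm_nonneg _)).2 hi) (norm_le_pi_norm v i)⟩
  have hi0 : v i ≠ 0 := by
    rw [← norm_ne_zero_iff, ← hi]; exact h0
  refine ⟨(v i)⁻¹, inv_ne_zero hi0, ?_, ?_⟩
  · rw [norm_smul, norm_inv, ← hi, inv_mul_cancel₀ h0]
  · rw [norm_inv, ← hi, inv_mul_cancel₀ h0]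

/-- Two closed sets which are not incident are at a definite angle. -/
theorem exists_angle [ProperSpace k] {A B : Set (ℙ k (Fin m → k))} (hA : IsClosed A)
    (hB : IsClosed B)
    (h : ∀ (v w : Fin m → k) (hv : v ≠ 0) (hw : w ≠ 0), Projectivization.mk k v hv ∈ A →
      Projectivization.mk k w hw ∈ B → w ⬝ᵥ v ≠ 0) :
    ∃ δ : ℝ, 0 < δ ∧ ∀ (v w : Fin m → k) (hv : v ≠ 0) (hw : w ≠ 0),
      Projectivization.mk k v hv ∈ A → Projectivization.mk k w hw ∈ B →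
        δ * (‖w‖ * ‖v‖) ≤ ‖w ⬝ᵥ v‖ := by
  have hne : ∀ v : Metric.sphere (0 : Fin m → k) 1, v.1 ≠ 0 := by
    intro v h0
    have := v.2
    rw [h0] at this
    simp at this
  let f : Metric.sphere (0 : Fin m → k) 1 → ℙ k (Fin m → k) :=
    fun v => Projectivization.mk k v.1 (hne v)
  have hf : Continuous f :=
    H820.pj_continuous.comp (Continuous.subtype_mk continuous_subtype_val hne)
  have hcs : CompactSpace (Metric.sphere (0 : Fin m → k) 1) :=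
    isCompact_iff_compactSpace.1 (isCompact_sphere _ _)
  have hK : IsCompact ((f ⁻¹' A) ×ˢ (f ⁻¹' B)) :=
    (hA.preimage hf).isCompact.prod (hB.preimage hf).isCompact
  have hsc : ∀ (v : Fin m → k) (hv : v ≠ 0), ∃ (s : Metric.sphere (0 : Fin m → k) 1) (c : k),
      f s = Projectivization.mk k v hv ∧ s.1 = c • v ∧ ‖c‖ * ‖v‖ = 1 := by
    intro v hv
    obtain ⟨c, hc, h1, h2⟩ := exists_unit v hv
    refine ⟨⟨c • v, ?_⟩, c, ?_, rfl, h2⟩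
    · rw [mem_sphere_zero_iff_norm, h1]
    · exact (Projectivization.mk_eq_mk_iff _ _ _ _ _).2 ⟨Units.mk0 c hc, rfl⟩
  have hc : Continuous fun p : Metric.sphere (0 : Fin m → k) 1 × Metric.sphere (0 : Fin m → k) 1 =>
      ‖p.2.1 ⬝ᵥ p.1.1‖ :=
    ((continuous_subtype_val.comp continuous_snd).dotProduct
      (continuous_subtype_val.comp continuous_fst)).norm
  by_cases he : ((f ⁻¹' A) ×ˢ (f ⁻¹' B)).Nonempty
  · obtain ⟨p, hp, hmin⟩ := hK.exists_isMinOn he hc.continuousOn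
    refine ⟨‖p.2.1 ⬝ᵥ p.1.1‖, norm_pos_iff.2 (h _ _ (hne p.1) (hne p.2) hp.1 hp.2), ?_⟩
    intro v w hv hw ha hb
    obtain ⟨s, c, hs, es, cs⟩ := hsc v hv
    obtain ⟨t, d, ht, et, ct⟩ := hsc w hw
    have h1 : ‖p.2.1 ⬝ᵥ p.1.1‖ ≤ ‖t.1 ⬝ᵥ s.1‖ := by
      refine hmin (a := (s, t)) ⟨?_, ?_⟩
      · change f s ∈ A
        rw [hs]; exact ha
      · change f t ∈ B
        rw [ht]; exact hb
    have h2 : ‖t.1 ⬝ᵥ s.1‖ = ‖d‖ * ‖c‖ * ‖w ⬝ᵥ v‖ := by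
      rw [es, et, dotProduct_smul, smul_dotProduct, norm_smul, norm_smul]
      ring
    rw [h2] at h1
    calc ‖p.2.1 ⬝ᵥ p.1.1‖ * (‖w‖ * ‖v‖) ≤ (‖d‖ * ‖c‖ * ‖w ⬝ᵥ v‖) * (‖w‖ * ‖v‖) :=
          mul_le_mul_of_nonneg_right h1 (by positivity)
      _ = (‖c‖ * ‖v‖) * (‖d‖ * ‖w‖) * ‖w ⬝ᵥ v‖ := by ring
      _ = ‖w ⬝ᵥ v‖ := by rw [cs, ct, one_mul, one_mul]
  · refine ⟨1, one_pos, fun v w hv hw ha hb => ?_⟩
    exfalso
    obtain ⟨s, c, hs, -, -⟩ := hsc v hv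
    obtain ⟨t, d, ht, -, -⟩ := hsc w hw
    refine he ⟨(s, t), ?_, ?_⟩
    · change f s ∈ A
      rw [hs]; exact ha
    · change f t ∈ B
      rw [ht]; exact hb

end angle

section att

variable {k : Type} [NontriviallyNormedField k] {n : ℕ}

/-- the attracting point of `h` is in `A`, up to an error `1/T` -/
def Att (T : ℝ) (A : Set (ℙ k (Fin (n + 2) → k))) (h : SpecialLinearGroup (Fin (n + 2)) k) :
    Prop :=
  ∃ (v φ : Fin (n + 2) → k) (hv : v ≠ 0), Projectivization.mk k v hv ∈ A ∧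
    ∀ i j, ‖h.1 i j - v i * φ j‖ ≤ mx h.1 / T

/-- The vectors at a definite angle from the attracting set are at a definite angle from the pivot
column. -/
theorem att_angle {A B : Set (ℙ k (Fin (n + 2) → k))} {δ : ℝ} (hδ : 0 < δ)
    (hang : ∀ (v w : Fin (n + 2) → k) (hv : v ≠ 0) (hw : w ≠ 0),
      Projectivization.mk k v hv ∈ A → Projectivization.mk k w hw ∈ B →
        δ * (‖w‖ * ‖v‖) ≤ ‖w ⬝ᵥ v‖)
    {T : ℝ} (hT4 : 4 ≤ T) (hT : 4 * (n + 2) / δ ≤ T)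
    {g : SpecialLinearGroup (Fin (n + 2)) k} (hatt : Att T A g) {i j : Fin (n + 2)}
    (hp : Piv g.1 i j) {w : Fin (n + 2) → k} (hw : w ≠ 0) (hwB : Projectivization.mk k w hw ∈ B) :
    δ / 2 * ‖w‖ ≤ ‖w ⬝ᵥ uu g.1 i j‖ := by
  obtain ⟨v, φ, hv, hvA, hφ⟩ := hatt
  have hT0 : 0 < T := by linarith
  have hne := hp.ne
  have hpos : 0 < ‖g.1 i j‖ := norm_pos_iff.2 hne
  rw [hp.mx_eq] at hφ
  obtain ⟨c, hc⟩ : ∃ c : k, c = φ j / g.1 i j := ⟨_, rfl⟩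
  obtain ⟨e, he⟩ : ∃ e : Fin (n + 2) → k, e = uu g.1 i j - c • v := ⟨_, rfl⟩
  have he1 : ∀ a, ‖e a‖ ≤ 1 / T := by
    intro a
    have h1 : e a = (g.1 a j - v a * φ j) / g.1 i j := by
      rw [he, hc]
      simp only [uu, Pi.sub_apply, Pi.smul_apply, smul_eq_mul]
      field_simp
    rw [h1, norm_div, div_le_div_iff₀ hpos hT0, one_mul]
    have h2 := hφ a j
    rw [le_div_iff₀ hT0] at h2
    exact h2
  have hen : ‖e‖ ≤ 1 / T := (pi_norm_le_iff_of_nonneg (by positivity)).2 he1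
  have hu : uu g.1 i j = c • v + e := by rw [he]; abel
  have hcv : 1 - 1 / T ≤ ‖c‖ * ‖v‖ := by
    have h1 : (1 : k) = c * v i + e i := by
      have := congrFun hu i
      rw [uu_self hne] at this
      simpa using this
    have h2 : (1 : ℝ) ≤ ‖c‖ * ‖v‖ + 1 / T := by
      calc (1 : ℝ) = ‖(1 : k)‖ := norm_one.symm
        _ = ‖c * v i + e i‖ := by rw [← h1]
        _ ≤ ‖c * v i‖ + ‖e i‖ := norm_add_le _ _
        _ ≤ ‖c‖ * ‖v‖ + 1 / T := by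
          rw [norm_mul]
          exact add_le_add (mul_le_mul_of_nonneg_left (norm_le_pi_norm v i) (norm_nonneg _)) (he1 i)
    linarith
  have hdot : w ⬝ᵥ uu g.1 i j = c * (w ⬝ᵥ v) + w ⬝ᵥ e := by
    rw [hu, dotProduct_add, dotProduct_smul, smul_eq_mul]
  have hne1 : ‖w ⬝ᵥ e‖ ≤ (n + 2) / T * ‖w‖ := by
    have h1 := norm_dot_le (n := n + 1) w e
    calc ‖w ⬝ᵥ e‖ ≤ (((n + 1 : ℕ) : ℝ) + 1) * ‖w‖ * ‖e‖ := h1
      _ ≤ (((n + 1 : ℕ) : ℝ) + 1) * ‖w‖ * (1 / T) := by gcongr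
      _ = (n + 2) / T * ‖w‖ := by push_cast; ring
  have h5 : δ * ‖w‖ * (1 - 1 / T) ≤ ‖c * (w ⬝ᵥ v)‖ := by
    rw [norm_mul]
    calc δ * ‖w‖ * (1 - 1 / T) ≤ δ * ‖w‖ * (‖c‖ * ‖v‖) :=
          mul_le_mul_of_nonneg_left hcv (by positivity)
      _ = ‖c‖ * (δ * (‖w‖ * ‖v‖)) := by ring
      _ ≤ ‖c‖ * ‖w ⬝ᵥ v‖ := mul_le_mul_of_nonneg_left (hang v w hv hw hvA hwB) (norm_nonneg _)
  have h6 : ‖c * (w ⬝ᵥ v)‖ - ‖w ⬝ᵥ e‖ ≤ ‖w ⬝ᵥ uu g.1 i j‖ := by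
    rw [hdot]
    have := norm_sub_norm_le (c * (w ⬝ᵥ v)) (-(w ⬝ᵥ e))
    rw [norm_neg, sub_neg_eq_add] at this
    exact this
  have h7 : 1 / T ≤ 1 / 4 := one_div_le_one_div_of_le (by norm_num) hT4
  have h8 : ((n : ℝ) + 2) / T ≤ δ / 4 := by
    rw [div_le_div_iff₀ hT0 (by norm_num)]
    rw [div_le_iff₀ hδ] at hT
    linarith
  have h9 : ((n : ℝ) + 2) / T * ‖w‖ ≤ δ / 4 * ‖w‖ := mul_le_mul_of_nonneg_right h8 (norm_nonneg _)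
  have h10 : δ * ‖w‖ * (3 / 4) ≤ δ * ‖w‖ * (1 - 1 / T) :=
    mul_le_mul_of_nonneg_left (by linarith) (by positivity)
  linarith

/-- **Repelling ball.** `g⁻¹` of hyperplane type, `yy g` close to `A`; if `g⁻¹ w ∈ B`, then `w` is
`r`-close to `uu g`, `r = 1 / (‖g‖ ‖g⁻¹‖)`. -/
theorem rep_ball [ProperSpace k] {A B : Set (ℙ k (Fin (n + 2) → k))} (hA : IsClosed A)
    (hB : IsClosed B)
    (h : ∀ (v w : Fin (n + 2) → k) (hv : v ≠ 0) (hw : w ≠ 0), Projectivization.mk k v hv ∈ A →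
      Projectivization.mk k w hw ∈ B → w ⬝ᵥ v ≠ 0) :
    ∃ T₀ : ℝ, 0 < T₀ ∧ ∃ C₀ : ℝ, 0 < C₀ ∧ ∀ T ≥ T₀, ∀ (R : ℝ)
      (g : SpecialLinearGroup (Fin (n + 2)) k) (i j : Fin (n + 2)), NW R g → Piv g.1 i j →
      Att T A (tr g) → ∀ (w : Fin (n + 2) → k) (hw : (g⁻¹).1 *ᵥ w ≠ 0),
      Projectivization.mk k ((g⁻¹).1 *ᵥ w) hw ∈ B →
        w i ≠ 0 ∧ ‖w - w i • uu g.1 i j‖ * (mx g.1 * mx (g⁻¹).1) ≤ C₀ * R * ‖w i‖ := by
  obtain ⟨δ, hδ, hang⟩ := exists_angle hA hB h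
  refine ⟨max 4 (4 * (n + 2) / δ), lt_of_lt_of_le (by norm_num) (le_max_left _ _),
    (n + 2) * n.factorial / (δ / 2), by positivity, fun T hT R g i j hg hp hatt w hw hwB => ?_⟩
  have h1 := att_angle hδ hang ((le_max_left _ _).trans hT) ((le_max_right _ _).trans hT) hatt
    (piv_tr.2 hp) hw hwB
  rw [uu_tr, dotProduct_comm] at h1
  have h2 := hg.inv_near hp h1 (half_pos hδ)
  refine ⟨fun h0 => ?_, h2.trans (le_of_eq ?_)⟩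
  · have h3 := inv_dot hp w
    rw [h0] at h3
    have h4 : yy g.1 i j ⬝ᵥ ((g⁻¹).1 *ᵥ w) = 0 := by
      rcases mul_eq_zero.1 h3 with h | h
      · exact absurd h hp.ne
      · exact h
    rw [h4, norm_zero] at h1
    have h5 : 0 < ‖(g⁻¹).1 *ᵥ w‖ := norm_pos_iff.2 hw
    nlinarith [mul_pos hδ h5]
  · ring

end att

section count

variable {k : Type} [NontriviallyNormedField k] {n : ℕ} {Γ : Type} [Group Γ]

theorem le_of_pow_le {x y c : ℝ} (hx : 0 ≤ x) (hy : 0 ≤ y) (hc : 1 ≤ c) (m : ℕ)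
    (h : x ^ (m + 1) ≤ c * y ^ (m + 1)) : x ≤ c * y := by
  by_contra hlt
  rw [not_le] at hlt
  have h1 : (c * y) ^ (m + 1) < x ^ (m + 1) :=
    pow_lt_pow_left₀ hlt (by positivity) (Nat.succ_ne_zero m)
  have h2 : c * y ^ (m + 1) ≤ (c * y) ^ (m + 1) := by
    rw [mul_pow]
    exact mul_le_mul_of_nonneg_right (le_self_pow₀ hc (Nat.succ_ne_zero m)) (by positivity)
  linarith

/-- the sizes of the inverses in a shell -/
theorem inv_size {g g' : SpecialLinearGroup (Fin (n + 2)) k} {R L : ℝ} (h : NW R g)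
    (hL : mx g.1 ≤ L * mx g'.1) :
    mx (g⁻¹).1 ≤ max 1 (R * L * (n + 1).factorial) * mx (g'⁻¹).1 := by
  have hR := h.R_nonneg
  have h1 : mx (g⁻¹).1 ^ (n + 1) ≤ R * mx g.1 := h
  have h2 := mx_le_inv g'
  have hg := mx_pos g
  have hg' := mx_pos g'
  have hL0 : 0 ≤ L := by
    by_contra hc
    rw [not_le] at hc
    have := mul_neg_of_neg_of_pos hc hg'
    linarith
  refine le_of_pow_le (mx_nonneg _) (mx_nonneg _) (le_max_left _ _) n ?_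
  calc mx (g⁻¹).1 ^ (n + 1) ≤ R * mx g.1 := h1
    _ ≤ R * (L * mx g'.1) := mul_le_mul_of_nonneg_left hL hR
    _ ≤ R * (L * ((n + 1).factorial * mx (g'⁻¹).1 ^ (n + 1))) := by gcongr
    _ = (R * L * (n + 1).factorial) * mx (g'⁻¹).1 ^ (n + 1) := by ring
    _ ≤ max 1 (R * L * (n + 1).factorial) * mx (g'⁻¹).1 ^ (n + 1) :=
        mul_le_mul_of_nonneg_right (le_max_right _ _) (pow_nonneg (mx_nonneg _) _)

/-- **Capacity.** In one shell, for one pivot, the number of `γ` whose repelling point `uu (ρ γ)⁻¹`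
is within `D r` of a given vector is bounded by a constant which depends on `R, L, D` only. -/
theorem exists_capacity (ρ : Γ →* SpecialLinearGroup (Fin (n + 2)) k)
    (hfin : ∀ C : ℝ, {γ | mx (ρ γ).1 ≤ C}.Finite) (R L D : ℝ) :
    ∃ N : ℕ, ∀ (i j : Fin (n + 2)) (u₀ : Fin (n + 2) → k) (S : Finset Γ),
      (∀ γ ∈ S, NW R (ρ γ)⁻¹ ∧ Piv ((ρ γ)⁻¹).1 i j) →
      (∀ γ ∈ S, ∀ γ' ∈ S, mx ((ρ γ)⁻¹).1 ≤ L * mx ((ρ γ')⁻¹).1) →
      (∀ γ ∈ S, ‖uu ((ρ γ)⁻¹).1 i j - u₀‖ * (mx ((ρ γ)⁻¹).1 * mx (ρ γ).1) ≤ D) →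
      S.card ≤ N := by
  classical
  obtain ⟨C, hC⟩ : ∃ C : ℝ, C = max 1 L + max 1 (R * L * (n + 1).factorial) := ⟨_, rfl⟩
  obtain ⟨M, hM⟩ : ∃ M : ℝ, M = C + (n + 2) * (C * (D + C * C * D)) +
    (n + 2) * (C * (n.factorial * R)) := ⟨_, rfl⟩
  refine ⟨(hfin M).toFinset.card, fun i j u₀ S h1 h2 h3 => ?_⟩
  rcases S.eq_empty_or_nonempty with rfl | ⟨γ₀, hγ₀⟩
  · exact Nat.zero_le _
  refine Finset.card_le_card_of_injOn (fun γ => γ₀ * γ⁻¹) ?_ fun a _ b _ hab =>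
    inv_injective (mul_left_cancel hab)
  intro γ hγ
  have hγ' := Finset.mem_coe.mp hγ
  simp only [Set.Finite.coe_toFinset]
  change mx (ρ (γ₀ * γ⁻¹)).1 ≤ M
  obtain ⟨w0, p0⟩ := h1 γ₀ hγ₀
  obtain ⟨w1, p1⟩ := h1 γ hγ'
  have hC1 : 1 ≤ C := by
    rw [hC]
    have := le_max_left 1 L
    have := le_max_left 1 (R * L * (n + 1).factorial)
    linarith
  have hCL : L ≤ C := by
    rw [hC]
    have := le_max_right 1 L
    have := le_max_left 1 (R * L * (n + 1).factorial)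
    linarith
  have hCR : max 1 (R * L * (n + 1).factorial) ≤ C := by
    rw [hC]
    have := le_max_left 1 L
    linarith
  have s1 : mx ((ρ γ)⁻¹).1 ≤ C * mx ((ρ γ₀)⁻¹).1 :=
    (h2 γ hγ' γ₀ hγ₀).trans (mul_le_mul_of_nonneg_right hCL (mx_nonneg _))
  have s2 : mx (((ρ γ₀)⁻¹)⁻¹).1 ≤ C * mx (((ρ γ)⁻¹)⁻¹).1 :=
    (inv_size w0 (h2 γ₀ hγ₀ γ hγ')).trans (mul_le_mul_of_nonneg_right hCR (mx_nonneg _))
  have s1' : mx ((ρ γ₀)⁻¹).1 ≤ C * mx ((ρ γ)⁻¹).1 :=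
    (h2 γ₀ hγ₀ γ hγ').trans (mul_le_mul_of_nonneg_right hCL (mx_nonneg _))
  have d0 := h3 γ₀ hγ₀
  have d1 := h3 γ hγ'
  have hD0 : 0 ≤ D := le_trans (mul_nonneg (norm_nonneg _)
    (mul_nonneg (mx_nonneg _) (mx_nonneg _))) d0
  have hsz : mx ((ρ γ₀)⁻¹).1 * mx (((ρ γ₀)⁻¹)⁻¹).1 ≤
      C * C * (mx ((ρ γ)⁻¹).1 * mx (ρ γ).1) := by
    rw [inv_inv] at s2 ⊢
    rw [inv_inv] at s2
    calc mx ((ρ γ₀)⁻¹).1 * mx (ρ γ₀).1 ≤ (C * mx ((ρ γ)⁻¹).1) * (C * mx (ρ γ).1) :=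
          mul_le_mul s1' s2 (mx_nonneg _) (mul_nonneg (by linarith) (mx_nonneg _))
      _ = C * C * (mx ((ρ γ)⁻¹).1 * mx (ρ γ).1) := by ring
  have d2 : ‖uu ((ρ γ)⁻¹).1 i j - uu ((ρ γ₀)⁻¹).1 i j‖ *
      (mx ((ρ γ₀)⁻¹).1 * mx (((ρ γ₀)⁻¹)⁻¹).1) ≤ D + C * C * D := by
    have e1 : ‖uu ((ρ γ)⁻¹).1 i j - uu ((ρ γ₀)⁻¹).1 i j‖ ≤
        ‖uu ((ρ γ₀)⁻¹).1 i j - u₀‖ + ‖uu ((ρ γ)⁻¹).1 i j - u₀‖ := by
      rw [show uu ((ρ γ)⁻¹).1 i j - uu ((ρ γ₀)⁻¹).1 i j =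
        -(uu ((ρ γ₀)⁻¹).1 i j - u₀) + (uu ((ρ γ)⁻¹).1 i j - u₀) by abel]
      exact (norm_add_le _ _).trans (by rw [norm_neg])
    have hpos : 0 ≤ mx ((ρ γ₀)⁻¹).1 * mx (((ρ γ₀)⁻¹)⁻¹).1 := mul_nonneg (mx_nonneg _) (mx_nonneg _)
    calc _ ≤ (‖uu ((ρ γ₀)⁻¹).1 i j - u₀‖ + ‖uu ((ρ γ)⁻¹).1 i j - u₀‖) *
          (mx ((ρ γ₀)⁻¹).1 * mx (((ρ γ₀)⁻¹)⁻¹).1) := mul_le_mul_of_nonneg_right e1 hpos
      _ = ‖uu ((ρ γ₀)⁻¹).1 i j - u₀‖ * (mx ((ρ γ₀)⁻¹).1 * mx (((ρ γ₀)⁻¹)⁻¹).1) +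
          ‖uu ((ρ γ)⁻¹).1 i j - u₀‖ * (mx ((ρ γ₀)⁻¹).1 * mx (((ρ γ₀)⁻¹)⁻¹).1) := by ring
      _ ≤ D + ‖uu ((ρ γ)⁻¹).1 i j - u₀‖ * (C * C * (mx ((ρ γ)⁻¹).1 * mx (ρ γ).1)) := by
          refine add_le_add ?_ (mul_le_mul_of_nonneg_left hsz (norm_nonneg _))
          rw [inv_inv]
          exact d0
      _ = D + C * C * (‖uu ((ρ γ)⁻¹).1 i j - u₀‖ * (mx ((ρ γ)⁻¹).1 * mx (ρ γ).1)) := by ring
      _ ≤ D + C * C * D := by gcongr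
  have hM0 : 0 ≤ M := by
    rw [hM]
    have hR := w0.R_nonneg
    have hC0 : 0 ≤ C := by linarith
    positivity
  refine mx_le hM0 fun a b => ?_
  have key := inv_mul_bd w1 p0 p1 s1 s2 d2 a b
  have e : (ρ (γ₀ * γ⁻¹)).1 = (((ρ γ₀)⁻¹)⁻¹ * (ρ γ)⁻¹).1 := by
    rw [map_mul, map_inv, inv_inv]
  rw [e, hM]
  exact key

end count

end Vale.Agent.P092.H124.NW
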