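import Vale.Agent.P092.H387.Pl1
import Vale.Agent.P092.H305.NisP

/-!
P092, TEAM N, two fields, row [SX-NIS] (helper124), file A: a homomorphism `φ : k → l` of normed
fields with `‖φ x‖ = ‖x‖ ^ s` gives `PGL_n(k) → PGL_n(l)`. If every `φ x` is an `n`-th power in
`l`, every element of `PGL_n(k)` has a representative in `SL_n(l)`; bounded representatives form a
compact subset of `PGL_n(k)`.
-/

set_option linter.all false

open scoped LinearAlgebra.Projectivization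
open Matrix Filter Topology Set

namespace Vale.Agent.P092.H124.Pgl

open Vale.Agent.P092.RC (GG PG YY ct)
open Vale.Agent.P092.SN (PH nm CG)
open Vale.Agent.P092.H35 (sp mkP mkP_surj mkP_cont mkP_eq_iff center_iff nmx npG np np_mkP np_sp
  np_cont)

section map

variable {k l : Type} [NontriviallyNormedField k] [NontriviallyNormedField l] {n : ℕ}

theorem map_val (φ : k →+* l) (g : GL (Fin n) k) :
    (GeneralLinearGroup.map φ g).1 = g.1.map φ := rfl

/-- `PGL_n(k) → PGL_n(l)` -/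
noncomputable def pgm (φ : k →+* l) (n : ℕ) : PG k n →* PG l n :=
  QuotientGroup.lift (Subgroup.center (GL (Fin n) k))
    ((mkP l n).comp (GeneralLinearGroup.map φ)) fun z hz => by
      obtain ⟨c, hc⟩ := center_iff.1 hz
      refine H35.mkP_one_iff.2 ⟨φ c, ?_⟩
      change (z.1.map φ : Matrix (Fin n) (Fin n) l) = _
      rw [hc]
      ext i j
      simp [Matrix.map_apply, Matrix.smul_apply, Matrix.one_apply, apply_ite φ]

theorem pgm_mkP (φ : k →+* l) (g : GL (Fin n) k) :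
    pgm φ n (mkP k n g) = mkP l n (GeneralLinearGroup.map φ g) := rfl

theorem pgm_sp (φ : k →+* l) (g : SpecialLinearGroup (Fin n) k) :
    pgm φ n (sp k n g) = sp l n (SpecialLinearGroup.map φ g) := by
  rw [H35.sp_apply, H35.sp_apply, pgm_mkP]
  exact congrArg (mkP l n) (Units.ext rfl)

theorem pgm_cont {φ : k →+* l} (hφ : Continuous φ) : Continuous (pgm φ n) := by
  have h1 : Continuous (GeneralLinearGroup.map φ : GL (Fin n) k → GL (Fin n) l) := by
    refine Continuous.units_map _ ?_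
    change Continuous fun A : Matrix (Fin n) (Fin n) k => A.map φ
    exact continuous_id.matrix_map hφ
  exact (mkP_cont.comp h1).quotient_lift _

theorem pgm_one {φ : k →+* l} {x : PG k n} (h : pgm φ n x = 1) : x = 1 := by
  obtain ⟨g, rfl⟩ := mkP_surj x
  rw [pgm_mkP, H35.mkP_one_iff] at h
  obtain ⟨c, hc⟩ := h
  rw [H35.mkP_one_iff]
  have h2 : ∀ i j, φ (g.1 i j) = c * (1 : Matrix (Fin n) (Fin n) l) i j := fun i j => by
    have := congrFun (congrFun hc i) j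
    rw [map_val] at this
    exact this
  rcases Nat.eq_zero_or_pos n with h0 | h0
  · subst h0
    exact ⟨0, by ext i; exact i.elim0⟩
  · refine ⟨g.1 ⟨0, h0⟩ ⟨0, h0⟩, ?_⟩
    ext i j
    apply φ.injective
    rw [h2 i j, Matrix.smul_apply, smul_eq_mul, map_mul, h2, Matrix.one_apply_eq, mul_one]
    congr 1
    rw [Matrix.one_apply, Matrix.one_apply]
    split_ifs
    · rw [map_one]
    · rw [map_zero]

/-! ### Norms -/

theorem nmx_map {φ : k →+* l} {s : ℝ} (hs : 0 < s) (hφ : ∀ x, ‖φ x‖ = ‖x‖ ^ s)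
    (A : Matrix (Fin n) (Fin n) k) : nmx (A.map φ) = nmx A ^ s := by
  have hA := H35.nmx_nonneg A
  have hB := H35.nmx_nonneg (A.map φ)
  apply le_antisymm
  · refine (pi_norm_le_iff_of_nonneg (Real.rpow_nonneg hA s)).2 fun i =>
      (pi_norm_le_iff_of_nonneg (Real.rpow_nonneg hA s)).2 fun j => ?_
    change ‖φ (A i j)‖ ≤ _
    rw [hφ]
    exact Real.rpow_le_rpow (norm_nonneg _) (H35.le_nmx A i j) hs.le
  · have h1 : nmx A ≤ nmx (A.map φ) ^ s⁻¹ := by
      refine (pi_norm_le_iff_of_nonneg (Real.rpow_nonneg hB _)).2 fun i =>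
        (pi_norm_le_iff_of_nonneg (Real.rpow_nonneg hB _)).2 fun j => ?_
      have h2 : ‖φ (A i j)‖ ≤ nmx (A.map φ) := H35.le_nmx (A.map φ) i j
      calc ‖A i j‖ = (‖A i j‖ ^ s) ^ s⁻¹ := by
            rw [← Real.rpow_mul (norm_nonneg _), mul_inv_cancel₀ hs.ne', Real.rpow_one]
        _ ≤ nmx (A.map φ) ^ s⁻¹ := by
            rw [← hφ]
            exact Real.rpow_le_rpow (norm_nonneg _) h2 (inv_nonneg.2 hs.le)
    calc nmx A ^ s ≤ (nmx (A.map φ) ^ s⁻¹) ^ s := Real.rpow_le_rpow hA h1 hs.le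
      _ = nmx (A.map φ) := by
          rw [← Real.rpow_mul hB, inv_mul_cancel₀ hs.ne', Real.rpow_one]

theorem np_nonneg (x : PG k n) : 0 ≤ np x := by
  obtain ⟨g, rfl⟩ := mkP_surj x
  rw [np_mkP, npG]
  exact div_nonneg (pow_nonneg (H35.nmx_nonneg _) _) (norm_nonneg _)

/-- the size of the image -/
theorem np_pgm {φ : k →+* l} {s : ℝ} (hs : 0 < s) (hφ : ∀ x, ‖φ x‖ = ‖x‖ ^ s) (x : PG k n) :
    np (pgm φ n x) = np x ^ s := by
  obtain ⟨g, rfl⟩ := mkP_surj x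
  rw [pgm_mkP, np_mkP, np_mkP, npG, npG, map_val, nmx_map hs hφ]
  have e : (g.1.map φ).det = φ g.1.det := by
    rw [RingHom.map_det]
    rfl
  rw [e, hφ, Real.div_rpow (pow_nonneg (H35.nmx_nonneg _) _) (norm_nonneg _)]
  congr 1
  rw [← Real.rpow_natCast, ← Real.rpow_natCast, ← Real.rpow_mul (H35.nmx_nonneg _),
    ← Real.rpow_mul (H35.nmx_nonneg _), mul_comm]

end map

/-! ### Bounded sets of `PGL_n(k)` -/

section bdd

variable {k : Type} [NontriviallyNormedField k] {n : ℕ}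

/-- the set of matrices with bounded entries and determinant bounded from below is compact -/
theorem isCompact_md [ProperSpace k] (r δ : ℝ) :
    IsCompact {A : Matrix (Fin n) (Fin n) k | nmx A ≤ r ∧ δ ≤ ‖A.det‖} := by
  have hK : IsCompact {A : Matrix (Fin n) (Fin n) k | nmx A ≤ r} := by
    have h1 : IsCompact (Metric.closedBall (0 : Fin n → Fin n → k) r) :=
      isCompact_closedBall _ _
    have h2 : (Metric.closedBall (0 : Fin n → Fin n → k) r : Set (Fin n → Fin n → k)) =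
        {A | ‖A‖ ≤ r} := by
      ext A
      exact mem_closedBall_zero_iff
    rw [h2] at h1
    exact h1
  have hcl : IsClosed {A : Matrix (Fin n) (Fin n) k | δ ≤ ‖A.det‖} :=
    isClosed_le continuous_const (Continuous.matrix_det continuous_id).norm
  exact hK.inter_right hcl

/-- **bounded subsets of `PGL_n(k)` are relatively compact** -/
theorem exists_compact_np [ProperSpace k] (hn : n ≠ 0) (R : ℝ) :
    ∃ C : Set (PG k n), IsCompact C ∧ ∀ x, np x ≤ R → x ∈ C := by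
  obtain ⟨w, hw0, hw1⟩ := NormedField.exists_norm_lt_one k
  have hw : w ≠ 0 := norm_pos_iff.1 hw0
  let R' : ℝ := max R 1
  have hR' : 0 < R' := lt_max_of_lt_right one_pos
  let S : Set (Matrix (Fin n) (Fin n) k) := {A | nmx A ≤ ‖w‖⁻¹ ∧ R'⁻¹ ≤ ‖A.det‖}
  have hS : IsCompact S := isCompact_md _ _
  haveI : CompactSpace S := isCompact_iff_compactSpace.1 hS
  have hdet : ∀ A : S, A.1.det ≠ 0 := fun A h => by
    have h1 := A.2.2
    rw [h, norm_zero] at h1
    exact absurd h1 (not_le.2 (inv_pos.2 hR'))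
  let f : S → GL (Fin n) k := fun A => GeneralLinearGroup.mkOfDetNeZero A.1 (hdet A)
  have hf : Continuous f := by
    rw [Units.continuous_iff]
    constructor
    · exact continuous_subtype_val
    · have e : (fun A : S => ((f A)⁻¹ : GL (Fin n) k).1) = fun A : S =>
          (A.1.det)⁻¹ • A.1.adjugate := by
        funext A
        rw [Matrix.coe_units_inv, Matrix.inv_def, Ring.inverse_eq_inv']
        rfl
      change Continuous fun A : S => ((f A)⁻¹ : GL (Fin n) k).1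
      rw [e]
      exact ((continuous_subtype_val.matrix_det).inv₀ hdet).smul
        continuous_subtype_val.matrix_adjugate
  refine ⟨Set.range fun A : S => mkP k n (f A), isCompact_range (mkP_cont.comp hf), fun x hx => ?_⟩
  obtain ⟨g, rfl⟩ := mkP_surj x
  rw [np_mkP, npG] at hx
  have hd : g.1.det ≠ 0 := ((Matrix.isUnit_iff_isUnit_det g.1).1 g.isUnit).ne_zero
  have hd' : 0 < ‖g.1.det‖ := norm_pos_iff.2 hd
  have hg0 : 0 < nmx g.1 := by
    refine lt_of_le_of_ne (H35.nmx_nonneg _) fun h => ?_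
    apply hd
    have h1 : g.1 = 0 := by
      ext i j
      have := H35.le_nmx g.1 i j
      rw [← h] at this
      exact norm_le_zero_iff.1 this
    haveI : Nonempty (Fin n) := ⟨⟨0, Nat.pos_of_ne_zero hn⟩⟩
    rw [h1, det_zero]
  -- rescale
  obtain ⟨m, hm1, hm2⟩ : ∃ m : ℤ, 1 ≤ ‖w ^ m‖ * nmx g.1 ∧ ‖w ^ m‖ * nmx g.1 < ‖w‖⁻¹ := by
    obtain ⟨m, hm, hm'⟩ := exists_mem_Ico_zpow (x := nmx g.1) (y := ‖w‖⁻¹) hg0
      ((one_lt_inv₀ hw0).2 hw1)
    refine ⟨m, ?_, ?_⟩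
    · rw [norm_zpow]
      rw [_root_.inv_zpow] at hm
      rwa [inv_le_iff_one_le_mul₀' (zpow_pos hw0 m)] at hm
    · rw [norm_zpow]
      rw [zpow_add_one₀ (inv_ne_zero hw0.ne'), _root_.inv_zpow] at hm'
      calc ‖w‖ ^ m * nmx g.1 < ‖w‖ ^ m * ((‖w‖ ^ m)⁻¹ * ‖w‖⁻¹) :=
            mul_lt_mul_of_pos_left hm' (zpow_pos hw0 m)
        _ = ‖w‖⁻¹ := by rw [← mul_assoc, mul_inv_cancel₀ (zpow_pos hw0 m).ne', one_mul]
  have hwm : (w ^ m : k) ≠ 0 := zpow_ne_zero m hw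
  have hnm : nmx (w ^ m • g.1) = ‖w ^ m‖ * nmx g.1 := H35.nmx_smul _ _
  have hdt : ‖(w ^ m • g.1).det‖ = ‖w ^ m‖ ^ n * ‖g.1.det‖ := by
    rw [det_smul, Fintype.card_fin, norm_mul, norm_pow]
  have hmem : (w ^ m • g.1) ∈ S := by
    refine ⟨by rw [hnm]; exact hm2.le, ?_⟩
    rw [hdt]
    have h1 : nmx g.1 ^ n ≤ R' * ‖g.1.det‖ := by
      rw [div_le_iff₀ hd'] at hx
      exact hx.trans (mul_le_mul_of_nonneg_right (le_max_left _ _) hd'.le)
    have h2 : 1 ≤ ‖w ^ m‖ ^ n * nmx g.1 ^ n := by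
      rw [← mul_pow]
      exact one_le_pow₀ hm1
    have h3 : 1 ≤ ‖w ^ m‖ ^ n * (R' * ‖g.1.det‖) :=
      h2.trans (mul_le_mul_of_nonneg_left h1 (pow_nonneg (norm_nonneg _) _))
    rw [inv_le_iff_one_le_mul₀' hR']
    calc (1 : ℝ) ≤ ‖w ^ m‖ ^ n * (R' * ‖g.1.det‖) := h3
      _ = R' * (‖w ^ m‖ ^ n * ‖g.1.det‖) := by ring
  refine ⟨⟨w ^ m • g.1, hmem⟩, ?_⟩
  refine (mkP_eq_iff.2 ⟨w ^ m, ?_⟩).symm
  rfl

end bdd

/-! ### Representatives in `SL_n(l)` -/

section lift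

variable {k l : Type} [NontriviallyNormedField k] [NontriviallyNormedField l] {N : ℕ}

theorem exists_lift (φ : k →+* l) (hr : ∀ x, ∃ y : l, y ^ (N + 1) = φ x) (e : PG k (N + 1)) :
    ∃ g : GG l N, sp l (N + 1) g = pgm φ (N + 1) e := by
  obtain ⟨g, rfl⟩ := mkP_surj e
  obtain ⟨c, hc⟩ := hr g.1.det
  have hd : g.1.det ≠ 0 := ((Matrix.isUnit_iff_isUnit_det g.1).1 g.isUnit).ne_zero
  have hd' : φ g.1.det ≠ 0 := (map_ne_zero φ).2 hd
  have hc0 : c ≠ 0 := by
    rintro rfl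
    rw [zero_pow (Nat.succ_ne_zero N)] at hc
    exact hd' hc.symm
  have hdet : (c⁻¹ • (g.1.map φ)).det = 1 := by
    have e : (g.1.map φ).det = φ g.1.det := by
      rw [RingHom.map_det]
      rfl
    rw [det_smul, Fintype.card_fin, e, ← hc, inv_pow, inv_mul_cancel₀ (pow_ne_zero _ hc0)]
  obtain ⟨B, hB⟩ : ∃ B : GG l N, B.1 = c⁻¹ • (g.1.map φ) := ⟨⟨_, hdet⟩, rfl⟩
  refine ⟨B, ?_⟩
  rw [H35.sp_apply, pgm_mkP]
  refine mkP_eq_iff.2 ⟨c, ?_⟩
  rw [map_val]
  change g.1.map φ = c • B.1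
  rw [hB, smul_smul, mul_inv_cancel₀ hc0, one_smul]

/-- a representative in `SL_n(l)` of an element of `PGL_n(k)` -/
noncomputable def lf (φ : k →+* l) (hr : ∀ x, ∃ y : l, y ^ (N + 1) = φ x) (e : PG k (N + 1)) :
    GG l N := (exists_lift φ hr e).choose

theorem sp_lf (φ : k →+* l) (hr : ∀ x, ∃ y : l, y ^ (N + 1) = φ x) (e : PG k (N + 1)) :
    sp l (N + 1) (lf φ hr e) = pgm φ (N + 1) e := (exists_lift φ hr e).choose_spec

/-- the size of a representative -/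
theorem nm_lf {φ : k →+* l} (hr : ∀ x, ∃ y : l, y ^ (N + 1) = φ x) {s : ℝ} (hs : 0 < s)
    (hφ : ∀ x, ‖φ x‖ = ‖x‖ ^ s) (e : PG k (N + 1)) : nm (lf φ hr e) ^ (N + 1) = np e ^ s := by
  rw [← np_pgm hs hφ, ← sp_lf φ hr, np_sp]
  rfl

/-- bounded representatives: a compact set -/
theorem exists_compact_lf [ProperSpace k] {φ : k →+* l}
    (hr : ∀ x, ∃ y : l, y ^ (N + 1) = φ x) {s : ℝ} (hs : 0 < s)
    (hφ : ∀ x, ‖φ x‖ = ‖x‖ ^ s) (C : ℝ) :
    ∃ Q : Set (PG k (N + 1)), IsCompact Q ∧ ∀ e, nm (lf φ hr e) ≤ C → e ∈ Q := by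
  obtain ⟨Q, hQ, h⟩ := exists_compact_np (k := k) (n := N + 1) (Nat.succ_ne_zero N)
    ((C ^ (N + 1)) ^ s⁻¹)
  refine ⟨Q, hQ, fun e he => h e ?_⟩
  have h0 : (0 : ℝ) ≤ nm (lf φ hr e) := norm_nonneg _
  have h1 : np e ^ s ≤ C ^ (N + 1) := by
    rw [← nm_lf hr hs hφ]
    exact pow_le_pow_left₀ h0 he _
  calc np e = (np e ^ s) ^ s⁻¹ := by
        rw [← Real.rpow_mul (np_nonneg _), mul_inv_cancel₀ hs.ne', Real.rpow_one]
    _ ≤ (C ^ (N + 1)) ^ s⁻¹ :=
        Real.rpow_le_rpow (Real.rpow_nonneg (np_nonneg _) _) h1 (inv_nonneg.2 hs.le)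

end lift

end Vale.Agent.P092.H124.Pgl
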