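import Vale.Agent.P092.H124.PglA
import Vale.Agent.P092.H100.Gr3

/-!
P092, TEAM N, two fields, row [SX-NIS] (helper124), file B: no invariant states on the
Grassmannians of `l^n` for a lattice of a group `E` which acts through a homomorphism to
`PGL_n(l)` whose image contains the image of `SL_n(k)`, `φ : k → l`.
-/

set_option linter.all false

open TopologicalSpace Topology Module Set MeasureTheory
open scoped Matrix

namespace Vale.Agent.P092.H124.Pgl

open Vale.Agent.P092.H100.Gr (Gr Fr mn bu BU BU_sp bu_one P_ne sp_surj smF sp_smF mn_of_not_inj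
  mn_diag exists_mn bu_nonneg bu_le key dg dg_smul tI norm_mn_perm mn_tv mn_tv_of_notMem tI_prod)
open Vale.Agent.P092.H514.NI (tv tv_smul)

section perm

variable {R : Type*} [CommRing R] {ι : Type*} [Fintype ι] [DecidableEq ι]

/-- the signs -/
def sg (R : Type*) [CommRing R] (i₀ : ι) (τ : Equiv.Perm ι) (i : ι) : R :=
  if i = i₀ then ((Equiv.Perm.sign τ : ℤ) : R) else 1

/-- a signed permutation matrix of determinant one -/
def pz (R : Type*) [CommRing R] (i₀ : ι) (τ : Equiv.Perm ι) : Matrix.SpecialLinearGroup ι R :=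
  ⟨Matrix.diagonal (sg R i₀ τ) * τ.permMatrix R, by
    have h : (((Equiv.Perm.sign τ : ℤˣ) : ℤ) : R) * (((Equiv.Perm.sign τ : ℤˣ) : ℤ) : R) = 1 := by
      rw [← Int.cast_mul, ← Units.val_mul, Int.units_mul_self, Units.val_one, Int.cast_one]
    rw [Matrix.det_mul, Matrix.det_diagonal, Matrix.det_permutation]
    have e : ∏ i, sg R i₀ τ i = ((Equiv.Perm.sign τ : ℤ) : R) := by
      unfold sg
      rw [Finset.prod_ite_eq' Finset.univ i₀ (fun _ => ((Equiv.Perm.sign τ : ℤ) : R)),
        if_pos (Finset.mem_univ _)]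
    rw [e]
    exact h⟩

theorem pz_smul (i₀ : ι) (τ : Equiv.Perm ι) (x : ι → R) (i : ι) :
    (pz R i₀ τ • x) i = sg R i₀ τ i * x (τ i) := by
  have e : (pz R i₀ τ • x) = (Matrix.diagonal (sg R i₀ τ) * τ.permMatrix R) *ᵥ x := rfl
  rw [e, ← Matrix.mulVec_mulVec, Matrix.mulVec_diagonal, Matrix.permMatrix_mulVec]
  rfl

theorem pz_map {S : Type*} [CommRing S] (φ : R →+* S) (i₀ : ι) (τ : Equiv.Perm ι) :
    Matrix.SpecialLinearGroup.map φ (pz R i₀ τ) = pz S i₀ τ := by
  apply Subtype.ext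
  change (Matrix.diagonal (sg R i₀ τ) * τ.permMatrix R).map φ =
    Matrix.diagonal (sg S i₀ τ) * τ.permMatrix S
  rw [Matrix.map_mul, Matrix.diagonal_map (map_zero φ)]
  congr 1
  · congr 1
    funext i
    unfold sg
    change φ (if i = i₀ then ((Equiv.Perm.sign τ : ℤ) : R) else 1) = _
    split_ifs
    · rw [map_intCast]
    · rw [map_one]
  · ext i j
    simp [Equiv.Perm.permMatrix, PEquiv.toMatrix_apply, apply_ite φ]

theorem exists_perm {d : ℕ} {I J : Fin d → ι} (hI : Function.Injective I)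
    (hJ : Function.Injective J) : ∃ τ : Equiv.Perm ι, ∀ a, τ (I a) = J a := by
  classical
  let e : {x // x ∈ range I} ≃ {x // x ∈ range J} :=
    (Equiv.ofInjective I hI).symm.trans (Equiv.ofInjective J hJ)
  refine ⟨e.extendSubtype, fun a => ?_⟩
  rw [Equiv.extendSubtype_apply_of_mem e (I a) ⟨a, rfl⟩]
  change ((Equiv.ofInjective J hJ) ((Equiv.ofInjective I hI).symm ⟨I a, _⟩) : ι) = J a
  rw [Equiv.ofInjective_symm_apply]
  rfl

end perm

section data

variable {l : Type*} [NontriviallyNormedField l] {ι : Type*} [Fintype ι] [DecidableEq ι] {d : ℕ}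

/-- a signed permutation moves the largest minor to the position `I` -/
theorem exists_pz {I : Fin d → ι} (hI : Function.Injective I) (i₀ : ι) (x : Gr l ι d) :
    ∃ τ : Equiv.Perm ι, BU I (pz l i₀ τ • x) = 1 := by
  obtain ⟨v, rfl⟩ := sp_surj x
  haveI : Nonempty (Fin d → ι) := ⟨I⟩
  obtain ⟨J, hJ⟩ := Finite.exists_max fun J : Fin d → ι => ‖mn J v.1‖
  have hJ0 : mn J v.1 ≠ 0 := by
    obtain ⟨K, hK⟩ := exists_mn v.2
    intro h
    have := hJ K
    rw [h, norm_zero] at this
    exact hK (norm_le_zero_iff.1 this)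
  have hJi : Function.Injective J := by
    by_contra h
    exact hJ0 (mn_of_not_inj h _)
  obtain ⟨τ, hτ⟩ := exists_perm hI hJi
  refine ⟨τ, ?_⟩
  rw [← sp_smF, BU_sp]
  have hs : ∀ i, ‖sg l i₀ τ i‖ = 1 := by
    intro i
    unfold sg
    split_ifs
    · rcases Int.units_eq_one_or (Equiv.Perm.sign τ) with h | h
      · rw [h]; simp
      · rw [h]; simp
    · exact norm_one
  -- the minors
  have hm : ∀ K : Fin d → ι, ‖mn K (smF (pz l i₀ τ) v).1‖ = ‖mn (fun a => τ (K a)) v.1‖ := by
    intro K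
    have h1 : mn K (smF (pz l i₀ τ) v).1 =
        (∏ a, sg l i₀ τ (K a)) * mn K (fun b i => v.1 b (τ i)) :=
      mn_diag (sg l i₀ τ) K (fun b i => v.1 b (τ i)) _ fun b i => pz_smul i₀ τ (v.1 b) i
    rw [h1, norm_mul, norm_prod, Finset.prod_congr rfl fun a _ => hs (K a), Finset.prod_const_one,
      one_mul]
    rfl
  refine bu_one hI (P_ne _) fun K _ => ?_
  rw [hm, hm]
  have e : (fun a => τ (I a)) = J := funext hτ
  rw [e]
  exact hJ _

end data

section data2

variable {k : Type*} [NontriviallyNormedField k] {ι : Type*} [Fintype ι] [DecidableEq ι] {d : ℕ}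

/-- the bump (proof of `H100.Gr.exists_data`, with the parameters given) -/
theorem data_of (hd : 0 < d) (hdn : d < Fintype.card ι) {c s : k} (hc0 : 0 < ‖c‖)
    (hc1 : ‖c‖ < 1 / 2) (hsne : s ≠ 0) (hs1 : ‖s‖ < ‖c‖ / 4) {I : Fin d → ι}
    (hI : Function.Injective I) :
    ∃ q p : ι, ∀ x : Gr k ι d, BU I (dg hI hsne • x) + BU I ((dg hI hsne * tv q p (-c)) • x) ≤ BU I x := by
  classical
  have hs0 : 0 < ‖s‖ := norm_pos_iff.2 hsne
  have hs_le : ‖s‖ ≤ 1 := by linarith
  obtain ⟨q, hq⟩ : ∃ q, q ∉ range I := by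
    by_contra hcon
    push Not at hcon
    have h1 : Function.Surjective I := fun x => hcon x
    have h2 := Fintype.card_le_of_surjective I h1
    rw [Fintype.card_fin] at h2
    omega
  let a₀ : Fin d := ⟨0, hd⟩
  let p : ι := I a₀
  have hqp : q ≠ p := fun h => hq ⟨a₀, h.symm⟩
  let a : Matrix.SpecialLinearGroup ι k := dg hI hsne
  let u : Matrix.SpecialLinearGroup ι k := tv q p (-c)
  have ha : ∀ (v : Fr k ι d) b i, (smF a v).1 b i = tI I s i * v.1 b i := fun v b i =>
    dg_smul hI hsne (v.1 b) i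
  have hu : ∀ (v : Fr k ι d) b i, (smF u v).1 b i =
      if i = q then v.1 b q + (-c) * v.1 b p else v.1 b i := fun v b i =>
    tv_smul hqp (-c) (v.1 b) i
  -- the minor with `p` replaced by `q`
  let J₀ : Fin d → ι := Function.update I a₀ q
  have hJ₀q : J₀ a₀ = q := Function.update_self _ _ _
  have hJ₀i : Function.Injective J₀ := by
    intro x y hxy
    by_cases hx : x = a₀
    · by_cases hy : y = a₀
      · rw [hx, hy]
      · exfalso
        rw [hx, hJ₀q] at hxy
        have : J₀ y = I y := Function.update_of_ne hy _ _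
        rw [this] at hxy
        exact hq ⟨y, hxy.symm⟩
    · by_cases hy : y = a₀
      · exfalso
        rw [hy, hJ₀q] at hxy
        have : J₀ x = I x := Function.update_of_ne hx _ _
        rw [this] at hxy
        exact hq ⟨x, hxy⟩
      · have e1 : J₀ x = I x := Function.update_of_ne hx _ _
        have e2 : J₀ y = I y := Function.update_of_ne hy _ _
        rw [e1, e2] at hxy
        exact hI hxy
  have hJ₀r : range J₀ ≠ range I := fun h => hq (by rw [← h]; exact ⟨a₀, hJ₀q⟩)
  have hup : Function.update J₀ a₀ p = I := by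
    rw [Function.update_idem]
    exact Function.update_eq_self a₀ I
  have hIq : ∀ x, I x ≠ q := fun x hx => hq ⟨x, hx⟩
  -- the case of `a`
  have hA : ∀ v : Fr k ι d, bu I (smF a v).1 ≠ 0 →
      (∀ J : Fin d → ι, range J ≠ range I → ‖mn J v.1‖ < ‖c‖ / 2 * ‖mn I v.1‖) ∧
        mn I v.1 ≠ 0 := fun v h => key hI hd hdn hsne hs_le hc0 hs1.le (ha v) h
  -- the case of `a u`
  have hB : ∀ v : Fr k ι d, bu I (smF a (smF u v)).1 ≠ 0 →
      ‖c‖ / 2 * ‖mn I v.1‖ < ‖mn J₀ v.1‖ ∧
        ∀ J : Fin d → ι, range J ≠ range I → ‖mn J v.1‖ ≤ ‖mn I v.1‖ := by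
    intro v h
    obtain ⟨h1, h2⟩ := hA _ h
    have e1 : mn I (smF u v).1 = mn I v.1 := mn_tv_of_notMem hIq (hu v)
    have hpos : 0 < ‖mn I v.1‖ := by
      rw [← e1]
      exact norm_pos_iff.2 h2
    have e2 : mn J₀ (smF u v).1 = mn J₀ v.1 + (-c) * mn I v.1 := by
      rw [mn_tv hJ₀i hJ₀q (hu v), hup]
    constructor
    · have h3 := h1 J₀ hJ₀r
      rw [e1, e2] at h3
      have h4 : ‖c * mn I v.1‖ ≤ ‖mn J₀ v.1 + (-c) * mn I v.1‖ + ‖mn J₀ v.1‖ := by
        calc ‖c * mn I v.1‖ = ‖mn J₀ v.1 - (mn J₀ v.1 + (-c) * mn I v.1)‖ := by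
              congr 1
              ring
          _ ≤ ‖mn J₀ v.1‖ + ‖mn J₀ v.1 + (-c) * mn I v.1‖ := norm_sub_le _ _
          _ = _ := add_comm _ _
      rw [norm_mul] at h4
      linarith
    · intro J hJ
      by_cases hJi : Function.Injective J
      swap
      · rw [mn_of_not_inj hJi, norm_zero]
        exact norm_nonneg _
      -- minors of `w = u v`
      have hw : ∀ K : Fin d → ι, ‖mn K (smF u v).1‖ ≤ ‖mn I v.1‖ := by
        intro K
        by_cases hK : range K = range I
        · rw [norm_mn_perm hI hK, e1]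
        · have h5 := (h1 K hK).le
          rw [e1] at h5
          refine h5.trans ?_
          have : ‖c‖ / 2 ≤ 1 := by linarith
          calc ‖c‖ / 2 * ‖mn I v.1‖ ≤ 1 * ‖mn I v.1‖ := by gcongr
            _ = _ := one_mul _
      by_cases hJq : ∃ x, J x = q
      · obtain ⟨x, hx⟩ := hJq
        have e3 : mn J (smF u v).1 = mn J v.1 + (-c) * mn (Function.update J x p) v.1 :=
          mn_tv hJi hx (hu v)
        have e4 : mn (Function.update J x p) v.1 = mn (Function.update J x p) (smF u v).1 := by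
          refine (mn_tv_of_notMem (fun y hy => ?_) (hu v)).symm
          by_cases hyx : y = x
          · rw [hyx, Function.update_self] at hy
            exact hqp hy.symm
          · rw [Function.update_of_ne hyx] at hy
            exact hyx (hJi (hy.trans hx.symm))
        have e5 : mn J v.1 = mn J (smF u v).1 + c * mn (Function.update J x p) (smF u v).1 := by
          rw [e3, e4]
          ring
        have h6 := (h1 J hJ).le
        rw [e1] at h6
        calc ‖mn J v.1‖ ≤ ‖mn J (smF u v).1‖ + ‖c * mn (Function.update J x p) (smF u v).1‖ := by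
              rw [e5]
              exact norm_add_le _ _
          _ ≤ ‖c‖ / 2 * ‖mn I v.1‖ + ‖c‖ * ‖mn I v.1‖ := by
              rw [norm_mul]
              gcongr
              exact hw _
          _ = (3 / 2 * ‖c‖) * ‖mn I v.1‖ := by ring
          _ ≤ 1 * ‖mn I v.1‖ := by
              gcongr
              linarith
          _ = _ := one_mul _
      · push Not at hJq
        have e3 : mn J (smF u v).1 = mn J v.1 := mn_tv_of_notMem hJq (hu v)
        rw [← e3]
        exact hw J
  refine ⟨q, p, ?_⟩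
  · intro x
    obtain ⟨v, rfl⟩ := sp_surj x
    change BU I (a • H100.Gr.sp v) + BU I ((a * u) • H100.Gr.sp v) ≤ BU I (H100.Gr.sp v)
    rw [mul_smul, ← sp_smF, ← sp_smF, ← sp_smF, BU_sp, BU_sp, BU_sp]
    by_cases h1 : bu I (smF a v).1 = 0
    · rw [h1, zero_add]
      by_cases h2 : bu I (smF a (smF u v)).1 = 0
      · rw [h2]
        exact bu_nonneg _ _
      · obtain ⟨h3, h4⟩ := hB v h2
        rw [bu_one hI (P_ne v) h4]
        exact bu_le _ _
    · obtain ⟨h3, h4⟩ := hA v h1
      have h5 : bu I (smF a (smF u v)).1 = 0 := by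
        by_contra h2
        obtain ⟨h6, h7⟩ := hB v h2
        exact absurd (h3 J₀ hJ₀r) (not_lt.2 h6.le)
      rw [h5, add_zero, bu_one hI (P_ne v) fun J hJ => ?_]
      · exact bu_le _ _
      · refine (h3 J hJ).le.trans ?_
        calc ‖c‖ / 2 * ‖mn I v.1‖ ≤ 1 * ‖mn I v.1‖ := by
              gcongr
              linarith
          _ = _ := one_mul _

end data2

section map2

variable {k l : Type*} [NontriviallyNormedField k] [NontriviallyNormedField l] {ι : Type*}
  [Fintype ι] [DecidableEq ι] {d : ℕ}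

theorem dg_map (φ : k →+* l) {I : Fin d → ι} (hI : Function.Injective I) {s : k} (hs : s ≠ 0)
    (hs' : φ s ≠ 0) : Matrix.SpecialLinearGroup.map φ (dg hI hs) = dg hI hs' := by
  apply Subtype.ext
  change (Matrix.diagonal (tI I s)).map φ = Matrix.diagonal (tI I (φ s))
  rw [Matrix.diagonal_map (map_zero φ)]
  congr 1
  funext i
  change φ (tI I s i) = tI I (φ s) i
  unfold tI
  split_ifs
  · rw [map_pow]
  · rw [map_pow, map_inv₀]

theorem tv_map (φ : k →+* l) (i j : ι) (c : k) :
    Matrix.SpecialLinearGroup.map φ (tv i j c) = tv i j (φ c) := by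
  unfold tv
  split_ifs with h
  · apply Subtype.ext
    change (Matrix.transvection i j c).map φ = Matrix.transvection i j (φ c)
    rw [Matrix.transvection, Matrix.transvection, Matrix.map_add φ (map_add φ), Matrix.map_one φ
      (map_zero φ) (map_one φ), Matrix.map_single]
  · rw [map_one]

end map2

section nis

open Vale.Agent.P092.SN (CG)
open Vale.Agent.P092.RC (GG PG)
open Vale.Agent.P092.H35 (sp)
open Vale.Agent.P092.H514.NI (tr no_inv Covol toC)
open Vale.Agent.P092.H305.NP (sp_smul)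

variable {k l : Type} [NontriviallyNormedField k] [NontriviallyNormedField l] [ProperSpace l]
  {N : ℕ} {E : Type} [Group E] [TopologicalSpace E] [IsTopologicalGroup E]

/-- **No invariant state**, `Γ` acts on the subspaces of `l^n` through `θ : E →* PGL_n(l)`, whose
image contains the image of `SL_n(k)`. -/
theorem nis_e2 (φ : k →+* l) (hφ : ∀ ε > 0, ∃ c : k, 0 < ‖φ c‖ ∧ ‖φ c‖ < ε)
    (θ : E →* PG l (N + 1)) (hθ : Continuous θ)
    (hs : ∀ s : GG k N, ∃ e : E, θ e = sp l (N + 1) (Matrix.SpecialLinearGroup.map φ s))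
    (Γ : Subgroup E) (hΓ : Covol Γ)
    (q : Γ → GG l N) (hq : ∀ γ, sp l (N + 1) (q γ) = θ γ) {j : ℕ} (h1 : 1 ≤ j) (h2 : j ≤ N)
    (ψ : CG l N j →ₗ[ℂ] ℂ) (hpos : ∀ f, 0 ≤ (ψ (star f * f)).re) (hone : ψ 1 = 1)
    (hinv : ∀ γ, ∀ f f' : CG l N j, (∀ x, f' (q γ • x) = f x) → ψ f' = ψ f) : False := by
  classical
  obtain ⟨ν, hν0, hνf, hν⟩ := hΓ
  obtain ⟨c, hc0, hc1⟩ := hφ (1 / 2) (by norm_num)
  obtain ⟨s, hs0, hs1⟩ := hφ (‖φ c‖ / 4) (by linarith)
  have hsne' : φ s ≠ 0 := norm_pos_iff.1 hs0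
  have hsne : s ≠ 0 := fun h => hsne' (by rw [h, map_zero])
  -- the set of rows
  obtain ⟨I, hI⟩ : ∃ I : Fin j → Fin (N + 1), Function.Injective I :=
    ⟨Fin.castLE (by omega), Fin.castLE_injective _⟩
  obtain ⟨q₀, p₀, hab⟩ := data_of (k := l) (ι := Fin (N + 1)) (d := j) (by omega)
    (by rw [Fintype.card_fin]; omega) hc0 hc1 hsne' hs1 hI
  let F : C(Gr l (Fin (N + 1)) j, ℝ) := BU I
  have hF0 : ∀ x, 0 ≤ F x := fun x => by
    obtain ⟨v, rfl⟩ := sp_surj x
    change 0 ≤ BU I (H100.Gr.sp v)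
    rw [BU_sp]
    exact bu_nonneg _ _
  choose e he using hs
  let i₀ : Fin (N + 1) := 0
  have hact : ∀ (s : GG k N) (x : Gr l (Fin (N + 1)) j),
      θ (e s) • x = Matrix.SpecialLinearGroup.map φ s • x := fun s x => by
    rw [he, sp_smul]
  let ψ' : C(Gr l (Fin (N + 1)) j, ℝ) →ₗ[ℝ] ℝ :=
    { toFun := fun F => (ψ (toC F)).re
      map_add' := fun F G => by
        have : toC (F + G) = toC F + toC G := by ext x; simp [toC]
        rw [this, map_add, Complex.add_re]
      map_smul' := fun c F => by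
        have : toC (c • F) = (c : ℂ) • toC F := by ext x; simp [toC]
        rw [this, map_smul]
        simp }
  let T : Finset E := (Finset.univ : Finset (Equiv.Perm (Fin (N + 1)))).image
    fun τ => e (pz k i₀ τ)
  have hT1 : ∀ x, 1 ≤ ∑ g ∈ T, F (θ g • x) := by
    intro x
    obtain ⟨τ, hτ⟩ := exists_pz (l := l) hI i₀ x
    have h3 : F (θ (e (pz k i₀ τ)) • x) = 1 := by
      rw [hact, pz_map]
      exact hτ
    rw [← h3]
    exact Finset.single_le_sum (f := fun g' => F (θ g' • x)) (fun g' _ => hF0 _)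
      (Finset.mem_image_of_mem (fun τ => e (pz k i₀ τ)) (Finset.mem_univ τ))
  refine no_inv θ hθ Γ ν hν0 hνf hν F (fun x => hF0 x) (e (dg hI hsne))
    (e (dg hI hsne * tv q₀ p₀ (-c))) (fun x => ?_) T hT1 ψ' (fun G hG => ?_) ?_ fun γ hγ G => ?_
  · rw [hact, hact, map_mul, dg_map φ hI hsne hsne', tv_map, map_neg]
    exact hab x
  · let H : C(Gr l (Fin (N + 1)) j, ℝ) := ⟨fun x => Real.sqrt (G x), G.continuous.sqrt⟩
    have e1 : toC G = star (toC H) * toC H := by
      ext x
      simp only [toC, ContinuousMap.coe_mk, ContinuousMap.mul_apply, ContinuousMap.star_apply,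
        Complex.star_def, Complex.conj_ofReal, ← Complex.ofReal_mul, H]
      exact congrArg _ (Real.mul_self_sqrt (hG x)).symm
    change 0 ≤ (ψ (toC G)).re
    rw [e1]
    exact hpos _
  · have : toC (1 : C(Gr l (Fin (N + 1)) j, ℝ)) = 1 := by ext x; simp [toC]
    change (ψ (toC 1)).re = 1
    rw [this, hone, Complex.one_re]
  · change (ψ (toC (tr G (θ γ)))).re = (ψ (toC G)).re
    rw [hinv ⟨γ, hγ⟩ (toC (tr G (θ γ))) (toC G) fun x => ?_]
    change toC G (q ⟨γ, hγ⟩ • x) = toC (tr G (θ γ)) x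
    rw [← sp_smul, hq]
    rfl

end nis

end Vale.Agent.P092.H124.Pgl
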