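import Vale.Agent.P092.H124.PglB
import Vale.Agent.P092.H387.Pl2
import Vale.Agent.P092.SNP.Blocks
import Vale.Agent.P092.H789.Fr
import Vale.Agent.P092.H76.PurA

/-!
P092, TEAM N, two fields, row [SX-NIS] (helper124), file C: the source group `E = Π_j PGL_(N_j+1)(k_j)`,
its letters, and the coordinates `Γ → SL_(N_j+1)(l_j)` of a lattice `Γ` of `E`, `φ_j : k_j → l_j`
with `‖φ_j x‖ = ‖x‖ ^ s_j` and every `φ_j x` an `(N_j+1)`-st power.
-/

set_option linter.all false

open scoped LinearAlgebra.Projectivization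
open Matrix Filter Topology Set

namespace Vale.Agent.P092.H124.Pgl

open Vale.Agent.P092.RC (Moore GG PG YY ct)
open Vale.Agent.P092.SN (Prv Adm inc PH UD nm CG)
open Vale.Agent.P092.H933 (LocK)
open Vale.Agent.P092.H35 (sp mkP)
open Vale.Agent.P092.H644.PGr (tauG tauP tauP_cont tauP_can pair_gl)
open Vale.Agent.P092.H387.Ad (adm_pgl adm_pi ph_of_hom)
open Vale.Agent.P092.H514.NI (Covol)
open Vale.Agent.P092.SNP (AdmP ZP)
open Vale.Agent.P092.H76.Pur (NIS)

/-- the source group -/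
abbrev EG {J : Type} (k : J → Type) [∀ j, NontriviallyNormedField (k j)] (N : J → ℕ) : Type :=
  ∀ j, PG (k j) (N j + 1)

section let'

variable {J : Type} [DecidableEq J] (k : J → Type) [∀ j, NontriviallyNormedField (k j)]
  (N : J → ℕ)

/-- the factor `j` -/
noncomputable def iG (j : J) : GG (k j) (N j) →* EG k N :=
  (MonoidHom.mulSingle (fun j => PG (k j) (N j + 1)) j).comp (sp (k j) (N j + 1))

/-- the action on the points of the factor `j` -/
noncomputable def aG (j : J) : EG k N →* PG (k j) (N j + 1) :=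
  (MonoidHom.id (PG (k j) (N j + 1))).comp
    (Pi.evalMonoidHom (fun j => PG (k j) (N j + 1)) j)

/-- the action on the hyperplanes of the factor `j` -/
noncomputable def aG' (j : J) : EG k N →* PG (k j) (N j + 1) :=
  ((tauP (k j) (N j + 1)).comp (MonoidHom.id (PG (k j) (N j + 1)))).comp
    (Pi.evalMonoidHom (fun j => PG (k j) (N j + 1)) j)

variable {k N}

theorem aG_apply (j : J) (e : EG k N) : aG k N j e = e j := rfl

theorem aG'_apply (j : J) (e : EG k N) : aG' k N j e = tauP (k j) (N j + 1) (e j) := rfl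

theorem adm_G [∀ j, ProperSpace (k j)] (hk : ∀ j, LocK (k j)) (hN : ∀ j, 2 ≤ N j) (j : J) :
    Adm (iG k N j) (aG k N j) (aG' k N j) :=
  adm_pi (E := fun j => PG (k j) (N j + 1)) (fun _ => inferInstance) j (adm_pgl (hk j) (hN j))

theorem iG_apply_ne {i j : J} (h : i ≠ j) (g : GG (k i) (N i)) : iG k N i g j = 1 :=
  Pi.mulSingle_eq_of_ne (Ne.symm h) _

theorem iG_apply_same (j : J) (g : GG (k j) (N j)) : iG k N j g j = sp (k j) (N j + 1) g :=
  Pi.mulSingle_eq_same _ _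

theorem aG_same (j : J) (g : GG (k j) (N j)) : aG k N j (iG k N j g) = sp (k j) (N j + 1) g := by
  rw [aG_apply, iG_apply_same]

theorem aG'_same (j : J) (g : GG (k j) (N j)) :
    aG' k N j (iG k N j g) = tauP (k j) (N j + 1) (sp (k j) (N j + 1) g) := by
  rw [aG'_apply, iG_apply_same]

theorem aG_iG {i j : J} (h : i ≠ j) (g : GG (k i) (N i)) : aG k N j (iG k N i g) = 1 := by
  rw [aG_apply, iG_apply_ne h]

theorem aG'_iG {i j : J} (h : i ≠ j) (g : GG (k i) (N i)) : aG' k N j (iG k N i g) = 1 := by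
  rw [aG'_apply, iG_apply_ne h, map_one]

theorem admP_G [∀ j, ProperSpace (k j)] (hk : ∀ j, LocK (k j)) (hN : ∀ j, 2 ≤ N j) :
    AdmP (iG k N) (aG k N) (aG' k N) where
  adm := adm_G hk hN
  triv i j h g x := by rw [aG_iG h, one_smul]
  triv' i j h g x := by rw [aG'_iG h, one_smul]

end let'

section co

variable {J : Type} {k l : J → Type} [∀ j, NontriviallyNormedField (k j)]
  [∀ j, NontriviallyNormedField (l j)] {N : J → ℕ} (φ : ∀ j, k j →+* l j)
  (hr : ∀ j, ∀ x, ∃ y : l j, y ^ (N j + 1) = φ j x) (Γ : Subgroup (EG k N))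

/-- the coordinates of an element of `Γ` -/
noncomputable def cg (j : J) (γ : Γ) : GG (l j) (N j) := lf (φ j) (hr j) ((γ : EG k N) j)

theorem sp_cg (j : J) (γ : Γ) :
    sp (l j) (N j + 1) (cg φ hr Γ j γ) = pgm (φ j) (N j + 1) ((γ : EG k N) j) :=
  sp_lf (φ j) (hr j) _

theorem ph_cg (j : J) : PH (cg φ hr Γ j) :=
  ph_of_hom _ ((pgm (φ j) (N j + 1)).comp
    ((Pi.evalMonoidHom (fun j => PG (k j) (N j + 1)) j).comp Γ.subtype)) fun γ => sp_cg φ hr Γ j γ

/-- **The coordinates are jointly injective.** -/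
theorem inj_cg (γ : Γ) (h : ∀ j, sp (l j) (N j + 1) (cg φ hr Γ j γ) = 1) : γ = 1 := by
  apply Subtype.ext
  funext j
  have h1 := h j
  rw [sp_cg] at h1
  exact pgm_one h1

/-- **The coordinates are jointly proper.** -/
theorem fin_cg [∀ j, ProperSpace (k j)] {s : J → ℝ} (hs : ∀ j, 0 < s j)
    (hφ : ∀ j x, ‖φ j x‖ = ‖x‖ ^ s j) [DiscreteTopology Γ] (C : ℝ) :
    {γ : Γ | ∀ j, nm (cg φ hr Γ j γ) ≤ C}.Finite := by
  choose Q hQ h using fun j => exists_compact_lf (N := N j) (hr j) (hs j) (hφ j) C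
  have h1 : IsCompact (Set.univ.pi fun j => Q j) := isCompact_univ_pi hQ
  exact (H790.finite_inter Γ h1).subset fun γ hγ j _ => h j _ (hγ j)

theorem exists_small {k l : Type} [NontriviallyNormedField k] [NontriviallyNormedField l]
    {φ : k →+* l} {s : ℝ} (hs : 0 < s) (hφ : ∀ x, ‖φ x‖ = ‖x‖ ^ s) (ε : ℝ) (hε : 0 < ε) :
    ∃ c : k, 0 < ‖φ c‖ ∧ ‖φ c‖ < ε := by
  obtain ⟨c, hc0, hc1⟩ := NormedField.exists_norm_lt k (Real.rpow_pos_of_pos hε s⁻¹)
  refine ⟨c, ?_, ?_⟩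
  · rw [hφ]
    exact Real.rpow_pos_of_pos hc0 s
  · rw [hφ]
    calc ‖c‖ ^ s < (ε ^ s⁻¹) ^ s := Real.rpow_lt_rpow hc0.le hc1 hs
      _ = ε := by rw [← Real.rpow_mul hε.le, inv_mul_cancel₀ hs.ne', Real.rpow_one]

theorem phi_cont {k l : Type} [NontriviallyNormedField k] [NontriviallyNormedField l]
    {φ : k →+* l} {s : ℝ} (hs : 0 < s) (hφ : ∀ x, ‖φ x‖ = ‖x‖ ^ s) : Continuous φ := by
  refine continuous_of_continuousAt_zero φ ?_
  rw [ContinuousAt, map_zero, tendsto_zero_iff_norm_tendsto_zero]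
  have h : Tendsto (fun x : k => ‖x‖ ^ s) (𝓝 0) (𝓝 0) := by
    have h1 : Continuous fun x : k => ‖x‖ ^ s :=
      continuous_norm.rpow_const fun x => Or.inr hs.le
    have h2 := h1.tendsto 0
    rwa [norm_zero, Real.zero_rpow hs.ne'] at h2
  refine h.congr fun x => (hφ x).symm

/-- **No invariant states** for every coordinate. -/
theorem nis_cg [DecidableEq J] [∀ j, ProperSpace (l j)] {s : J → ℝ} (hs : ∀ j, 0 < s j)
    (hφ : ∀ j x, ‖φ j x‖ = ‖x‖ ^ s j) (hΓ : Covol Γ) (i : J) {j : ℕ}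
    (h1 : 1 ≤ j) (h2 : j ≤ N i) :
    NIS fun (γ : Γ) (x : H100.Gr.Gr (l i) (Fin (N i + 1)) j) => cg φ hr Γ i γ • x := by
  intro ψ hpos hone hinv
  refine nis_e2 (k := k i) (φ i) (fun ε hε => exists_small (hs i) (hφ i) ε hε)
    ((pgm (φ i) (N i + 1)).comp (aG k N i)) ?_ (fun g => ⟨iG k N i g, ?_⟩) Γ hΓ (cg φ hr Γ i)
    (fun γ => sp_cg φ hr Γ i γ) h1 h2 ψ hpos hone hinv
  · exact (pgm_cont (phi_cont (hs i) (hφ i))).comp (continuous_apply i)
  · rw [MonoidHom.comp_apply, aG_same, pgm_sp]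

theorem tau_sp {l : Type} [NontriviallyNormedField l] {N : ℕ} (g : GG l N) :
    tauP l (N + 1) (sp l (N + 1) g) = sp l (N + 1) (ct g) :=
  (tauP_can (g := g) (g' := ct g) rfl).symm

theorem ct_map {k l : Type} [NontriviallyNormedField k] [NontriviallyNormedField l] {N : ℕ}
    (φ : k →+* l) (g : GG k N) : ct (Matrix.SpecialLinearGroup.map φ (ct g)) =
      Matrix.SpecialLinearGroup.map φ g := by
  have h1 : (ct (ct g) : GG k N) = g := by
    apply Subtype.ext
    change (((ct g)⁻¹ : GG k N).1).transpose = g.1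
    rw [← map_inv]
    change ((((g⁻¹)⁻¹ : GG k N).1).transpose).transpose = g.1
    rw [inv_inv, Matrix.transpose_transpose]
  have h2 : ∀ x : GG k N, ct (Matrix.SpecialLinearGroup.map φ x) =
      Matrix.SpecialLinearGroup.map φ (ct x) := by
    intro x
    apply Subtype.ext
    change (((Matrix.SpecialLinearGroup.map φ x)⁻¹ : GG l N).1).transpose =
      (((x⁻¹ : GG k N).1).transpose).map φ
    rw [← map_inv]
    rfl
  rw [h2, h1]

/-- **No invariant states**, dual picture. -/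
theorem nis_cg' [DecidableEq J] [∀ j, ProperSpace (l j)] {s : J → ℝ} (hs : ∀ j, 0 < s j)
    (hφ : ∀ j x, ‖φ j x‖ = ‖x‖ ^ s j) (hΓ : Covol Γ) (i : J) {j : ℕ}
    (h1 : 1 ≤ j) (h2 : j ≤ N i) :
    NIS fun (γ : Γ) (x : H100.Gr.Gr (l i) (Fin (N i + 1)) j) => ct (cg φ hr Γ i γ) • x := by
  intro ψ hpos hone hinv
  refine nis_e2 (k := k i) (φ i) (fun ε hε => exists_small (hs i) (hφ i) ε hε)
    ((tauP (l i) (N i + 1)).comp ((pgm (φ i) (N i + 1)).comp (aG k N i))) ?_
    (fun g => ⟨iG k N i (ct g), ?_⟩) Γ hΓ (fun γ => ct (cg φ hr Γ i γ))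
    (fun γ => ?_) h1 h2 ψ hpos hone hinv
  · exact (tauP_cont (k := l i) (n := N i + 1)).comp
      ((pgm_cont (phi_cont (hs i) (hφ i))).comp (continuous_apply i))
  · rw [MonoidHom.comp_apply, MonoidHom.comp_apply, aG_same, pgm_sp, tau_sp, ct_map]
  · rw [← tau_sp, sp_cg]
    rfl

end co

end Vale.Agent.P092.H124.Pgl
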