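import Vale.Agent.P092.H124.PglC
import Vale.Agent.P092.H188.Root

/-!
P092, TEAM N, two fields, row [SX-NIS] (helper124), file D: for local fields `k j` there are local
fields `l j` such that every lattice `Γ` of `Π_j PGL_(N_j+1)(k_j)` has coordinates
`q j : Γ → SL_(N_j+1)(l_j)`, homomorphisms modulo scalars, jointly injective, jointly proper, without
invariant states on the Grassmannians.
-/

set_option linter.all false

open scoped LinearAlgebra.Projectivization
open Matrix Filter Topology Set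

namespace Vale.Agent.P092.H124.Pgl

open Vale.Agent.P092.RC (Moore GG PG YY ct)
open Vale.Agent.P092.SN (PH UD nm CG)
open Vale.Agent.P092.H933 (LocK)
open Vale.Agent.P092.H35 (sp mkP)
open Vale.Agent.P092.H514.NI (Covol)
open Vale.Agent.P092.H76.Pur (NIS)

/-- what the two-field engine needs of the coordinates of a lattice -/
structure Coord {J Γ : Type} [Group Γ] (l : J → Type) [∀ j, NontriviallyNormedField (l j)]
    [∀ j, ProperSpace (l j)] (N : J → ℕ) (q : ∀ j, Γ → GG (l j) (N j)) : Prop where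
  ph : ∀ j, PH (q j)
  inj : ∀ γ, (∀ j, sp (l j) (N j + 1) (q j γ) = 1) → γ = 1
  fin : ∀ C : ℝ, {γ : Γ | ∀ j, nm (q j γ) ≤ C}.Finite
  nis : ∀ i j, 1 ≤ j → j ≤ N i →
    NIS fun (γ : Γ) (x : H100.Gr.Gr (l i) (Fin (N i + 1)) j) => q i γ • x
  nis' : ∀ i j, 1 ≤ j → j ≤ N i →
    NIS fun (γ : Γ) (x : H100.Gr.Gr (l i) (Fin (N i + 1)) j) => ct (q i γ) • x

/-- **[SX-NIS]** -/
theorem exists_coord {J : Type} (k : J → Type) [∀ j, NontriviallyNormedField (k j)]
    [∀ j, ProperSpace (k j)] (N : J → ℕ) (hk : ∀ j, LocK (k j)) :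
    ∃ (l : J → Type) (_ : ∀ j, NontriviallyNormedField (l j)) (_ : ∀ j, ProperSpace (l j)),
      (∀ j, LocK (l j)) ∧ ∀ (Γ : Subgroup (∀ j, PG (k j) (N j + 1))) [DiscreteTopology Γ],
        Covol Γ → ∃ q : ∀ j, Γ → GG (l j) (N j), Coord l N q := by
  classical
  choose l i1 i2 hl φ hφ using fun j => H188.root_loc (hk j) (n := N j + 1) (Nat.succ_pos _)
  choose hs hr using hφ
  choose s hs0 hsn using hs
  refine ⟨l, i1, i2, hl, fun Γ _ hΓ => ⟨cg φ hr Γ, ?_⟩⟩
  exact
    { ph := ph_cg φ hr Γ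
      inj := inj_cg φ hr Γ
      fin := fin_cg φ hr Γ hs0 hsn
      nis := fun i j h1 h2 => nis_cg φ hr Γ hs0 hsn hΓ i h1 h2
      nis' := fun i j h1 h2 => nis_cg' φ hr Γ hs0 hsn hΓ i h1 h2 }

end Vale.Agent.P092.H124.Pgl
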