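import Mathlib

/-!
P092 (helper124): definitions and statements for block R1 of Theorem R (#2208).
-/

namespace Vale.Agent.P092.H124

open Matrix

/-- Real `n × n` matrices. -/
abbrev Mn (n : ℕ) : Type := Matrix (Fin n) (Fin n) ℝ

variable {n : ℕ}

/-- Square of the Hilbert-Schmidt norm. -/
def hsn (m : Mn n) : ℝ := ∑ i, ∑ j, m i j ^ 2

/-- `x` lists the eigenvalues of `A` in decreasing order (the values `x j`, `n ≤ j`, are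
irrelevant). -/
def Sorted (A : Mn n) (x : ℕ → ℝ) : Prop :=
  Antitone x ∧ (∀ j, 0 < x j) ∧ ∃ U : Mn n, Uᵀ * U = 1 ∧ U * Uᵀ = 1 ∧
    Uᵀ * A * U = diagonal fun i : Fin n => x i

open Classical in
/-- The eigenvalues of `A` in decreasing order. -/
noncomputable def ev (A : Mn n) : ℕ → ℝ :=
  if h : ∃ x, Sorted A x then h.choose else fun _ => 1

section
variable {Γ : Type*} [Group Γ] (φ : Γ →* SpecialLinearGroup (Fin n) ℝ)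

/-- The real matrix of `g`. -/
def MM (g : Γ) : Mn n := (φ g : Matrix (Fin n) (Fin n) ℝ)

/-- `B(g) = g gᵀ`. -/
def BB (g : Γ) : Mn n := MM φ g * (MM φ g)ᵀ

/-- `B(g)⁻¹`. -/
def BI (g : Γ) : Mn n := (MM φ g⁻¹)ᵀ * MM φ g⁻¹

/-- The eigenvalues of `g gᵀ`, in decreasing order: `x_0 ≥ ... ≥ x_{n-1} > 0`. -/
noncomputable def xx (g : Γ) (j : ℕ) : ℝ := ev (BB φ g) j

/-- `gap_j = log (x_j / x_{j+1})`, for `j + 1 < n`. -/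
noncomputable def gap (j : ℕ) (g : Γ) : ℝ := Real.log (xx φ g j / xx φ g (j + 1))

/-- The gaps in `θ` are `≥ D`, all the others are `≤ R`. -/
def Dom (θ : Finset ℕ) (D R : ℝ) (g : Γ) : Prop :=
  (∀ j ∈ θ, D ≤ gap φ j g) ∧ ∀ j, j ∉ θ → j + 1 < n → gap φ j g ≤ R

/-- `H_t(g) = ∑_{j ∈ θ ∪ {n-1}} e^{t_j} (κ + x_j B⁻¹)⁻¹`. -/
noncomputable def HH (θ : Finset ℕ) (κ : ℝ) (t : ℕ → ℝ) (g : Γ) : Mn n :=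
  ∑ j ∈ insert (n - 1) θ, Real.exp (t j) • (κ • (1 : Mn n) + xx φ g j • BI φ g)⁻¹

/-- `H°_t(g) = ∑_{j ∈ θ} e^{t_j} (1 + (x_j x_{j+1})^{1/2} B⁻¹)⁻¹ + e^{t_{n-1}}`. -/
noncomputable def HO (θ : Finset ℕ) (t : ℕ → ℝ) (g : Γ) : Mn n :=
  ∑ j ∈ θ, Real.exp (t j) • ((1 : Mn n) + Real.sqrt (xx φ g j * xx φ g (j + 1)) • BI φ g)⁻¹ +
    Real.exp (t (n - 1)) • (1 : Mn n)

/-- `tr (b⁻¹ H b⁻ᵀ)`. -/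
noncomputable def tb (H : Mn n) (b : Γ) : ℝ := trace (MM φ b⁻¹ * H * (MM φ b⁻¹)ᵀ)

/-- The gauge `f_t(g; b) = tr (b⁻¹ H_t(g) b⁻ᵀ)`. -/
noncomputable def ff (θ : Finset ℕ) (κ : ℝ) (t : ℕ → ℝ) (g b : Γ) : ℝ :=
  tb φ (HH φ θ κ t g) b

/-- The gauge `f°_t(g; b) = tr (b⁻¹ H°_t(g) b⁻ᵀ)`. -/
noncomputable def fo (θ : Finset ℕ) (t : ℕ → ℝ) (g b : Γ) : ℝ :=
  tb φ (HO φ θ t g) b

end

/-- The parameters `t_j`, `j ∈ J`, lie in `[-T, T]` and are separated: `t_i - t_j ≥ L` for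
`i < j`. -/
def Sep (J : Finset ℕ) (L T : ℝ) (t : ℕ → ℝ) : Prop :=
  (∀ i ∈ J, |t i| ≤ T) ∧ ∀ i ∈ J, ∀ j ∈ J, i < j → L ≤ t i - t j

/-! ### The blocks -/

/-- **[R1a]** sorted eigenvalues of `g gᵀ`: existence of the frame, quasi-invariance, finiteness. -/
def R1a.{u} : Prop := ∀ (n : ℕ) (Γ : Type u) [Group Γ] (φ : Γ →* SpecialLinearGroup (Fin n) ℝ),
  (∀ g, Sorted (BB φ g) (xx φ g)) ∧
  (∀ s g t : Γ, ∀ j, j < n → xx φ (s * g * t) j ≤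
    hsn (MM φ s) * hsn (MM φ t) * xx φ g j) ∧
  (∀ g, ∏ i : Fin n, xx φ g i = 1) ∧
  (∀ g, hsn (MM φ g) = ∑ i : Fin n, xx φ g i) ∧
  ((∀ R : ℝ, {g | hsn (MM φ g) ≤ R}.Finite) →
    ∀ R : ℝ, {g | ∀ j, j + 1 < n → gap φ j g ≤ R}.Finite)

/-- **[R1b]** LEFT: asymptotic left equivariance of `f`. -/
def R1b.{u} : Prop := ∀ (n : ℕ) (Γ : Type u) [Group Γ] (φ : Γ →* SpecialLinearGroup (Fin n) ℝ)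
  (θ : Finset ℕ), 0 < n → (∀ j ∈ θ, j + 1 < n) →
  ∀ s : Γ, ∃ C : ℝ, ∀ ρ R : ℝ, 0 < ρ → ∃ κ₀ : ℝ, 0 < κ₀ ∧ ∀ κ, 0 < κ → κ ≤ κ₀ →
    ∃ L : ℝ, ∀ T : ℝ, ∃ D : ℝ, ∀ g, Dom φ θ D R g → ∃ σ : ℕ → ℝ, (∀ j, |σ j| ≤ C) ∧
      ∀ t, Sep (insert (n - 1) θ) L T t → ∀ b,
        |ff φ θ κ (fun j => t j + σ j) (s * g) (s * b) - ff φ θ κ t g b| ≤ ρ * ff φ θ κ t g b

/-- **[R1c]** RIGHT: asymptotic right invariance of `f°` (only the gaps in `θ` matter). -/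
def R1cRight.{u} : Prop := ∀ (n : ℕ) (Γ : Type u) [Group Γ]
  (φ : Γ →* SpecialLinearGroup (Fin n) ℝ) (θ : Finset ℕ), 0 < n → (∀ j ∈ θ, j + 1 < n) →
  ∀ (u : Γ) (T η : ℝ), 0 < η → ∃ D : ℝ, ∀ g, (∀ j ∈ θ, D ≤ gap φ j g) →
    ∀ t : ℕ → ℝ, (∀ j ∈ insert (n - 1) θ, |t j| ≤ T) → ∀ b,
      |fo φ θ t (g * u) b - fo φ θ t g b| ≤ η * fo φ θ t g b

/-- **[R1c]** OVERLAP: `f` and `f°` are comparable, with a constant which depends only on `R`. -/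
def R1cOver.{u} : Prop := ∀ (n : ℕ) (Γ : Type u) [Group Γ]
  (φ : Γ →* SpecialLinearGroup (Fin n) ℝ) (θ : Finset ℕ), 0 < n → (∀ j ∈ θ, j + 1 < n) →
  ∀ R : ℝ, ∃ C : ℝ, 1 ≤ C ∧ ∀ κ : ℝ, 0 < κ → κ ≤ 1 → ∃ L : ℝ, ∀ T : ℝ, ∃ D : ℝ, ∀ g,
    Dom φ θ D R g → ∀ t, Sep (insert (n - 1) θ) L T t → ∀ b,
      ff φ θ κ t g b ≤ C * fo φ θ t g b ∧ fo φ θ t g b ≤ C * ff φ θ κ t g b

/-- **[R1c]** elementary bounds of the gauges by `w b = |b⁻¹|²`, and the Lipschitz property. -/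
def R1cBounds.{u} : Prop := ∀ (n : ℕ) (Γ : Type u) [Group Γ]
  (φ : Γ →* SpecialLinearGroup (Fin n) ℝ) (θ : Finset ℕ), 0 < n → (∀ j ∈ θ, j + 1 < n) →
  (∀ κ : ℝ, 0 < κ → κ ≤ 1 → ∀ (t : ℕ → ℝ) (g b : Γ),
    Real.exp (t (n - 1)) / 2 * hsn (MM φ b⁻¹) ≤ ff φ θ κ t g b ∧
    ff φ θ κ t g b ≤ (∑ j ∈ insert (n - 1) θ, Real.exp (t j)) / κ * hsn (MM φ b⁻¹)) ∧
  (∀ (t : ℕ → ℝ) (g b : Γ),
    Real.exp (t (n - 1)) / 2 * hsn (MM φ b⁻¹) ≤ fo φ θ t g b ∧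
    fo φ θ t g b ≤ (∑ j ∈ insert (n - 1) θ, Real.exp (t j)) * hsn (MM φ b⁻¹)) ∧
  (∀ κ : ℝ, 0 < κ → ∀ (t t' : ℕ → ℝ) (d : ℝ), (∀ j ∈ insert (n - 1) θ, |t' j - t j| ≤ d) →
    ∀ g b : Γ, ff φ θ κ t' g b ≤ Real.exp d * ff φ θ κ t g b) ∧
  (∀ (t t' : ℕ → ℝ) (d : ℝ), (∀ j ∈ insert (n - 1) θ, |t' j - t j| ≤ d) →
    ∀ g b : Γ, fo φ θ t' g b ≤ Real.exp d * fo φ θ t g b)

/-- **[R1e]** summability (packing argument): polynomial growth of `{g : |φ g| ≤ R}`. -/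
def R1e.{u} : Prop := ∀ (n : ℕ) (Γ : Type u) [Group Γ] (φ : Γ →* SpecialLinearGroup (Fin n) ℝ),
  0 < n → (∀ R : ℝ, {g | hsn (MM φ g) ≤ R}.Finite) →
  ∃ N : ℕ, 0 < N ∧ Summable fun b : Γ => ((hsn (MM φ b⁻¹)) ^ N)⁻¹

/-- **[R1]** the functions `F` and `H` of #2208. -/
def R1.{u} : Prop := ∀ (n : ℕ) (Γ : Type u) [Group Γ] [DecidableEq Γ]
  (φ : Γ →* SpecialLinearGroup (Fin n) ℝ), 0 < n → (∀ R : ℝ, {g | hsn (MM φ g) ≤ R}.Finite) →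
  ∀ θ : Finset ℕ, (∀ j ∈ θ, j + 1 < n) → ∀ R : ℝ, ∃ c : ℝ, 0 < c ∧
  ∀ (S : Finset Γ) (ε : ℝ), 0 < ε → ∀ R1 : ℝ,
    ∃ (B : Finset Γ) (F H : Γ → Γ → ℝ) (D : ℝ),
      (∀ b g, 0 ≤ F b g) ∧ (∀ b g, 0 ≤ H b g) ∧
      (∀ b ∉ B, ∀ g, F b g = 0) ∧ (∀ b ∉ B, ∀ g, H b g = 0) ∧
      (∀ g, ∑ b ∈ B, F b g ^ 2 ≤ 1) ∧ (∀ g, ∑ b ∈ B, H b g ^ 2 ≤ 1) ∧
      (∀ s ∈ S, ∀ g, Dom φ θ D R1 g →
        ∑ b ∈ B ∪ B.image (fun b => s⁻¹ * b), (F (s * b) (s * g) - F b g) ^ 2 ≤ ε) ∧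
      (∀ t : Γ, ∀ η : ℝ, 0 < η → ∃ D' : ℝ, ∀ g, (∀ j ∈ θ, D' ≤ gap φ j g) →
        ∀ b, |H b (g * t) - H b g| ≤ η) ∧
      (∀ g, Dom φ θ D R g → c ≤ ∑ b ∈ B, F b g * H b g)

end Vale.Agent.P092.H124
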