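import Vale.Agent.P092.H124.RankRow
import Vale.Agent.P092.H17.SpTop
import Vale.Agent.P092.H17.SpGaps

/-!
P092 (helper124), [R6]: discrete subgroups of products of classical groups satisfy `LinRank`.
-/

set_option linter.all false

open scoped InnerProductSpace
open Filter Topology

namespace Vale.Agent.P092.H124

open Matrix
open Vale.Agent.P092.H944 (hs gap sv la isSVD IsSVD)
open Vale.Agent.P092.H124.St

/-- Discrete subgroups of products. -/
theorem linRank_pi {s : ℕ} {G : Fin (s + 1) → Type} [∀ i, Group (G i)]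
    [∀ i, TopologicalSpace (G i)] [∀ i, IsTopologicalGroup (G i)] [∀ i, T2Space (G i)]
    {r : Fin (s + 1) → ℕ} (h : ∀ i, Factor (r i) (G i)) (Γ : Subgroup (∀ i, G i))
    (hd : DiscreteTopology Γ) : LinRank (∑ i, r i) Γ := by
  classical
  choose n m a cl hm hc sing hb comp using h
  choose C0 hC0 using hb
  refine ⟨s, n, fun i g => m i (g.1 i), fun i g => a i (g.1 i),
    fun i j => (cl i j).map fun x => finSigmaFinEquiv ⟨i, x⟩, fun i => ⟨fun g h => (hm i).mul _ _,
      fun g => (hm i).det _⟩, fun R => ?_, fun i g => sing i _, ?_, ?_⟩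
  · have hcl : IsClosed (Γ : Set (∀ i, G i)) := Subgroup.isClosed_of_discrete
    have hce : Topology.IsClosedEmbedding (fun g : Γ => (g : ∀ i, G i)) :=
      hcl.isClosedEmbedding_subtypeVal
    have hK : IsCompact (Set.univ.pi fun i => {g : G i | ∀ j l, |m i g j l| ≤ R}) :=
      isCompact_univ_pi fun i => hc i R
    have h4 := hce.isCompact_preimage hK
    refine (h4.finite_of_discrete).subset fun g hg => ?_
    intro i _
    exact hg i
  · refine ⟨∑ i, |C0 i|, fun i j g hj => ?_⟩
    have h1 : cl i j = none := by simpa using hj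
    refine (hC0 i j _ h1).trans ?_
    refine mul_le_mul_of_nonneg_right ?_ ((sing i _).pos _).le
    exact (le_abs_self _).trans (Finset.single_le_sum (f := fun i => |C0 i|)
      (fun _ _ => abs_nonneg _) (Finset.mem_univ i))
  · intro C
    choose C' hC' using fun i => comp i C
    refine ⟨∑ i, |C' i| + ∑ i, |C0 i|, ?_⟩
    intro i j i' j' g hcl hg
    have hle : ∀ x : Fin (s + 1), C' x ≤ ∑ i, |C' i| + ∑ i, |C0 i| := fun x =>
      ((le_abs_self _).trans (Finset.single_le_sum (f := fun i => |C' i|)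
        (fun _ _ => abs_nonneg _) (Finset.mem_univ x))).trans
        (le_add_of_nonneg_right (Finset.sum_nonneg fun _ _ => abs_nonneg _))
    have hle0 : ∀ x : Fin (s + 1), C0 x ≤ ∑ i, |C' i| + ∑ i, |C0 i| := fun x =>
      ((le_abs_self _).trans (Finset.single_le_sum (f := fun i => |C0 i|)
        (fun _ _ => abs_nonneg _) (Finset.mem_univ x))).trans
        (le_add_of_nonneg_left (Finset.sum_nonneg fun _ _ => abs_nonneg _))
    rcases hx : cl i' j' with _ | x
    · exact (hC0 i' j' _ hx).trans (mul_le_mul_of_nonneg_right (hle0 i') ((sing i' _).pos _).le)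
    · rcases hy : cl i j with _ | y
      · beta_reduce at hcl
        rw [hx, hy] at hcl
        simp at hcl
      · beta_reduce at hcl
        rw [hx, hy] at hcl
        simp only [Option.map_some, Option.some.injEq, EmbeddingLike.apply_eq_iff_eq] at hcl
        obtain ⟨rfl, h5⟩ := Sigma.mk.inj_iff.1 hcl
        have h6 : cl i j = cl i j' := by rw [hx, hy, eq_of_heq h5]
        exact (hC' i j j' _ h6 hg).trans (mul_le_mul_of_nonneg_right (hle i) ((sing i _).pos _).le)

theorem isSing_sv {n : ℕ} {g : Matrix (Fin n) (Fin n) ℝ} (hg : g.det ≠ 0) : IsSing g (sv g) :=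
  ⟨(isSVD hg).pos, (isSVD hg).anti, H944.kA g, H944.kB g, (isSVD hg).o1, (isSVD hg).o2,
    (isSVD hg).eq⟩

theorem isCompact_box {l : Type} [Fintype l] (R : ℝ) :
    IsCompact {A : Matrix l l ℝ | ∀ i j, |A i j| ≤ R} := by
  have : {A : Matrix l l ℝ | ∀ i j, |A i j| ≤ R} =
      Set.univ.pi fun _ : l => Set.univ.pi fun _ : l => Set.Icc (-R) R := by
    ext A
    exact ⟨fun h i _ j _ => abs_le.1 (h i j), fun h i j => abs_le.2 (h i trivial j trivial)⟩
  rw [this]
  exact isCompact_univ_pi fun _ => isCompact_univ_pi fun _ => isCompact_Icc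

/-- `SL_{n+1}(ℝ)` has rank `n`. -/
theorem factor_sl (n : ℕ) : Factor n (H655.SLR (n + 1)) := by
  have hdet : ∀ g : H655.SLR (n + 1), (g : Matrix (Fin (n + 1)) (Fin (n + 1)) ℝ).det ≠ 0 :=
    fun g => by rw [g.2]; norm_num
  refine ⟨n, fun g => g.1, fun g => sv g.1, some, ⟨fun g h => Or.inl rfl, fun g => by rw [g.2]; norm_num⟩,
    fun R => ?_, fun g => isSing_sv (hdet g), ⟨0, fun j g h => by simp at h⟩, fun C => ⟨C, ?_⟩⟩
  · exact Matrix.SpecialLinearGroup.isClosedEmbedding_val.isCompact_preimage (isCompact_box R)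
  · intro j j' g hj hg
    obtain rfl := Option.some.inj hj
    exact hg

/-- `Sp_{2n+2}(ℝ)` has rank `n + 1`. -/
theorem factor_sp (n : ℕ) : Factor (n + 1) (Matrix.symplecticGroup (Fin (n + 1)) ℝ) := by
  have hdet : ∀ g : Matrix.symplecticGroup (Fin (n + 1)) ℝ, (H17.spR g).det ≠ 0 :=
    fun g => by rw [H17.spR_det]; norm_num
  refine ⟨n + 1 + n, fun g => H17.spR g, fun g => sv (H17.spR g),
    fun j => some (H17.clSp (n + 1) j), ⟨fun g h => Or.inl ?_, fun g => ?_⟩,
    fun R => ?_, fun g => isSing_sv (hdet g), ⟨0, fun j g h => by simp at h⟩,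
    fun C => ⟨Real.exp (Real.log C), ?_⟩⟩
  · exact H17.re2_mul _ _
  · rw [H17.spR_det]; norm_num
  · have h1 : Topology.IsClosedEmbedding (fun g : Matrix.symplecticGroup (Fin (n + 1)) ℝ =>
        (g : Matrix (Fin (n + 1) ⊕ Fin (n + 1)) (Fin (n + 1) ⊕ Fin (n + 1)) ℝ)) :=
      (H17.spK_isClosed (n := n + 1) (k := ℝ)).isClosedEmbedding_subtypeVal
    have h2 := h1.isCompact_preimage (isCompact_box R)
    have h3 : {g : Matrix.symplecticGroup (Fin (n + 1)) ℝ | ∀ j l, |H17.spR g j l| ≤ R} =
        (fun g : Matrix.symplecticGroup (Fin (n + 1)) ℝ =>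
        (g : Matrix (Fin (n + 1) ⊕ Fin (n + 1)) (Fin (n + 1) ⊕ Fin (n + 1)) ℝ)) ⁻¹'
          {A | ∀ i j, |A i j| ≤ R} := by
      ext g
      constructor
      · intro h i j
        have := h (finSumFinEquiv i) (finSumFinEquiv j)
        simpa [H17.spR, H17.re2] using this
      · intro h i j
        exact h _ _
    have h4 : IsCompact {g : Matrix.symplecticGroup (Fin (n + 1)) ℝ | ∀ j l, |H17.spR g j l| ≤ R} := by
      rw [h3]
      exact h2
    exact h4
  · intro j j' g hj hg
    have h1 : gap (j : ℕ) (H17.spR g) = gap (j' : ℕ) (H17.spR g) :=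
      H17.gap_eq_of_cl (hdet g) (H17.spR_form g) (Option.some.inj hj)
    have h2 := gap_le_iff (hdet g) (isSing_sv (hdet g)) j hg
    rw [h1] at h2
    have h3 := le_of_gap (hdet g) (isSing_sv (hdet g)) j' h2
    rwa [mul_div_cancel_left₀ _ (two_ne_zero' ℝ)] at h3

end Vale.Agent.P092.H124
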