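import Vale.Agent.P092.H124.RankClass
import Vale.Agent.P092.H19.ShB
import Vale.Agent.P092.H377.Com
import Vale.Agent.P092.H200.NCor

/-!
P092 (helper124), [R6]: the final statement of the rank theorem for arbitrary `Λ`.
-/

set_option linter.all false

namespace Vale.Agent.P092.H124

open Matrix
open Vale.Agent.P092.H160 Vale.Agent.P092.H553 Vale.Agent.P092.H200 Vale.Agent.P092.H432
open Vale.Agent.P092.H377 Vale.Agent.P092.H655 Vale.Agent.P092.H103.St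
open Vale.Agent.P092.H124.St

theorem multi_iff (r : ℕ) (Λ : Type) [Group Λ] : CommNA r Λ ↔ Multi r Λ := Iff.rfl

section

variable {r : ℕ} {Γ₀ Γ Λ : Type} [Group Γ₀] [Group Γ] [Group Λ]

theorem no_arep (hΓ : LinRank r Γ₀) (i : Γ₀ →* Γ) (hi : Function.Injective i)
    (hfi : i.range.FiniteIndex) (hΛ : CommNA r Λ)
    (ι : Type) [Fintype ι] (t : ℝ) (R : Λ → (Ell2 (Γ × ι) →L[ℂ] Ell2 (Γ × ι))) : ¬ ARep t R := by
  intro hR
  obtain ⟨κ, _, t₁, R₁, h2⟩ := arep_finiteIndex i hR hi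
  exact not_arep hΓ ((multi_iff r Λ).1 hΛ) h2

theorem no_emb (hΓ : LinRank r Γ₀) (i : Γ₀ →* Γ) (hi : Function.Injective i)
    (hfi : i.range.FiniteIndex) (hΛ : CommNA r Λ) (k : ℕ)
    (U : Λ → MOp k Γ) : ¬ TraceRep Λ Γ k U := by
  intro e
  obtain ⟨t, R, hR⟩ := H19.arep_of_traceRep e
  exact no_arep hΓ i hi hfi hΛ _ _ _ hR

theorem no_iso (hΓ : LinRank r Γ₀) (i : Γ₀ →* Γ) (hi : Function.Injective i)
    (hfi : i.range.FiniteIndex) (hΛ : CommNA r Λ)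
    (hI : (∀ g : Γ, g ≠ 1 → Set.Infinite {y : Γ | ∃ h, y = h * g * h⁻¹}) ∨
      (∀ g : Λ, g ≠ 1 → Set.Infinite {y : Λ | ∃ h, y = h * g * h⁻¹}))
    (k : ℕ) (p : MOp k Γ) (hp : IsProj p) : IsEmpty (CornerIso Λ Γ k p) := by
  refine ⟨fun c => ?_⟩
  obtain ⟨t, R, hR⟩ := H19.aframe_of_iso hp c hI
  exact no_arep hΓ i hi hfi hΛ _ _ _ hR.toARep

end

/-- The final statement. -/
def Final : Prop :=
  (∀ (r : ℕ) (Γ₀ Γ Λ : Type) [Group Γ₀] [Group Γ] [Group Λ], LinRank r Γ₀ →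
    ∀ i : Γ₀ →* Γ, Function.Injective i → i.range.FiniteIndex → CommNA r Λ → ∀ k : ℕ,
      (∀ U : Λ → MOp k Γ, ¬ TraceRep Λ Γ k U) ∧
      ((∀ g : Γ, g ≠ 1 → Set.Infinite {y : Γ | ∃ h, y = h * g * h⁻¹}) →
        ∀ p : MOp k Γ, IsProj p → IsEmpty (CornerIso Λ Γ k p))) ∧
  (∀ (s : ℕ) (G : Fin (s + 1) → Type) [∀ i, Group (G i)] [∀ i, TopologicalSpace (G i)]
    [∀ i, IsTopologicalGroup (G i)] [∀ i, T2Space (G i)] (r : Fin (s + 1) → ℕ),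
    (∀ i, Factor (r i) (G i)) → ∀ Γ₀ : Subgroup (∀ i, G i), DiscreteTopology Γ₀ →
      LinRank (∑ i, r i) Γ₀) ∧
  (∀ n : ℕ, Factor n (SLR (n + 1)) ∧
    Factor (n + 1) (Matrix.symplecticGroup (Fin (n + 1)) ℝ)) ∧
  (∀ r : ℕ,
    (∀ m : ℕ, 2 * r + 2 ≤ m → ∀ Λ : Subgroup (SpecialLinearGroup (Fin m) ℤ),
      Λ.FiniteIndex → CommNA r Λ) ∧
    (∀ m : ℕ, 2 * r + 2 ≤ m → ∀ Λ : Subgroup (ProjectiveSpecialLinearGroup (Fin m) ℤ),
      Λ.FiniteIndex → CommNA r Λ) ∧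
    (∀ m : ℕ, r + 1 ≤ m → ∀ Λ : Subgroup (Matrix.symplecticGroup (Fin m) ℤ),
      Λ.FiniteIndex → CommNA r Λ) ∧
    (∀ (Λ : Type) [Group Λ] (φ : (Fin (r + 1) → FreeGroup (Fin 2)) →* Λ),
      Function.Injective φ → CommNA r Λ))

theorem final : Final := by
  refine ⟨?_, ?_, ?_, ?_⟩
  · intro r Γ₀ Γ Λ _ _ _ hΓ i hi hfi hΛ k
    exact ⟨fun U => no_emb hΓ i hi hfi hΛ k U,
      fun hI p hp => no_iso hΓ i hi hfi hΛ (Or.inl hI) k p hp⟩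
  · intro s G _ _ _ _ r h Γ₀ hd
    exact linRank_pi h Γ₀ hd
  · exact fun n => ⟨factor_sl n, factor_sp n⟩
  · intro r
    obtain ⟨h1, h2, h3, -, h5⟩ := multi_families r (fun Λ _ => CommNA r Λ) (fun Λ _ h => h)
    exact ⟨h1, h2, h3, h5⟩

end Vale.Agent.P092.H124
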