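import Vale.Agent.P092.H124.RankSt
import Vale.Agent.P092.H242.Rank
import Vale.Agent.P092.H515.ProdGeo
import Vale.Agent.P092.H17.SpGeo

/-!
P092 (helper124), [R6]: the rank theorem for arbitrary `Λ` in the row model, for groups of linear
rank at most `r`.
-/

set_option linter.all false

open scoped InnerProductSpace
open Filter Topology ContinuousLinearMap

namespace Vale.Agent.P092.H124

open Matrix
open Vale.Agent.P092.H160 Vale.Agent.P092.H553 Vale.Agent.P092.H200 Vale.Agent.P092.H432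
open Vale.Agent.P092.H538 Vale.Agent.P092.H761 Vale.Agent.P092.H515
open Vale.Agent.P092.H944 (hs gap sv la isSVD IsSVD)
open Vale.Agent.P092.H124.St

/-- The singular values are unique. -/
theorem sv_eq {n : ℕ} {g : Matrix (Fin n) (Fin n) ℝ} (hg : g.det ≠ 0) {a : Fin n → ℝ}
    (h : IsSing g a) : sv g = a := by
  obtain ⟨k, l, hk, hl, e⟩ := h.dec
  have hk' : k * kᵀ = 1 := mul_eq_one_comm.1 hk
  have hl' : l * lᵀ = 1 := mul_eq_one_comm.1 hl
  have S := isSVD hg
  have h1 : g * gᵀ = k * diagonal (fun i => a i ^ 2) * kᵀ := by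
    rw [e, transpose_mul, transpose_mul, diagonal_transpose]
    calc k * diagonal a * l * (lᵀ * (diagonal a * kᵀ))
        = k * diagonal a * (l * lᵀ) * (diagonal a * kᵀ) := by simp only [Matrix.mul_assoc]
      _ = k * (diagonal a * diagonal a) * kᵀ := by
          rw [hl', Matrix.mul_one]; simp only [Matrix.mul_assoc]
      _ = _ := by rw [diagonal_mul_diagonal]; simp only [pow_two]
  have h2 : g * gᵀ = H944.kA g * diagonal (fun i => sv g i ^ 2) * (H944.kA g)ᵀ := by
    conv_lhs => rw [S.eq, transpose_mul, transpose_mul, diagonal_transpose]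
    calc H944.kA g * diagonal (sv g) * H944.kB g * ((H944.kB g)ᵀ * (diagonal (sv g) * (H944.kA g)ᵀ))
        = H944.kA g * diagonal (sv g) * (H944.kB g * (H944.kB g)ᵀ) * (diagonal (sv g) * (H944.kA g)ᵀ) := by
          simp only [Matrix.mul_assoc]
      _ = H944.kA g * (diagonal (sv g) * diagonal (sv g)) * (H944.kA g)ᵀ := by
          rw [S.o2', Matrix.mul_one]; simp only [Matrix.mul_assoc]
      _ = _ := by rw [diagonal_mul_diagonal]; simp only [pow_two]
  have h3 : diagonal (fun i => sv g i ^ 2) =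
      ((H944.kA g)ᵀ * k) * diagonal (fun i => a i ^ 2) * ((H944.kA g)ᵀ * k)ᵀ := by
    have h4 : (H944.kA g)ᵀ * (g * gᵀ) * H944.kA g = diagonal (fun i => sv g i ^ 2) := by
      rw [h2]
      calc (H944.kA g)ᵀ * (H944.kA g * diagonal (fun i => sv g i ^ 2) * (H944.kA g)ᵀ) * H944.kA g
          = ((H944.kA g)ᵀ * H944.kA g) * diagonal (fun i => sv g i ^ 2) *
              ((H944.kA g)ᵀ * H944.kA g) := by simp only [Matrix.mul_assoc]
        _ = _ := by rw [S.o1, Matrix.one_mul, Matrix.mul_one]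
    rw [← h4, h1, transpose_mul, transpose_transpose]
    simp only [Matrix.mul_assoc]
  have h5 : ((H944.kA g)ᵀ * k)ᵀ * ((H944.kA g)ᵀ * k) = 1 := by
    rw [transpose_mul, transpose_transpose]
    calc kᵀ * H944.kA g * ((H944.kA g)ᵀ * k) = kᵀ * (H944.kA g * (H944.kA g)ᵀ) * k := by
          simp only [Matrix.mul_assoc]
      _ = 1 := by rw [S.o1', Matrix.mul_one, hk]
  have ha2 : Antitone (fun i => a i ^ 2) := fun i j hij =>
    pow_le_pow_left₀ (h.pos j).le (h.anti hij) 2
  have hs2 : Antitone (fun i => sv g i ^ 2) := fun i j hij =>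
    pow_le_pow_left₀ (S.pos j).le (S.anti hij) 2
  have h6 := H17.diag_unique h5 ha2 hs2 h3
  ext i
  have h7 : a i ^ 2 = sv g i ^ 2 := congrFun h6 i
  nlinarith [S.pos i, h.pos i, sq_nonneg (sv g i - a i)]

/-- The gaps from the singular values. -/
theorem gap_eq {n : ℕ} {g : Matrix (Fin (n + 1)) (Fin (n + 1)) ℝ} (hg : g.det ≠ 0)
    {a : Fin (n + 1) → ℝ} (h : IsSing g a) (j : Fin n) :
    gap (j : ℕ) g = 2 * Real.log (a j.castSucc / a j.succ) := by
  have h1 : (j : ℕ) + 1 < n + 1 := by omega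
  rw [gap, if_pos h1, la, la, dif_pos (by omega), dif_pos h1, sv_eq hg h,
    Real.log_div (h.pos _).ne' (h.pos _).ne']
  rfl

theorem gap_le_iff {n : ℕ} {g : Matrix (Fin (n + 1)) (Fin (n + 1)) ℝ} (hg : g.det ≠ 0)
    {a : Fin (n + 1) → ℝ} (h : IsSing g a) (j : Fin n) {C : ℝ} :
    a j.castSucc ≤ C * a j.succ → gap (j : ℕ) g ≤ 2 * Real.log C := by
  intro h1
  have hC : 0 < C := by
    by_contra hC
    have h2 : C * a j.succ ≤ 0 := mul_nonpos_of_nonpos_of_nonneg (not_lt.1 hC) (h.pos _).le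
    exact absurd (h1.trans h2) (not_le.2 (h.pos _))
  rw [gap_eq hg h]
  have := Real.log_le_log (div_pos (h.pos _) (h.pos _)) ((div_le_iff₀ (h.pos j.succ)).2 h1)
  linarith

theorem le_of_gap {n : ℕ} {g : Matrix (Fin (n + 1)) (Fin (n + 1)) ℝ} (hg : g.det ≠ 0)
    {a : Fin (n + 1) → ℝ} (h : IsSing g a) (j : Fin n) {R : ℝ} (h1 : gap (j : ℕ) g ≤ R) :
    a j.castSucc ≤ Real.exp (R / 2) * a j.succ := by
  rw [gap_eq hg h] at h1
  rw [← div_le_iff₀ (h.pos _), ← Real.log_le_iff_le_exp (div_pos (h.pos _) (h.pos _))]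
  linarith

/-- **The rank theorem**, row model. -/
theorem not_arep {r : ℕ} {Γ Λ ι : Type} [Group Γ] [Group Λ] [Fintype ι] (h : LinRank r Γ)
    (hΛ : Multi r Λ) {t : ℝ} {R : Λ → (Ell2 (Γ × ι) →L[ℂ] Ell2 (Γ × ι))} (hR : ARep t R) :
    False := by
  classical
  obtain ⟨s, n, m, a, cl, hm, fin, sing, ⟨C0, hb⟩, comp⟩ := h
  have hdet : ∀ i g, (m i g).det ≠ 0 := fun i g h0 => by
    have := (hm i).det g
    rw [h0] at this
    norm_num at this
  -- the group is countable
  have hcount : Countable Γ := by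
    rw [← Set.countable_univ_iff]
    have : (Set.univ : Set Γ) ⊆ ⋃ k : ℕ, {g | ∀ i j l, |m i g j l| ≤ k} := by
      intro g _
      obtain ⟨k, hk⟩ := exists_nat_ge (∑ i, ∑ j, ∑ l, |m i g j l|)
      refine Set.mem_iUnion.2 ⟨k, fun i j l => le_trans ?_ hk⟩
      refine le_trans ?_ (Finset.single_le_sum (f := fun i => ∑ j, ∑ l, |m i g j l|)
        (fun _ _ => Finset.sum_nonneg fun _ _ => Finset.sum_nonneg fun _ _ => abs_nonneg _)
        (Finset.mem_univ i))
      refine le_trans ?_ (Finset.single_le_sum (f := fun j => ∑ l, |m i g j l|)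
        (fun _ _ => Finset.sum_nonneg fun _ _ => abs_nonneg _) (Finset.mem_univ j))
      exact Finset.single_le_sum (f := fun l => |m i g j l|) (fun _ _ => abs_nonneg _)
        (Finset.mem_univ l)
    exact (Set.countable_iUnion fun k : ℕ => (fin k).countable).mono this
  let J : Fin (s + 1) → Type := fun i => {j : Fin (n i) // cl i j ≠ none}
  let e : ∀ i, J i ↪ ℕ := fun i => ⟨fun j => (j.1 : ℕ), fun x y hxy =>
    Subtype.ext (Fin.ext hxy)⟩
  have h0 : ∀ i, ∀ l, l + 1 < n i + 1 → (∀ j, e i j ≠ l) → ∀ g,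
      gap l (m i g) ≤ 2 * Real.log C0 := by
    intro i l hl hj g
    have hl' : l < n i := by omega
    have hcl : cl i ⟨l, hl'⟩ = none := by
      by_contra hne
      exact hj ⟨⟨l, hl'⟩, hne⟩ rfl
    exact gap_le_iff (hdet i g) (sing i g) ⟨l, hl'⟩ (hb i ⟨l, hl'⟩ g hcl)
  have hsys : ∀ i, GSys (fun (j : J i) g => gap (e i j) (m i g)) (fun b => hs (m i b)) :=
    fun i => EmbW.gsys (Nat.succ_pos _) ⟨(hm i).mul, (hm i).det⟩ (e i) (h0 i)
  have hfin : ∀ R : ℝ, {g | ∀ i, hs (m i g) ≤ R}.Finite := by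
    intro R
    refine (fin (Real.sqrt R)).subset fun g hg i j l => ?_
    exact (H944.abs_entry_le (m i g) j l).trans (Real.sqrt_le_sqrt (hg i))
  have hfs := fin_sum (fun i => (hsys i).pos) hfin
  have hsome : ∀ x : (Σ i, J i), (cl x.1 x.2.1).isSome := fun x =>
    Option.isSome_iff_ne_none.2 x.2.2
  let cl' : (Σ i, J i) → Fin r := fun x => (cl x.1 x.2.1).get (hsome x)
  have hG : Gaps (fun (j : Σ i, J i) g => gap (e j.1 j.2) (m j.1 g)) cl' := by
    refine (GSys.pi hsys).gaps hfs cl' fun R => ?_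
    obtain ⟨C', hC'⟩ := comp (Real.exp (R / 2))
    refine ⟨2 * Real.log C', fun x y hxy g hg => ?_⟩
    have hcl : cl x.1 x.2.1 = cl y.1 y.2.1 := by
      rw [← Option.some_get (hsome x), ← Option.some_get (hsome y)]
      exact congrArg some hxy
    exact gap_le_iff (hdet _ _) (sing _ _) _ (hC' _ _ _ _ g hcl (le_of_gap (hdet _ _) (sing _ _) _ hg))
  exact rankAbs Γ Λ (Σ i, J i) t (massR R) (H242.rowMass Γ Λ ι t R hR) r _ cl' hG
    (fun θ _ _ => (GSys.pi hsys).geo' hfs θ) hΛ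

end Vale.Agent.P092.H124
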