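import Vale.Agent.P092.H655.Stmt
import Vale.Agent.P092.H200.InvMean

/-!
P092 (helper124): definitions used in the final statement of the rank theorem for arbitrary groups
`Λ` with commuting nonamenable subgroups.
-/

namespace Vale.Agent.P092.H124.St

open Matrix
open Vale.Agent.P092.H200

/-- `a` is the list of the singular values of `g`, in decreasing order. -/
structure IsSing {n : ℕ} (g : Matrix (Fin n) (Fin n) ℝ) (a : Fin n → ℝ) : Prop where
  pos : ∀ i, 0 < a i
  anti : Antitone a
  dec : ∃ k l : Matrix (Fin n) (Fin n) ℝ, kᵀ * k = 1 ∧ lᵀ * l = 1 ∧ g = k * diagonal a * l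

/-- `m` is multiplicative up to the sign, with determinants `±1`. -/
structure IsLin {Γ : Type} [Group Γ] {n : ℕ} (m : Γ → Matrix (Fin n) (Fin n) ℝ) : Prop where
  mul : ∀ g h, m (g * h) = m g * m h ∨ m (g * h) = -(m g * m h)
  det : ∀ g, (m g).det ^ 2 = 1

/-- The group `Γ` is linear and discrete of real rank at most `r`: it acts through finitely many
maps `m_i` to real matrices, multiplicative up to the sign and with determinants `±1`, such that
only finitely many elements have all entries bounded by a given constant; the quotients of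
consecutive singular values of the matrices `m_i g` fall in `r` classes, those in the same class
being bounded in terms of each other, and quotients without class being bounded. -/
def LinRank (r : ℕ) (Γ : Type) [Group Γ] : Prop :=
  ∃ (s : ℕ) (n : Fin (s + 1) → ℕ) (m : ∀ i, Γ → Matrix (Fin (n i + 1)) (Fin (n i + 1)) ℝ)
    (a : ∀ i, Γ → Fin (n i + 1) → ℝ) (cl : ∀ i, Fin (n i) → Option (Fin r)),
    (∀ i, IsLin (m i)) ∧
    (∀ R : ℝ, {g | ∀ i j l, |m i g j l| ≤ R}.Finite) ∧
    (∀ i g, IsSing (m i g) (a i g)) ∧
    (∃ C : ℝ, ∀ i j g, cl i j = none → a i g j.castSucc ≤ C * a i g j.succ) ∧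
    (∀ C : ℝ, ∃ C' : ℝ, ∀ i j i' j' g, cl i j = cl i' j' →
      a i g j.castSucc ≤ C * a i g j.succ → a i' g j'.castSucc ≤ C' * a i' g j'.succ)

/-- The topological group `G` is a linear group of real rank at most `r` (in a representation in
which the quotients of consecutive singular values fall in `r` classes): there is a map `m` to real
matrices, multiplicative up to the sign and with determinants `±1`, the elements whose matrices
have entries bounded by a given constant form a compact set, and the quotients of consecutive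
singular values of the matrices `m g` fall in `r` classes as in `LinRank`. -/
def Factor (r : ℕ) (G : Type) [Group G] [TopologicalSpace G] : Prop :=
  ∃ (n : ℕ) (m : G → Matrix (Fin (n + 1)) (Fin (n + 1)) ℝ) (a : G → Fin (n + 1) → ℝ)
    (cl : Fin n → Option (Fin r)),
    IsLin m ∧
    (∀ R : ℝ, IsCompact {g | ∀ j l, |m g j l| ≤ R}) ∧
    (∀ g, IsSing (m g) (a g)) ∧
    (∃ C : ℝ, ∀ j g, cl j = none → a g j.castSucc ≤ C * a g j.succ) ∧
    (∀ C : ℝ, ∃ C' : ℝ, ∀ j j' g, cl j = cl j' →
      a g j.castSucc ≤ C * a g j.succ → a g j'.castSucc ≤ C' * a g j'.succ)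

/-- `Λ` contains `r` pairwise commuting nonamenable subgroups and an infinite subgroup which
commutes with all of them. -/
def CommNA (r : ℕ) (Λ : Type) [Group Λ] : Prop :=
  ∃ (K : Fin r → Subgroup Λ) (C : Subgroup Λ), (∀ i, ¬ ∃ m, IsInvMean (K i) m) ∧
    (∀ i j, i ≠ j → ∀ v ∈ K i, ∀ w ∈ K j, v * w = w * v) ∧ Infinite C ∧
    ∀ i, ∀ v ∈ K i, ∀ w ∈ C, v * w = w * v

end Vale.Agent.P092.H124.St
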