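import Vale.Agent.P092.H377.Summ
import Vale.Agent.P092.H944.SVD
import Vale.Agent.P092.H124.RDefs

/-!
P092 (helper124): for a homomorphism `φ : G → SL_n(ℝ)` with finite balls (a discrete subgroup,
or a finite extension of one), `∑_{b ∈ G} ‖φ b‖^{-2N} < ∞` for some `N` (block [R1e] = [G5]).
-/

namespace Vale.Agent.P092.H124

open Matrix
open Vale.Agent.P092.H944 (hs sq_entry_le)
open Vale.Agent.P092.H377 (summable_pi summable_h)

variable {n : ℕ}

lemma hs_nn (m : Mn n) : 0 ≤ hs m := H944.hs_nonneg m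

lemma hs_mul_le (M N : Mn n) : hs (M * N) ≤ hs M * hs N := by
  have h : ∀ i j, (∑ k, M i k * N k j) ^ 2 ≤ (∑ k, M i k ^ 2) * (∑ k, N k j ^ 2) :=
    fun i j => Finset.sum_mul_sq_le_sq_mul_sq _ _ _
  calc hs (M * N) = ∑ i, ∑ j, (∑ k, M i k * N k j) ^ 2 := by simp only [hs, Matrix.mul_apply]
    _ ≤ ∑ i, ∑ j, (∑ k, M i k ^ 2) * (∑ k, N k j ^ 2) :=
        Finset.sum_le_sum fun i _ => Finset.sum_le_sum fun j _ => h i j
    _ = hs M * hs N := by
        simp only [hs]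
        rw [Finset.sum_comm (f := fun i j => N i j ^ 2), Finset.sum_mul]
        exact Finset.sum_congr rfl fun i _ => (Finset.mul_sum _ _ _).symm

lemma hs_one : hs (1 : Mn n) = n := by
  simp [hs, Matrix.one_apply]

/-- Crude bound for determinants. -/
lemma abs_det_le (m : Mn n) {x : ℝ} (h : ∀ i j, |m i j| ≤ x) :
    |m.det| ≤ n.factorial * x ^ n := by
  have := Matrix.det_le (abv := AbsoluteValue.abs) (A := m) (x := x) h
  simpa [nsmul_eq_mul] using this

lemma hs_lower (m : Mn n) (hm : m.det = 1) : 1 ≤ (n.factorial : ℝ) ^ 2 * hs m ^ n := by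
  have h := abs_det_le m (H944.abs_entry_le m)
  rw [hm, abs_one] at h
  have h2 : (1 : ℝ) ^ 2 ≤ ((n.factorial : ℝ) * Real.sqrt (hs m) ^ n) ^ 2 :=
    pow_le_pow_left₀ zero_le_one h 2
  rw [one_pow, mul_pow, ← pow_mul, mul_comm n 2, pow_mul, Real.sq_sqrt (hs_nn m)] at h2
  exact h2

lemma hs_pow_le (m : Mn n) (k : ℕ) : hs (m ^ (k + 1)) ≤ hs m ^ (k + 1) := by
  induction k with
  | zero => simp
  | succ k ih =>
    rw [pow_succ m, pow_succ (hs m)]
    exact (hs_mul_le _ _).trans (mul_le_mul_of_nonneg_right ih (hs_nn m))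

lemma one_le_hs (hn : 0 < n) (m : Mn n) (hm : m.det = 1) : 1 ≤ hs m := by
  by_contra hlt
  push Not at hlt
  have h0 := hs_nn m
  have hf : (0 : ℝ) < (n.factorial : ℝ) ^ 2 := by positivity
  obtain ⟨k, hk⟩ := exists_pow_lt_of_lt_one (inv_pos.2 hf) hlt
  have h1 := hs_lower (m ^ (k + 1)) (by rw [det_pow, hm, one_pow])
  have h2 : hs (m ^ (k + 1)) ^ n ≤ hs m ^ k := by
    calc hs (m ^ (k + 1)) ^ n ≤ (hs m ^ (k + 1)) ^ n :=
          pow_le_pow_left₀ (hs_nn _) (hs_pow_le m k) n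
      _ = hs m ^ ((k + 1) * n) := by rw [← pow_mul]
      _ ≤ hs m ^ k := pow_le_pow_of_le_one h0 hlt.le (by nlinarith)
  have h3 : (n.factorial : ℝ) ^ 2 * hs (m ^ (k + 1)) ^ n < 1 := by
    calc _ ≤ (n.factorial : ℝ) ^ 2 * hs m ^ k := mul_le_mul_of_nonneg_left h2 hf.le
      _ < (n.factorial : ℝ) ^ 2 * ((n.factorial : ℝ) ^ 2)⁻¹ := mul_lt_mul_of_pos_left hk hf
      _ = 1 := mul_inv_cancel₀ hf.ne'
  linarith

/-- The inverse is polynomially bounded. -/
lemma hs_inv_le (hn : 0 < n) (g : SpecialLinearGroup (Fin n) ℝ) :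
    hs ((g⁻¹ : SpecialLinearGroup (Fin n) ℝ) : Mn n) ≤
      (n : ℝ) ^ 2 * (n.factorial : ℝ) ^ 2 * hs (g : Mn n) ^ (2 * n) := by
  have h1 : 1 ≤ hs (g : Mn n) := one_le_hs hn _ g.det_coe
  have hent : ∀ i j, |((g : Mn n).adjugate) i j| ≤ n.factorial * hs (g : Mn n) ^ n := by
    intro i j
    rw [adjugate_apply]
    refine abs_det_le _ fun k l => ?_
    rw [updateRow_apply]
    split_ifs with hk
    · rw [Pi.single_apply]
      split_ifs
      · rw [abs_one]; exact h1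
      · rw [abs_zero]; linarith
    · refine (H944.abs_entry_le _ k l).trans ?_
      rw [Real.sqrt_le_left (by linarith)]
      nlinarith
  have hinv : ((g⁻¹ : SpecialLinearGroup (Fin n) ℝ) : Mn n) = (g : Mn n).adjugate :=
    Matrix.SpecialLinearGroup.coe_inv g
  rw [hinv]
  have hsq : ∀ i j, ((g : Mn n).adjugate) i j ^ 2 ≤
      (n.factorial : ℝ) ^ 2 * hs (g : Mn n) ^ (2 * n) := by
    intro i j
    rw [← sq_abs]
    calc |((g : Mn n).adjugate) i j| ^ 2 ≤ (n.factorial * hs (g : Mn n) ^ n) ^ 2 :=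
          pow_le_pow_left₀ (abs_nonneg _) (hent i j) 2
      _ = _ := by rw [mul_pow, ← pow_mul, mul_comm n 2]
  calc hs ((g : Mn n).adjugate) = ∑ i, ∑ j, ((g : Mn n).adjugate) i j ^ 2 := rfl
    _ ≤ ∑ i : Fin n, ∑ j : Fin n, (n.factorial : ℝ) ^ 2 * hs (g : Mn n) ^ (2 * n) :=
        Finset.sum_le_sum fun i _ => Finset.sum_le_sum fun j _ => hsq i j
    _ = _ := by simp; ring

variable {G : Type*} [Group G]

/-- Discreteness at the identity. -/
lemma exists_gap (φ : G →* SpecialLinearGroup (Fin n) ℝ)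
    (fin : ∀ R : ℝ, {g : G | hs (φ g : Mn n) ≤ R}.Finite) :
    ∃ δ : ℝ, 0 < δ ∧ ∀ g, φ g ≠ 1 → δ ≤ hs ((φ g : Mn n) - 1) := by
  obtain ⟨δ, hδ, hmin⟩ : ∃ δ : ℝ, 0 < δ ∧ ∀ g ∈ {g : G | hs (φ g : Mn n) ≤ 2 + 2 * n ∧ φ g ≠ 1},
      δ ≤ hs ((φ g : Mn n) - 1) := by
    have hfin : {g : G | hs (φ g : Mn n) ≤ 2 + 2 * n ∧ φ g ≠ 1}.Finite :=
      (fin (2 + 2 * n)).subset fun g hg => hg.1
    have hpos : ∀ g ∈ {g : G | hs (φ g : Mn n) ≤ 2 + 2 * n ∧ φ g ≠ 1},
        0 < hs ((φ g : Mn n) - 1) := by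
      rintro g ⟨-, hg⟩
      rcases (hs_nn ((φ g : Mn n) - 1)).lt_or_eq with h | h
      · exact h
      · exfalso
        apply hg
        apply Subtype.ext
        ext i j
        have h0 : ((φ g : Mn n) - 1) i j ^ 2 ≤ 0 := (sq_entry_le _ i j).trans_eq h.symm
        have h1 : ((φ g : Mn n) - 1) i j = 0 :=
          pow_eq_zero_iff (two_ne_zero) |>.1 (le_antisymm h0 (sq_nonneg _))
        rw [Matrix.sub_apply, sub_eq_zero] at h1
        simpa using h1
    rcases Set.eq_empty_or_nonempty {g : G | hs (φ g : Mn n) ≤ 2 + 2 * n ∧ φ g ≠ 1} with h | h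
    · exact ⟨1, one_pos, fun g hg => by rw [h] at hg; exact absurd hg (Set.notMem_empty g)⟩
    · obtain ⟨i, hi, hmin⟩ := Set.exists_min_image _ (fun g => hs ((φ g : Mn n) - 1)) hfin h
      exact ⟨_, hpos i hi, hmin⟩
  refine ⟨min δ 1, lt_min hδ one_pos, fun g hg => ?_⟩
  by_cases h8 : hs (φ g : Mn n) ≤ 2 + 2 * n
  · exact (min_le_left _ _).trans (hmin g ⟨h8, hg⟩)
  · push Not at h8
    refine (min_le_right _ _).trans ?_
    have hle : hs (φ g : Mn n) ≤ 2 * hs ((φ g : Mn n) - 1) + 2 * hs (1 : Mn n) := by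
      have h : ∀ i j, ((φ g : Mn n) i j) ^ 2 ≤
          2 * ((φ g : Mn n) - 1) i j ^ 2 + 2 * ((1 : Mn n) i j) ^ 2 := by
        intro i j
        rw [Matrix.sub_apply]
        nlinarith [sq_nonneg ((φ g : Mn n) i j - (1 : Mn n) i j - (1 : Mn n) i j)]
      calc hs (φ g : Mn n) = ∑ i, ∑ j, ((φ g : Mn n) i j) ^ 2 := rfl
        _ ≤ ∑ i, ∑ j, (2 * ((φ g : Mn n) - 1) i j ^ 2 + 2 * ((1 : Mn n) i j) ^ 2) :=
            Finset.sum_le_sum fun i _ => Finset.sum_le_sum fun j _ => h i j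
        _ = _ := by
            simp only [hs, Finset.mul_sum, Finset.sum_add_distrib]
    rw [hs_one] at hle
    linarith

/-- Polynomial growth of the balls, in the form of a convergent series. -/
theorem summable_hs_pow (hn : 0 < n) (φ : G →* SpecialLinearGroup (Fin n) ℝ)
    (fin : ∀ R : ℝ, {g : G | hs (φ g : Mn n) ≤ R}.Finite) :
    Summable (fun b : G => ((hs (φ b : Mn n)) ^ (2 + (2 * n + 1) * (n * n)))⁻¹) := by
  classical
  obtain ⟨δ, hδ, hgap⟩ := exists_gap φ fin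
  set A : ℝ := (n : ℝ) ^ 2 * (n.factorial : ℝ) ^ 2 with hA
  have hApos : 0 < A := by positivity
  obtain ⟨c, hc, hcδ⟩ : ∃ c : ℝ, 0 < c ∧ (n : ℝ) ^ 2 * A = c ^ 2 * δ := by
    refine ⟨Real.sqrt ((n : ℝ) ^ 2 * A / δ), by positivity, ?_⟩
    rw [Real.sq_sqrt (by positivity)]
    field_simp
  have h1 : ∀ b : G, 1 ≤ hs (φ b : Mn n) := fun b => one_le_hs hn _ (φ b).det_coe
  -- the coding map
  let mm : G → ℕ := fun b => ⌊hs (φ b : Mn n)⌋₊
  let zz : G → Fin n → Fin n → ℤ := fun b i j => ⌊c * (mm b + 1) ^ n * (φ b : Mn n) i j⌋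
  have hm1 : ∀ b, hs (φ b : Mn n) < mm b + 1 := fun b => Nat.lt_floor_add_one _
  have hm2 : ∀ b, (mm b : ℝ) ≤ hs (φ b : Mn n) := fun b => Nat.floor_le (hs_nn _)
  let F : G → ℕ × (Fin n → Fin n → ℤ) := fun b => (mm b, zz b)
  have hF : ∀ b b', F b = F b' → φ (b⁻¹ * b') = 1 := by
    intro b b' hbb
    have hm : mm b = mm b' := congrArg Prod.fst hbb
    have hz : zz b = zz b' := congrArg Prod.snd hbb
    by_contra hne
    have hg := hgap _ hne
    have hm0 : (0 : ℝ) < (mm b : ℝ) + 1 := by positivity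
    have hK : 0 < c * ((mm b : ℝ) + 1) ^ n := by positivity
    -- entries are close
    have hent : ∀ i j, (((φ b' : Mn n) - (φ b : Mn n)) i j) ^ 2 ≤
        ((c * ((mm b : ℝ) + 1) ^ n) ^ 2)⁻¹ := by
      intro i j
      have h1 : zz b i j = zz b' i j := by rw [hz]
      have h2 := Int.abs_sub_lt_one_of_floor_eq_floor h1.symm
      rw [← hm, ← mul_sub, abs_mul, abs_of_pos hK] at h2
      have h4 : (c * ((mm b : ℝ) + 1) ^ n) ^ 2 * ((φ b' : Mn n) i j - (φ b : Mn n) i j) ^ 2 < 1 := by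
        rw [← mul_pow, ← sq_abs, abs_mul, abs_of_pos hK]
        have h5 := mul_nonneg hK.le (abs_nonneg ((φ b' : Mn n) i j - (φ b : Mn n) i j))
        nlinarith
      rw [Matrix.sub_apply, ← one_div, le_div_iff₀ (by positivity), mul_comm]
      exact h4.le
    have hclose : hs ((φ b' : Mn n) - (φ b : Mn n)) ≤
        (n : ℝ) ^ 2 * ((c * ((mm b : ℝ) + 1) ^ n) ^ 2)⁻¹ := by
      calc hs ((φ b' : Mn n) - (φ b : Mn n))
          = ∑ i, ∑ j, (((φ b' : Mn n) - (φ b : Mn n)) i j) ^ 2 := rfl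
        _ ≤ ∑ i : Fin n, ∑ j : Fin n, ((c * ((mm b : ℝ) + 1) ^ n) ^ 2)⁻¹ :=
            Finset.sum_le_sum fun i _ => Finset.sum_le_sum fun j _ => hent i j
        _ = (n : ℝ) ^ 2 * ((c * ((mm b : ℝ) + 1) ^ n) ^ 2)⁻¹ := by
            simp; ring
    have heq : (φ (b⁻¹ * b') : Mn n) - 1 =
        ((φ b)⁻¹ : SpecialLinearGroup (Fin n) ℝ).1 * ((φ b' : Mn n) - (φ b : Mn n)) := by
      rw [map_mul, map_inv, Matrix.SpecialLinearGroup.coe_mul, Matrix.mul_sub]
      congr 1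
      have : (((φ b)⁻¹ * φ b : SpecialLinearGroup (Fin n) ℝ) : Mn n) = 1 := by
        rw [inv_mul_cancel]; rfl
      rw [← this, Matrix.SpecialLinearGroup.coe_mul]
    have h6 : hs ((φ (b⁻¹ * b') : Mn n) - 1) ≤
        hs (((φ b)⁻¹ : SpecialLinearGroup (Fin n) ℝ) : Mn n) *
          ((n : ℝ) ^ 2 * ((c * ((mm b : ℝ) + 1) ^ n) ^ 2)⁻¹) := by
      rw [heq]
      exact (hs_mul_le _ _).trans (mul_le_mul_of_nonneg_left hclose (hs_nn _))
    have h7 : hs (((φ b)⁻¹ : SpecialLinearGroup (Fin n) ℝ) : Mn n) <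
        A * ((mm b : ℝ) + 1) ^ (2 * n) := by
      refine (hs_inv_le hn (φ b)).trans_lt ?_
      exact mul_lt_mul_of_pos_left (pow_lt_pow_left₀ (hm1 b) (hs_nn _) (by omega)) hApos
    have h8 : hs (((φ b)⁻¹ : SpecialLinearGroup (Fin n) ℝ) : Mn n) *
        ((n : ℝ) ^ 2 * ((c * ((mm b : ℝ) + 1) ^ n) ^ 2)⁻¹) < δ := by
      rw [← div_eq_mul_inv, ← mul_div_assoc, div_lt_iff₀ (by positivity), mul_pow, ← pow_mul,
        mul_comm n 2]
      have hn2 : (0 : ℝ) < (n : ℝ) ^ 2 := by positivity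
      calc hs (((φ b)⁻¹ : SpecialLinearGroup (Fin n) ℝ) : Mn n) * (n : ℝ) ^ 2
          < A * ((mm b : ℝ) + 1) ^ (2 * n) * (n : ℝ) ^ 2 := mul_lt_mul_of_pos_right h7 hn2
        _ = (n : ℝ) ^ 2 * A * ((mm b : ℝ) + 1) ^ (2 * n) := by ring
        _ = δ * (c ^ 2 * ((mm b : ℝ) + 1) ^ (2 * n)) := by rw [hcδ]; ring
    linarith
  -- the kernel is finite
  have hker : Finite φ.ker := by
    have : (φ.ker : Set G) ⊆ {g : G | hs (φ g : Mn n) ≤ n} := by
      intro g hg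
      have hg1 : φ g = 1 := hg
      show hs (φ g : Mn n) ≤ n
      rw [hg1]
      exact (hs_one (n := n)).le
    exact ((fin n).subset this).to_subtype
  have := Fintype.ofFinite φ.ker
  -- representatives of the fibres
  let rep : ℕ × (Fin n → Fin n → ℤ) → G := fun x => if h : ∃ b, F b = x then h.choose else 1
  have hrep : ∀ b, F (rep (F b)) = F b := by
    intro b
    have h : ∃ b', F b' = F b := ⟨b, rfl⟩
    have : rep (F b) = h.choose := by
      show (if h : ∃ b', F b' = F b then h.choose else 1) = h.choose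
      rw [dif_pos h]
    rw [this]
    exact h.choose_spec
  let Ψ : G → (ℕ × (Fin n → Fin n → ℤ)) × φ.ker :=
    fun b => (F b, ⟨(rep (F b))⁻¹ * b, hF _ _ (hrep b)⟩)
  have hΨ : Function.Injective Ψ := by
    intro b b' h
    have h1 : F b = F b' := congrArg Prod.fst h
    have h2 : (rep (F b))⁻¹ * b = (rep (F b'))⁻¹ * b' :=
      congrArg Subtype.val (congrArg Prod.snd h)
    rw [h1] at h2
    exact mul_left_cancel h2
  -- the summable majorant
  have s1 : Summable (fun m : ℕ => (((m : ℝ) + 1) ^ 2)⁻¹) := by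
    have := (summable_nat_add_iff 1).2 (Real.summable_one_div_nat_pow.2 (by norm_num : 1 < 2))
    refine this.congr fun m => ?_
    push_cast
    rw [one_div]
  have t1 := summable_pi _ (fun m : ℤ => (by positivity : (0:ℝ) ≤ (max 1 ((m : ℝ) ^ 2))⁻¹))
    summable_h n
  have t2 := summable_pi _ (fun f : Fin n → ℤ =>
    (Finset.prod_nonneg fun i _ => by positivity :
      (0:ℝ) ≤ ∏ i, (max 1 ((f i : ℝ) ^ 2))⁻¹)) t1 n
  let P : (Fin n → Fin n → ℤ) → ℝ := fun f => ∏ i, ∏ j, (max 1 ((f i j : ℝ) ^ 2))⁻¹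
  have t2' : Summable P := t2
  have hP0 : (0 : (Fin n → Fin n → ℤ) → ℝ) ≤ P := fun f =>
    Finset.prod_nonneg fun i _ => Finset.prod_nonneg fun j _ => by positivity
  have hQ0 : (0 : ℕ → ℝ) ≤ fun m : ℕ => (((m : ℝ) + 1) ^ 2)⁻¹ := fun m => by positivity
  have s2 := Summable.mul_of_nonneg s1 t2' hQ0 hP0
  have hW0 : (0 : ℕ × (Fin n → Fin n → ℤ) → ℝ) ≤
      fun x => (((x.1 : ℝ) + 1) ^ 2)⁻¹ * P x.2 := fun x => mul_nonneg (hQ0 x.1) (hP0 x.2)
  have s3 : Summable (fun _ : φ.ker => (1 : ℝ)) := summable_of_hasFiniteSupport (Set.toFinite _)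
  have s4 := Summable.mul_of_nonneg s2 s3 hW0 (fun _ => zero_le_one)
  have s5 := (s4.comp_injective hΨ)
  set D : ℝ := 2 * (c ^ 2 * 2 ^ (2 * n)) + 2 with hD
  have hD2 : 2 ≤ D := by
    have : 0 ≤ c ^ 2 * 2 ^ (2 * n) := by positivity
    linarith
  refine Summable.of_nonneg_of_le (fun b => ?_) (fun b => ?_) (s5.mul_left (4 * D ^ (n * n)))
  · have := h1 b
    positivity
  · have hr := h1 b
    simp only [Function.comp, mul_one, Ψ, F, P]
    set r := hs (φ b : Mn n) with hrdef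
    have hr0 : 0 < r := by linarith
    have hm1' : (mm b : ℝ) + 1 ≤ 2 * r := by have := hm2 b; linarith
    have hmpos : (0 : ℝ) < (mm b : ℝ) + 1 := by positivity
    have hz : ∀ i j, max 1 ((zz b i j : ℝ) ^ 2) ≤ D * r ^ (2 * n + 1) := by
      intro i j
      have hrr : 1 ≤ r ^ (2 * n + 1) := one_le_pow₀ hr
      refine max_le (by nlinarith) ?_
      have hx : |(zz b i j : ℝ) - c * ((mm b : ℝ) + 1) ^ n * (φ b : Mn n) i j| ≤ 1 := by
        rw [abs_le]
        have l1 := Int.floor_le (c * ((mm b : ℝ) + 1) ^ n * (φ b : Mn n) i j)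
        have l2 := Int.lt_floor_add_one (c * ((mm b : ℝ) + 1) ^ n * (φ b : Mn n) i j)
        constructor
        · simp only [zz]; linarith
        · simp only [zz]; linarith
      have hx2 := (abs_le.1 hx)
      set y := c * ((mm b : ℝ) + 1) ^ n * (φ b : Mn n) i j with hy
      have hy2 : y ^ 2 ≤ c ^ 2 * (2 * r) ^ (2 * n) * r := by
        rw [hy, mul_pow, mul_pow, ← pow_mul, mul_comm n 2]
        refine mul_le_mul (mul_le_mul_of_nonneg_left
          (pow_le_pow_left₀ hmpos.le hm1' _) (sq_nonneg c)) (sq_entry_le _ i j) (sq_nonneg _)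
          (by positivity)
      have hz2 : (zz b i j : ℝ) ^ 2 ≤ 2 * y ^ 2 + 2 := by
        nlinarith [sq_nonneg ((zz b i j : ℝ) - 2 * y), hx2.1, hx2.2]
      calc (zz b i j : ℝ) ^ 2 ≤ 2 * y ^ 2 + 2 := hz2
        _ ≤ 2 * (c ^ 2 * (2 * r) ^ (2 * n) * r) + 2 * r ^ (2 * n + 1) := by linarith
        _ = D * r ^ (2 * n + 1) := by rw [hD, mul_pow]; ring
    have hprod : ∏ i : Fin n, ∏ j : Fin n, max 1 ((zz b i j : ℝ) ^ 2) ≤
        (D * r ^ (2 * n + 1)) ^ (n * n) := by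
      have : (D * r ^ (2 * n + 1)) ^ (n * n) =
          ∏ i : Fin n, ∏ j : Fin n, (D * r ^ (2 * n + 1)) := by
        simp only [Finset.prod_const, Finset.card_univ, Fintype.card_fin, ← pow_mul]
      rw [this]
      exact Finset.prod_le_prod (fun i _ => Finset.prod_nonneg fun j _ => by positivity)
        fun i _ => Finset.prod_le_prod (fun j _ => by positivity) fun j _ => hz i j
    have hpp : 0 < ∏ i : Fin n, ∏ j : Fin n, max 1 ((zz b i j : ℝ) ^ 2) :=
      Finset.prod_pos fun i _ => Finset.prod_pos fun j _ => by positivity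
    simp only [Finset.prod_inv_distrib]
    rw [← mul_inv, ← div_eq_mul_inv, le_div_iff₀ (mul_pos (by positivity) hpp),
      inv_mul_le_iff₀ (by positivity)]
    calc ((mm b : ℝ) + 1) ^ 2 * ∏ i : Fin n, ∏ j : Fin n, max 1 ((zz b i j : ℝ) ^ 2)
        ≤ (2 * r) ^ 2 * (D * r ^ (2 * n + 1)) ^ (n * n) :=
          mul_le_mul (pow_le_pow_left₀ hmpos.le hm1' 2) hprod hpp.le (by positivity)
      _ = r ^ (2 + (2 * n + 1) * (n * n)) * (4 * D ^ (n * n)) := by
          rw [mul_pow D, ← pow_mul r, pow_add]; ring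

/-- Summability for all `n` (for `n = 0` the group is finite). -/
theorem summable_hs (φ : G →* SpecialLinearGroup (Fin n) ℝ)
    (fin : ∀ R : ℝ, {g : G | hs (φ g : Mn n) ≤ R}.Finite) :
    ∃ N : ℕ, 0 < N ∧ Summable (fun b : G => ((hs (φ b : Mn n)) ^ N)⁻¹) := by
  rcases Nat.eq_zero_or_pos n with rfl | hn
  · refine ⟨1, one_pos, ?_⟩
    have : Finite G := by
      have h : {g : G | hs (φ g : Mn 0) ≤ 0} = Set.univ := by
        ext g; simp [hs]
      have h2 := fin 0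
      rw [h] at h2
      exact Set.finite_univ_iff.1 h2
    exact summable_of_hasFiniteSupport (Set.toFinite _)
  · exact ⟨_, by omega, summable_hs_pow hn φ fin⟩

lemma hsn_eq (m : Mn n) : hsn m = hs m := rfl

/-- Block [R1e]. -/
theorem r1e.{u} : R1e.{u} := by
  intro n Γ _ φ hn fin
  refine ⟨2 + (2 * n + 1) * (n * n), by omega, ?_⟩
  have h := summable_hs_pow hn φ fin
  exact (Equiv.inv Γ).summable_iff.2 h

end Vale.Agent.P092.H124
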